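import Vale.Agent.P028.MathlibUsed
import Vale.Agent.P028.Bd3.B5

set_option linter.all false

section

/-!
# The anatomical function `∑_{p ∣ q} p^{-σ}`
-/

namespace Vale.P028

open Finset

/-- `∑_{p ∣ q} p^{-σ}` -/
noncomputable def sg (σ : ℝ) (q : ℕ) : ℝ := ∑ p ∈ q.primeFactors, (p : ℝ) ^ (-σ)

end Vale.P028

end

section

/-!
# The anatomical function `∑_{p ∣ q} (log p)^A / p`
-/

namespace Vale.P028

open Finset

/-- `∑_{p ∣ q} (log p)^A / p` -/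
noncomputable def hg (A : ℝ) (q : ℕ) : ℝ := ∑ p ∈ q.primeFactors, (Real.log p) ^ A / p

theorem hg_nonneg (A : ℝ) (q : ℕ) : 0 ≤ hg A q := by
  unfold hg
  refine sum_nonneg fun p hp => ?_
  have h1 : (1 : ℝ) ≤ p := by exact_mod_cast (Nat.prime_of_mem_primeFactors hp).one_lt.le
  exact div_nonneg (Real.rpow_nonneg (Real.log_nonneg h1) _) (by linarith)

/-- the tail of `∑ 1/p` -/
theorem LL_le_hg {A y : ℝ} (hA : 0 ≤ A) (hy : 1 < y) (q : ℕ) :
    LL y q ≤ (Real.log y) ^ (-A) * hg A q := by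
  unfold LL hg
  rw [mul_sum]
  have hly : 0 < Real.log y := Real.log_pos hy
  have h0 : ∀ p ∈ q.primeFactors, 0 ≤ (Real.log y) ^ (-A) * ((Real.log p) ^ A / p) := by
    intro p hp
    have h1 : (1 : ℝ) ≤ p := by exact_mod_cast (Nat.prime_of_mem_primeFactors hp).one_lt.le
    exact mul_nonneg (Real.rpow_nonneg hly.le _)
      (div_nonneg (Real.rpow_nonneg (Real.log_nonneg h1) _) (by linarith))
  refine le_trans (sum_le_sum (f := fun p : ℕ => 1 / (p : ℝ))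
    (g := fun p : ℕ => (Real.log y) ^ (-A) * ((Real.log p) ^ A / p)) ?_)
    (sum_le_sum_of_subset_of_nonneg (filter_subset _ _) fun p hp _ => h0 p hp)
  intro p hp
  rw [mem_filter] at hp
  have hp0 : (0 : ℝ) < p := by linarith [hp.2]
  have h1 : Real.log y ≤ Real.log p := Real.log_le_log (by linarith) hp.2.le
  have h2 : (Real.log y) ^ A ≤ (Real.log p) ^ A := Real.rpow_le_rpow hly.le h1 hA
  have h3 : 1 ≤ (Real.log y) ^ (-A) * (Real.log p) ^ A := by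
    rw [Real.rpow_neg hly.le, inv_mul_eq_div, one_le_div (Real.rpow_pos_of_pos hly _)]
    exact h2
  rw [mul_div_assoc', div_le_div_iff_of_pos_right hp0]
  exact h3

end Vale.P028

end

section

/-!
# `T1gen` with an anatomical hypothesis on the moduli

Copy of `T1gen` (KGen.lean); the hypothesis `4 * log q ≤ S * y` is only used in `weightB`
(MCaseB.lean); here it is replaced by `LL y q ≤ S / 4` (`LL y q = ∑_{p ∣ q, p > y} 1/p`):
`∏_{p ∣ q, p > y} (1 - 1/(S p)) ≥ 1 - LL y q / S ≥ 3/4`.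
-/

namespace Vale.P028

open Finset

/-- `weightB` with the anatomical hypothesis -/
theorem weightT {S y : ℝ} (hS : 0 < S) (hy0 : 0 < y) (hS1 : 1 ≤ S * y) {q : ℕ} (hq : 0 < q)
    (hSy : LL y q ≤ S / 4) (P : Finset ℕ) (hP : ∀ p ∈ P, p.Prime) :
    ((q.totient : ℝ) / q) ≤ 2 * ∏ p ∈ P with p ∣ q, (1 - xB S y p) := by
  refine (totient_weight_le P hP q).trans ?_
  set Q : Finset ℕ := P.filter (fun p => p ∣ q) with hQ
  have hQp : ∀ p ∈ Q, p.Prime := fun p hp => hP p (mem_filter.1 hp).1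
  have hQd : ∀ p ∈ Q, p ∣ q := fun p hp => (mem_filter.1 hp).2
  rw [← prod_filter_mul_prod_filter_not Q (fun p : ℕ => (p : ℝ) ≤ y) (fun p => 1 - 1 / (p : ℝ)),
    ← prod_filter_mul_prod_filter_not Q (fun p : ℕ => (p : ℝ) ≤ y) (fun p => 1 - xB S y p)]
  have h1 : ∏ p ∈ Q.filter (fun p : ℕ => (p : ℝ) ≤ y), (1 - 1 / (p : ℝ)) =
      ∏ p ∈ Q.filter (fun p : ℕ => (p : ℝ) ≤ y), (1 - xB S y p) := by
    refine prod_congr rfl fun p hp => ?_
    unfold xB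
    rw [if_pos (mem_filter.1 hp).2]
  have hinv : ∀ p ∈ Q, 0 ≤ 1 / (p : ℝ) ∧ 1 / (p : ℝ) ≤ 1 := by
    intro p hp
    have hp1 : (1 : ℝ) ≤ p := by exact_mod_cast (hQp p hp).one_lt.le
    refine ⟨by (clear * - hp1; positivity), ?_⟩
    rw [div_le_one (by linarith only [hp1])]
    exact hp1
  have h2 : ∏ p ∈ Q.filter (fun p : ℕ => ¬ (p : ℝ) ≤ y), (1 - 1 / (p : ℝ)) ≤ 1 := by
    refine prod_le_one ?_ ?_
    · intro p hp
      have := hinv p (mem_filter.1 hp).1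
      linarith only [this]
    · intro p hp
      have := hinv p (mem_filter.1 hp).1
      linarith only [this]
  have h3 : 0 ≤ ∏ p ∈ Q.filter (fun p : ℕ => (p : ℝ) ≤ y), (1 - xB S y p) := by
    rw [← h1]
    refine prod_nonneg fun p hp => ?_
    have := hinv p (mem_filter.1 hp).1
    linarith only [this]
  have hx : ∀ p ∈ Q.filter (fun p : ℕ => ¬ (p : ℝ) ≤ y), 0 ≤ xB S y p ∧ xB S y p ≤ 1 / (S * y) := by
    intro p hp
    have h4 := (mem_filter.1 hp).2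
    unfold xB
    rw [if_neg h4]
    push Not at h4
    have hp0 : (0 : ℝ) < p := hy0.trans h4
    refine ⟨by (clear * - hS hp0; positivity), ?_⟩
    apply one_div_le_one_div_of_le (by positivity)
    (clear * - h4 hS; gcongr)
  have hone : 1 / (S * y) ≤ 1 := by
    rw [div_le_one (by positivity)]
    exact hS1
  have h4 := one_sub_sum_le_prod (Q.filter (fun p : ℕ => ¬ (p : ℝ) ≤ y)) (xB S y)
    (fun p hp => ⟨(hx p hp).1, (hx p hp).2.trans hone⟩)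
  have h5 : ∑ p ∈ Q.filter (fun p : ℕ => ¬ (p : ℝ) ≤ y), xB S y p ≤ 1 / 2 := by
    calc ∑ p ∈ Q.filter (fun p : ℕ => ¬ (p : ℝ) ≤ y), xB S y p
        = ∑ p ∈ Q.filter (fun p : ℕ => ¬ (p : ℝ) ≤ y), 1 / S * (1 / (p : ℝ)) := by
          refine sum_congr rfl fun p hp => ?_
          unfold xB
          rw [if_neg (mem_filter.1 hp).2, one_div_mul_one_div]
      _ = 1 / S * ∑ p ∈ Q.filter (fun p : ℕ => ¬ (p : ℝ) ≤ y), 1 / (p : ℝ) := by rw [mul_sum]
      _ ≤ 1 / S * LL y q := by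
          refine mul_le_mul_of_nonneg_left ?_ (by positivity)
          unfold LL
          refine sum_le_sum_of_subset_of_nonneg ?_ fun p _ _ => by positivity
          intro p hp
          have h6 := (mem_filter.1 hp).1
          exact mem_filter.2 ⟨Nat.mem_primeFactors.2 ⟨hQp p h6, hQd p h6, hq.ne'⟩,
            not_le.1 (mem_filter.1 hp).2⟩
      _ ≤ 1 / S * (S / 4) := mul_le_mul_of_nonneg_left hSy (by positivity)
      _ = 1 / 4 := by field_simp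
      _ ≤ 1 / 2 := by norm_num
  rw [h1]
  have h6 : 1 / 2 ≤ ∏ p ∈ Q.filter (fun p : ℕ => ¬ (p : ℝ) ≤ y), (1 - xB S y p) := by linarith only [h4, h5]
  calc (∏ p ∈ Q.filter (fun p : ℕ => (p : ℝ) ≤ y), (1 - xB S y p)) *
        ∏ p ∈ Q.filter (fun p : ℕ => ¬ (p : ℝ) ≤ y), (1 - 1 / (p : ℝ))
      ≤ (∏ p ∈ Q.filter (fun p : ℕ => (p : ℝ) ≤ y), (1 - xB S y p)) * 1 :=
        mul_le_mul_of_nonneg_left h2 h3
    _ ≤ (∏ p ∈ Q.filter (fun p : ℕ => (p : ℝ) ≤ y), (1 - xB S y p)) *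
        (2 * ∏ p ∈ Q.filter (fun p : ℕ => ¬ (p : ℝ) ≤ y), (1 - xB S y p)) :=
        mul_le_mul_of_nonneg_left (by linarith only [h4, h5]) h3
    _ = _ := by ring

open Classical in
theorem T1genT {θ : ℝ} (hθ : 1 / 2 < θ) (hθ1 : θ < 1) :
    ∃ B₀ > 0, ∃ C > 0, ∀ (Ω : ℕ → ℕ → Prop) (S y : ℝ), 0 < S → S ≤ 1 → 0 < y →
      2 ≤ Real.log y → 1 ≤ S * y * B₀ → 1 ≤ S * y → S ^ (-(2 * θ)) ≤ y ^ (θ - 1 / 2) →
      (∀ a b : ℕ, 0 < a → 0 < b → (a : ℝ) ≤ S ^ (-Real.log y) →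
        (b : ℝ) ≤ S ^ (-Real.log y) → ∀ q₀ r₀ : ℕ, 0 < q₀ → 0 < r₀ → Ω (a * q₀) (b * r₀) →
        (((Icc 1 q₀).filter (fun m => Ω (a * m) (b * r₀))).card : ℝ) *
          (((Icc 1 r₀).filter (fun n => Ω (a * q₀) (b * n))).card : ℝ) ≤ S * q₀ * r₀) →
      ∀ (ψ₁ ψ₂ f h : ℕ → ℝ) (s₁ s₂ : ℝ) (N : ℕ), 0 < s₁ → 0 < s₂ →
        (∀ q, 0 ≤ ψ₁ q) → (∀ q, 0 ≤ ψ₂ q) →
        (∀ q, 0 ≤ f q ∧ f q ≤ ψ₁ q * (q.totient / q)) →
        (∀ r, 0 ≤ h r ∧ h r ≤ ψ₂ r * (r.totient / r)) →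
        (∀ q : ℕ, f q ≠ 0 → 0 < q ∧ LL y q ≤ S / 4) →
        (∀ q : ℕ, h q ≠ 0 → 0 < q ∧ LL y q ≤ S / 4) →
        psum (fun q r => Ω (cofac q r) (cofac r q) ∧ (cofac r q : ℝ) * ψ₁ q ≤ s₁ ∧
          (cofac q r : ℝ) * ψ₂ r ≤ s₂) N f h ≤
        C * (s₁ * s₂ * S) ^ (1 - θ) * ((∑ q ∈ Icc 1 N, f q) * ∑ r ∈ Icc 1 N, h r) ^ θ := by
  obtain ⟨B₀, hB₀, C, hC, hB₀1, hSPs⟩ := SP_small hθ hθ1
  obtain ⟨K₀, hK₀, hprod⟩ := prod_cB (C := C) hθ hθ1 hB₀ hC
  refine ⟨B₀, hB₀, K₀ * 64 ^ (1 - θ), by (clear * - hK₀; positivity), ?_⟩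
  intro Ω S y hS0 hS1 hy0 hly hn1 hn2 hn3 hdens ψ₁ ψ₂ f h s₁ s₂ N hs₁ hs₂ hψ₁ hψ₂ hf hh hsf hsh
  have hy1 : 1 < y := by
    by_contra hne
    push Not at hne
    have := Real.log_nonpos hy0.le hne
    linarith only [hly, this]
  have hbase := kg_base Ω hθ hθ1 hS0 hS1 hy1 hdens
  have hl0 : 0 < 1 - θ := by linarith only [hθ1]
  set P : Finset ℕ := (Icc 1 N).filter Nat.Prime with hPdef
  have hP : ∀ p ∈ P, p.Prime := fun p hp => (mem_filter.1 hp).2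
  have hxlt : ∀ p : ℕ, p.Prime → xB S y p < 1 := by
    intro p hp
    obtain ⟨h1, h2⟩ := xB_le hS0 hly hp
    by_cases hpy : (p : ℝ) ≤ y
    · have h3 := (BqB_bounds (S := S) hly hp hpy).2.2.2
      have h4 : ((1 / 2 : ℝ)) ^ (1 / 2 : ℝ) < 1 :=
        Real.rpow_lt_one (by norm_num) (by norm_num) (by norm_num)
      linarith only [h2, h3, h4]
    · have h3 := (BqB_large hS0 hB₀ hy0 hn1 hpy).1
      linarith only [hB₀1, h2, h3]
  have hB0 : ∀ p : ℕ, p.Prime → 0 ≤ (BqB S y p) ^ (1 - θ) := by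
    intro p hp
    obtain ⟨h1, h2⟩ := xB_le hS0 hly hp
    exact Real.rpow_nonneg (by linarith only [h1, h2]) _
  have hg : ∀ p : ℕ, p.Prime → ∀ a b l : ℕ, 0 < a → 0 < b →
      KB θ S y (a * p ^ l) b ≤ ((BqB S y p) ^ (1 - θ)) ^ l * KB θ S y a b := by
    intro p hp a b l ha hb
    rw [KB_grow hp a b l ha hb, BqB_eq hS0 hp]
  have hF0 : 0 ≤ ∑ q ∈ Icc 1 N, f q := sum_nonneg fun q _ => (hf q).1
  have hH0 : 0 ≤ ∑ q ∈ Icc 1 N, h q := sum_nonneg fun q _ => (hh q).1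
  have hw : ∀ (ψ f : ℕ → ℝ), (∀ q, 0 ≤ ψ q) → (∀ q, 0 ≤ f q ∧ f q ≤ ψ q * (q.totient / q)) →
      (∀ q : ℕ, f q ≠ 0 → 0 < q ∧ LL y q ≤ S / 4) →
      ∀ q, 0 ≤ f q ∧ f q ≤ (2 * ψ q) * ∏ p ∈ P with p ∣ q, (1 - xB S y p) := by
    intro ψ f hψ hf hsupp q
    refine ⟨(hf q).1, ?_⟩
    have hprod0 : 0 ≤ ∏ p ∈ P with p ∣ q, (1 - xB S y p) := by
      refine prod_nonneg fun p hp => ?_
      have := hxlt p (hP p (mem_filter.1 hp).1)
      linarith only [this]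
    by_cases h0 : f q = 0
    · rw [h0]
      have := hψ q
      (clear * - this hprod0; positivity)
    · obtain ⟨hq, hq4⟩ := hsupp q h0
      have h1 := weightT hS0 hy0 hn2 hq hq4 P hP
      calc f q ≤ ψ q * (q.totient / q) := (hf q).2
        _ ≤ ψ q * (2 * ∏ p ∈ P with p ∣ q, (1 - xB S y p)) :=
            mul_le_mul_of_nonneg_left h1 (hψ q)
        _ = (2 * ψ q) * ∏ p ∈ P with p ∣ q, (1 - xB S y p) := by ring
  have hL := theoremL Ω hθ hθ1 (KB θ S y)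
    (fun a b => KB_nonneg hθ1 hS0 hS1 hy1 a b) hbase P hP
    (fun p => (BqB S y p) ^ (1 - θ)) (xB S y) (cMB θ B₀ C S y)
    (fun p hp => hB0 p (hP p hp))
    (fun p hp => ⟨(xB_le hS0 hly (hP p hp)).1.le, hxlt p (hP p hp)⟩)
    (fun p hp => cB_nonneg hθ1 hB₀ hC hS0 hy0 hly hn1 (hP p hp))
    (fun p hp a b l ha hb => hg p (hP p hp) a b l ha hb)
    (fun p hp a b l ha hb => by
      rw [KB_comm _ _ _ a, KB_comm _ _ _ a b]
      exact hg p (hP p hp) b a l hb ha)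
    (fun p hp => SP_cB hθ hθ1 hB₀ hSPs hS0 hy0 hly hn1 (hP p hp))
    1 1 one_pos one_pos (fun q => 2 * ψ₁ q) (fun q => 2 * ψ₂ q) f h (2 * s₁) (2 * s₂) N
    (by positivity) (by positivity) (fun q => by have := hψ₁ q; (clear * - this; positivity))
    (fun q => by have := hψ₂ q; (clear * - this; positivity)) (hw ψ₁ f hψ₁ hf hsf) (hw ψ₂ h hψ₂ hh hsh)
  have hmono : psum (fun q r => Ω (cofac q r) (cofac r q) ∧ (cofac r q : ℝ) * ψ₁ q ≤ s₁ ∧
          (cofac q r : ℝ) * ψ₂ r ≤ s₂) N f h ≤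
      Lam Ω P 1 1 (fun q => 2 * ψ₁ q) (fun q => 2 * ψ₂ q) (2 * s₁) (2 * s₂) N f h := by
    unfold Lam
    refine psum_mono _ _ N f h f h (fun q => (hf q).1) (fun q => (hh q).1) ?_
    intro q hq r hr hqr hne
    obtain ⟨hr1, hr2, hr3⟩ := hqr
    refine ⟨⟨?_, ?_, ?_, ?_⟩, le_rfl⟩
    · intro p hp hpd
      rw [mem_Icc] at hq
      have h1 : p ∣ q := hpd.trans (Nat.gcd_dvd_left q r)
      have h2 : p ≤ q := Nat.le_of_dvd (by omega) h1
      simp only [hPdef, mem_filter, mem_Icc]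
      exact ⟨⟨hp.one_lt.le, by omega⟩, hp⟩
    · rw [one_mul, one_mul]
      exact hr1
    · push_cast
      linarith only [hr2]
    · push_cast
      linarith only [hr3]
  refine hmono.trans (hL.trans ?_)
  have hK11 : KB θ S y 1 1 = (16 : ℝ) ^ (1 - θ) * S ^ (1 - θ) := by
    unfold KB
    rw [mm_one]
    norm_num
  rw [hK11]
  have hpr := hprod S y hS0 hS1 hy0 hly hn1 hn3 P hP
  have hall : (2 * s₁ * (2 * s₂)) ^ (1 - θ) * ((16 : ℝ) ^ (1 - θ) * S ^ (1 - θ)) =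
      64 ^ (1 - θ) * (s₁ * s₂ * S) ^ (1 - θ) := by
    rw [← Real.mul_rpow (by positivity) (by positivity),
      ← Real.mul_rpow (by (clear * - hs₁ hs₂; positivity)) (by positivity),
      ← Real.mul_rpow (by positivity) (by (clear * - hs₁ hs₂ hS0; positivity))]
    congr 1
    ring
  have hX0 : 0 ≤ (2 * s₁ * (2 * s₂)) ^ (1 - θ) * ((16 : ℝ) ^ (1 - θ) * S ^ (1 - θ)) *
      ((∑ q ∈ Icc 1 N, f q) * ∑ r ∈ Icc 1 N, h r) ^ θ := by (clear * - hs₁ hs₂ hS0 hF0 hH0; positivity)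
  calc (∏ p ∈ P, cMB θ B₀ C S y p) * (2 * s₁ * (2 * s₂)) ^ (1 - θ) *
        ((16 : ℝ) ^ (1 - θ) * S ^ (1 - θ)) *
        ((∑ q ∈ Icc 1 N, f q) * ∑ r ∈ Icc 1 N, h r) ^ θ
      = (∏ p ∈ P, cMB θ B₀ C S y p) * ((2 * s₁ * (2 * s₂)) ^ (1 - θ) *
        ((16 : ℝ) ^ (1 - θ) * S ^ (1 - θ)) *
        ((∑ q ∈ Icc 1 N, f q) * ∑ r ∈ Icc 1 N, h r) ^ θ) := by ring
    _ ≤ K₀ * ((2 * s₁ * (2 * s₂)) ^ (1 - θ) *
        ((16 : ℝ) ^ (1 - θ) * S ^ (1 - θ)) *
        ((∑ q ∈ Icc 1 N, f q) * ∑ r ∈ Icc 1 N, h r) ^ θ) :=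
        mul_le_mul_of_nonneg_right hpr hX0
    _ = K₀ * 64 ^ (1 - θ) * (s₁ * s₂ * S) ^ (1 - θ) *
        ((∑ q ∈ Icc 1 N, f q) * ∑ r ∈ Icc 1 N, h r) ^ θ := by
        rw [hall]
        ring

end Vale.P028

end

section

/-!
# Numerical conditions of the core estimate for far pairs
-/

namespace Vale.P028

open Finset

/-- numerical conditions of the core estimate -/
theorem rcore_num {B₀ σ : ℝ} (hB₀ : 0 < B₀) (hσ : σ < 1) :
    ∃ A : ℝ, 0 < A ∧ ∀ T s : ℝ, 1 ≤ T → 0 < s → s ≤ 1 / 1000 →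
      ∃ y : ℝ, 0 < y ∧ 2 ≤ Real.log y ∧ ∀ S : ℝ, s ≤ S → S ≤ 1 →
        1 ≤ S * y * B₀ ∧ 1 ≤ S * y ∧
        S ^ (-(2 * (501 / 1000 : ℝ))) ≤ y ^ ((501 / 1000 : ℝ) - 1 / 2) ∧
        (∀ q : ℕ, 0 < q → sg σ q ≤ T → LL y q ≤ S / 4) ∧
        1 ≤ S ^ (-Real.log y) ∧
        ∀ V₀ : ℝ, Real.exp (A * (1 + Real.log T + Real.log (1 / s)) * Real.log (1 / s)) ≤ V₀ →
        (S ^ (-Real.log y) / s) ^ 16 ≤ V₀ := by
  obtain ⟨E, hE⟩ : ∃ E : ℝ, E = Real.exp 2 * (4 / B₀ + 4) := ⟨_, rfl⟩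
  obtain ⟨K, hK⟩ : ∃ K : ℝ, K = max 1002 (1 / (1 - σ)) := ⟨_, rfl⟩
  have h1σ : 0 < 1 - σ := by linarith only [hσ]
  have hK1 : 1002 ≤ K := by rw [hK]; exact le_max_left _ _
  have hK0 : 0 < K := by linarith only [hK1]
  have hK2 : 1 ≤ K * (1 - σ) := by
    have : 1 / (1 - σ) ≤ K := by rw [hK]; exact le_max_right _ _
    rwa [div_le_iff₀ h1σ] at this
  have he1 : (1 : ℝ) ≤ Real.exp 2 := Real.one_le_exp (by norm_num)
  have hB4 : 0 < 4 / B₀ := by positivity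
  have hE4 : 4 ≤ E := by
    rw [hE]
    calc (4 : ℝ) ≤ 4 / B₀ + 4 := by linarith only [hB4]
      _ = 1 * (4 / B₀ + 4) := by ring
      _ ≤ Real.exp 2 * (4 / B₀ + 4) :=
        mul_le_mul_of_nonneg_right he1 (by linarith only [hB4])
  have hEB : 1 ≤ E * B₀ := by
    have h1 : 4 / B₀ ≤ E := by
      rw [hE]
      calc 4 / B₀ ≤ 4 / B₀ + 4 := by linarith
        _ = 1 * (4 / B₀ + 4) := by ring
        _ ≤ Real.exp 2 * (4 / B₀ + 4) :=
          mul_le_mul_of_nonneg_right he1 (by linarith only [hB4])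
    have h2 : 4 / B₀ * B₀ ≤ E * B₀ := mul_le_mul_of_nonneg_right h1 hB₀.le
    rw [div_mul_cancel₀ _ hB₀.ne'] at h2
    linarith only [h2]
  have hEe : Real.exp 2 ≤ E := by
    rw [hE]
    calc Real.exp 2 = Real.exp 2 * 1 := by ring
      _ ≤ Real.exp 2 * (4 / B₀ + 4) :=
        mul_le_mul_of_nonneg_left (by linarith only [hB4]) (Real.exp_pos 2).le
  have hE0 : 0 < E := by linarith only [hE4]
  have hlogE : 2 ≤ Real.log E := (Real.le_log_iff_exp_le hE0).2 hEe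
  have hKE : 0 < K * Real.log E := mul_pos hK0 (by linarith only [hlogE])
  refine ⟨16 * (K * Real.log E + K + 1), by positivity, ?_⟩
  intro T s hT hs hs3
  have hT0 : 0 < T := by linarith only [hT]
  have hs1 : s ≤ 1 := by linarith only [hs3]
  obtain ⟨X, hX⟩ : ∃ X : ℝ, X = E * T / s := ⟨_, rfl⟩
  have hET : E ≤ E * T := by
    calc E = E * 1 := by ring
      _ ≤ E * T := mul_le_mul_of_nonneg_left hT hE0.le
  have hX0 : 0 < X := by rw [hX]; positivity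
  have hXs : X * s = E * T := by rw [hX]; field_simp
  have hXE : E ≤ X := by
    rw [hX, le_div_iff₀ hs]
    calc E * s ≤ E * 1 := mul_le_mul_of_nonneg_left hs1 hE0.le
      _ = E := by ring
      _ ≤ E * T := hET
  have hX1 : 1 ≤ X := by linarith only [hXE, hE4]
  have hXinv : 1 / s ≤ X := by
    rw [hX]
    apply div_le_div_of_nonneg_right _ hs.le
    linarith only [hET, hE4]
  obtain ⟨y, hy⟩ : ∃ y : ℝ, y = X ^ K := ⟨_, rfl⟩
  have hy0 : 0 < y := by rw [hy]; exact Real.rpow_pos_of_pos hX0 _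
  have hXy : X ≤ y := by
    calc X = X ^ (1 : ℝ) := (Real.rpow_one X).symm
      _ ≤ X ^ K := Real.rpow_le_rpow_of_exponent_le hX1 (by linarith only [hK1])
      _ = y := hy.symm
  have hlogX : Real.log X = Real.log E + Real.log T + Real.log (1 / s) := by
    rw [hX, div_eq_mul_one_div, Real.log_mul (by positivity) (by positivity),
      Real.log_mul hE0.ne' hT0.ne']
  have hlogy : Real.log y = K * Real.log X := by rw [hy, Real.log_rpow hX0]
  have hlT : 0 ≤ Real.log T := Real.log_nonneg hT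
  have hls : 0 ≤ Real.log (1 / s) := by
    apply Real.log_nonneg
    rw [le_div_iff₀ hs]
    linarith only [hs1]
  have hlX2 : 2 ≤ Real.log X := by linarith only [hlogX, hlogE, hlT, hls]
  have hly2 : 2 ≤ Real.log y := by
    rw [hlogy]
    nlinarith only [hlX2, hK1]
  refine ⟨y, hy0, hly2, ?_⟩
  intro S hsS hS1
  have hS0 : 0 < S := lt_of_lt_of_le hs hsS
  have hSy : E ≤ S * y := by
    calc E ≤ E * T := hET
      _ = s * X := by rw [← hXs]; ring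
      _ ≤ S * y := mul_le_mul hsS hXy hX0.le hS0.le
  refine ⟨?_, ?_, ?_, ?_, ?_, ?_⟩
  · calc (1 : ℝ) ≤ E * B₀ := hEB
      _ ≤ S * y * B₀ := mul_le_mul_of_nonneg_right hSy hB₀.le
  · linarith only [hSy, hE4]
  · have h1 : S ^ (-(2 * (501 / 1000 : ℝ))) ≤ s ^ (-(2 * (501 / 1000 : ℝ))) :=
      Real.rpow_le_rpow_of_nonpos hs hsS (by norm_num)
    have h2 : s ^ (-(2 * (501 / 1000 : ℝ))) = (1 / s) ^ ((1002 / 1000 : ℝ)) := by
      rw [one_div, Real.inv_rpow hs.le, ← Real.rpow_neg hs.le]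
      congr 1
      norm_num
    have h3 : (1 / s) ^ ((1002 / 1000 : ℝ)) ≤ X ^ ((1002 / 1000 : ℝ)) :=
      Real.rpow_le_rpow (by positivity) hXinv (by norm_num)
    have h4 : X ^ ((1002 / 1000 : ℝ)) ≤ X ^ (K * ((501 / 1000 : ℝ) - 1 / 2)) := by
      apply Real.rpow_le_rpow_of_exponent_le hX1
      linarith only [hK1]
    have h5 : y ^ ((501 / 1000 : ℝ) - 1 / 2) = X ^ (K * ((501 / 1000 : ℝ) - 1 / 2)) := by
      rw [hy, ← Real.rpow_mul hX0.le]
    rw [h5]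
    exact h1.trans (h2.le.trans (h3.trans h4))
  · intro q hq hsg
    have h1 : LL y q ≤ y ^ (-(1 - σ)) * sg σ q := by
      unfold LL sg
      rw [mul_sum]
      calc ∑ p ∈ q.primeFactors.filter (fun p : ℕ => y < (p : ℝ)), 1 / (p : ℝ)
          ≤ ∑ p ∈ q.primeFactors.filter (fun p : ℕ => y < (p : ℝ)),
            y ^ (-(1 - σ)) * (p : ℝ) ^ (-σ) := by
            refine sum_le_sum fun p hp => ?_
            have hp1 : y < (p : ℝ) := (mem_filter.1 hp).2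
            have hp0 : (0 : ℝ) < p := hy0.trans hp1
            have e1 : 1 / (p : ℝ) = (p : ℝ) ^ (-(1 - σ)) * (p : ℝ) ^ (-σ) := by
              rw [← Real.rpow_add hp0, one_div, ← Real.rpow_neg_one]
              congr 1
              ring
            rw [e1]
            apply mul_le_mul_of_nonneg_right _ (Real.rpow_nonneg hp0.le _)
            exact Real.rpow_le_rpow_of_nonpos hy0 hp1.le (by linarith only [h1σ])
        _ ≤ ∑ p ∈ q.primeFactors, y ^ (-(1 - σ)) * (p : ℝ) ^ (-σ) := by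
            apply sum_le_sum_of_subset_of_nonneg (filter_subset _ _)
            intro p _ _
            exact mul_nonneg (Real.rpow_nonneg hy0.le _) (Real.rpow_nonneg (Nat.cast_nonneg p) _)
    have h2 : y ^ (-(1 - σ)) ≤ 1 / X := by
      have e1 : y ^ (-(1 - σ)) = X ^ (-(K * (1 - σ))) := by
        rw [hy, ← Real.rpow_mul hX0.le]
        congr 1
        ring
      rw [e1, one_div, ← Real.rpow_neg_one]
      exact Real.rpow_le_rpow_of_exponent_le hX1 (by linarith only [hK2])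
    have h3 : (1 / X) * T ≤ s / 4 := by
      rw [one_div, inv_mul_le_iff₀ hX0]
      have e2 : X * (s / 4) = E * T / 4 := by rw [← hXs]; ring
      rw [e2]
      nlinarith only [hE4, hT0]
    calc LL y q ≤ y ^ (-(1 - σ)) * sg σ q := h1
      _ ≤ y ^ (-(1 - σ)) * T := mul_le_mul_of_nonneg_left hsg (Real.rpow_nonneg hy0.le _)
      _ ≤ (1 / X) * T := mul_le_mul_of_nonneg_right h2 hT0.le
      _ ≤ s / 4 := h3
      _ ≤ S / 4 := by linarith only [hsS]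
  · exact Real.one_le_rpow_of_pos_of_le_one_of_nonpos hS0 hS1 (by linarith only [hly2])
  · intro V₀ hV
    refine le_trans ?_ hV
    have h1 : S ^ (-Real.log y) ≤ s ^ (-Real.log y) :=
      Real.rpow_le_rpow_of_nonpos hs hsS (by linarith only [hly2])
    have h2 : s ^ (-Real.log y) = Real.exp (Real.log y * Real.log (1 / s)) := by
      rw [Real.rpow_def_of_pos hs, one_div, Real.log_inv]
      congr 1
      ring
    have h3 : 1 / s = Real.exp (Real.log (1 / s)) := by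
      rw [Real.exp_log (by positivity)]
    have h4 : S ^ (-Real.log y) / s ≤ Real.exp (Real.log y * Real.log (1 / s) + Real.log (1 / s)) := by
      calc S ^ (-Real.log y) / s = S ^ (-Real.log y) * (1 / s) := by ring
        _ ≤ Real.exp (Real.log y * Real.log (1 / s)) * (1 / s) := by
          rw [← h2]
          exact mul_le_mul_of_nonneg_right h1 (by positivity)
        _ = Real.exp (Real.log y * Real.log (1 / s) + Real.log (1 / s)) := by
          rw [Real.exp_add, ← h3]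
    have h5 : 0 ≤ S ^ (-Real.log y) / s := div_nonneg (Real.rpow_nonneg hS0.le _) hs.le
    calc (S ^ (-Real.log y) / s) ^ 16
        ≤ (Real.exp (Real.log y * Real.log (1 / s) + Real.log (1 / s))) ^ 16 :=
          pow_le_pow_left₀ h5 h4 16
      _ = Real.exp (16 * (Real.log y * Real.log (1 / s) + Real.log (1 / s))) := by
          rw [← Real.exp_nat_mul]
          norm_num
      _ ≤ _ := by
          apply Real.exp_le_exp.2
          have e1 : 16 * (Real.log y * Real.log (1 / s) + Real.log (1 / s)) =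
              16 * (Real.log y + 1) * Real.log (1 / s) := by ring
          rw [e1]
          apply mul_le_mul_of_nonneg_right _ hls
          rw [hlogy, hlogX]
          have hK' : 0 ≤ K := hK0.le
          have a1 : 0 ≤ K * Real.log E * Real.log T := by positivity
          have a2 : 0 ≤ K * Real.log E * Real.log (1 / s) := by positivity
          nlinarith only [a1, a2, hlT, hls, hK', hKE]

end Vale.P028

end

section

/-!
# Core estimate for far pairs with `∑_{p ∣ q} p^{-σ} ≤ T`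

Copy of `kcore_num` and `coreG` (KCore.lean) with `T1genT` instead of `T1gen`.
Numerics: `θ = 501/1000`, `y = (e^2 (4/B₀ + 4) T / s)^K`, `K = max 1002 (1/(1-σ))`; for
`s ≤ S ≤ 1`: `LL y q ≤ y^(-(1-σ)) sg σ q ≤ T y^(-(1-σ)) ≤ s/4 ≤ S/4`;
`(S^(-log y)/s)^16 ≤ exp (16 log y log(1/s) + 16 log(1/s)) ≤ exp (A (1+log T+log(1/s)) log(1/s))`.
-/

namespace Vale.P028

open Finset

open Classical in
theorem coreT {σ : ℝ} (hσ : σ < 1) :
    ∃ θ c A C : ℝ, 1 / 2 < θ ∧ θ < 1 ∧ 0 < c ∧ 0 < A ∧ 0 < C ∧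
      ∀ γ T s V₀ : ℝ, 1 ≤ T → 0 < s → s ≤ 1 / 1000 →
        Real.exp (A * (1 + Real.log T + Real.log (1 / s)) * Real.log (1 / s)) ≤ V₀ →
      ∀ (N : ℕ) (ψ f : ℕ → ℝ), (∀ q, 0 ≤ ψ q) →
        (∀ q, 0 ≤ f q ∧ f q ≤ ψ q * (q.totient / q)) →
        (∀ q, f q ≠ 0 → 0 < q ∧ sg σ q ≤ T) →
        psum (fun q r => Rel γ ψ s q r ∧ Far γ s (cofac q r) (cofac r q) ∧
          V₀ ≤ max (cofac q r : ℝ) (cofac r q : ℝ)) N f f ≤
        C * s ^ (1 + c) * (∑ q ∈ Icc 1 N, f q) ^ (2 * θ) := by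
  classical
  have hθ : (1 / 2 : ℝ) < 501 / 1000 := by norm_num
  have hθ1 : (501 / 1000 : ℝ) < 1 := by norm_num
  obtain ⟨B₀, hB₀, C₁, hC₁, hT1⟩ := T1genT hθ hθ1
  obtain ⟨C₂, hC₂, hT2⟩ := T1_dvd hθ hθ1
  obtain ⟨A, hA, hnum⟩ := rcore_num hB₀ hσ
  refine ⟨501 / 1000, 1 / 64, A, C₁ * 70 + 2 * C₂, hθ, hθ1, by norm_num, hA, by (clear * - hC₁ hC₂; positivity), ?_⟩
  intro γ T s V₀ hT hs hs' hV₀ N ψ f hψ hf hsupp
  obtain ⟨y, hy0, hly, hnum'⟩ := hnum T s hT hs hs'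
  set t : ℝ := s ^ (1 / 16 : ℝ) with ht
  have ht0 : 0 < t := by (clear * - hs; positivity)
  have hst : t ^ 16 = s := by
    rw [ht, ← Real.rpow_natCast, ← Real.rpow_mul hs.le]
    norm_num
  have ht1 : t < 1 := Real.rpow_lt_one hs.le (by linarith only [hs']) (by norm_num)
  have hst' : s ≤ t := by
    rw [← hst]
    calc t ^ 16 ≤ t ^ 1 := pow_le_pow_of_le_one ht0.le ht1.le (by norm_num)
      _ = t := pow_one t
  set S : ℝ := min 1 (70 * t) with hS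
  have hsS : s ≤ S := le_min (by linarith only [hs']) (by linarith only [ht0, hst'])
  have hS1 : S ≤ 1 := min_le_left _ _
  have hS0 : 0 < S := lt_of_lt_of_le hs hsS
  obtain ⟨hn1, hn2, hn3, hn4, hn5, hn6⟩ := hnum' S hsS hS1
  have hn7 := hn6 V₀ hV₀
  set Z : ℝ := S ^ (-Real.log y) with hZ
  have hV0 : 0 < V₀ := lt_of_lt_of_le (Real.exp_pos _) hV₀
  set W : ℝ := V₀ ^ (1 / 4 : ℝ) with hW
  have hW4 : W ^ 4 = V₀ := by
    rw [hW, ← Real.rpow_natCast, ← Real.rpow_mul hV0.le]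
    norm_num
  have hWZ : (Z / s) ^ 4 ≤ W := by
    have h1 : ((Z / s) ^ 16) ^ (1 / 4 : ℝ) ≤ V₀ ^ (1 / 4 : ℝ) :=
      Real.rpow_le_rpow (by (clear * - hs; positivity)) hn7 (by norm_num)
    have h2 : ((Z / s) ^ 16) ^ (1 / 4 : ℝ) = (Z / s) ^ 4 := by
      have h3 : 0 ≤ Z / s := by (clear * - hs; positivity)
      rw [← Real.rpow_natCast (Z / s) 16, ← Real.rpow_mul h3,
        show ((16 : ℕ) : ℝ) * (1 / 4) = ((4 : ℕ) : ℝ) by norm_num, Real.rpow_natCast]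
    rwa [h2] at h1
  have hF0 : 0 ≤ ∑ q ∈ Icc 1 N, f q := sum_nonneg fun q _ => (hf q).1
  have hsupp' : ∀ q : ℕ, f q ≠ 0 → 0 < q ∧ LL y q ≤ S / 4 := fun q hq =>
    ⟨(hsupp q hq).1, hn4 q (hsupp q hq).1 (hsupp q hq).2⟩
  -- the main part
  have hmain := hT1 (OmG γ V₀ W t s) S y hS0 hS1 hy0 hly hn1 hn2 hn3 (by
    intro a b ha hb haZ hbZ q₀ r₀ hq₀ hr₀ hΩ
    rcases le_total (b * r₀) (a * q₀) with h | h
    · have h1 := kc_row ht0 hst hs' hn5 hWZ hW4 ha haZ hq₀ h hΩ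
      have h2 : (((Icc 1 r₀).filter (fun n => OmG γ V₀ W t s (a * q₀) (b * n))).card : ℝ) ≤
          r₀ := card_filter_cl _ _
      calc _ ≤ (S * q₀) * r₀ := mul_le_mul h1 h2 (by (clear * -; positivity)) (by (clear * - hs hq₀; positivity))
        _ = S * q₀ * r₀ := by ring
    · have h1 := kc_row ht0 hst hs' hn5 hWZ hW4 hb hbZ hr₀ h (OmG_comm hΩ)
      have h2 : (((Icc 1 q₀).filter (fun m => OmG γ V₀ W t s (a * m) (b * r₀))).card : ℝ) ≤
          q₀ := card_filter_cl _ _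
      have h3 : ((Icc 1 r₀).filter (fun n => OmG γ V₀ W t s (a * q₀) (b * n))) =
          (Icc 1 r₀).filter (fun n => OmG γ V₀ W t s (b * n) (a * q₀)) := by
        refine filter_congr fun n _ => ⟨fun h => OmG_comm h, fun h => OmG_comm h⟩
      rw [h3]
      calc _ ≤ (q₀ : ℝ) * (S * r₀) := mul_le_mul h2 h1 (by (clear * -; positivity)) (by (clear * - hq₀; positivity))
        _ = S * q₀ * r₀ := by ring) ψ ψ f f s s N hs hs hψ hψ hf hf hsupp' hsupp'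
  have hbad := kc_bad_pairs (γ := γ) (W := W) hθ hθ1 hC₂ hT2 ht0 ht1 hs N ψ f hψ hf
  -- the second bad part, by symmetry
  have hbad' : psum (fun q r => KBadn γ W t (cofac r q) ∧ (cofac r q : ℝ) * ψ q ≤ s ∧
        (cofac q r : ℝ) * ψ r ≤ s) N f f =
      psum (fun q r => KBadn γ W t (cofac q r) ∧ (cofac r q : ℝ) * ψ q ≤ s ∧
        (cofac q r : ℝ) * ψ r ≤ s) N f f := by
    rw [kc_psum_symm]
    congr 1
    funext q r
    rw [eq_iff_iff]
    constructor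
    · rintro ⟨h1, h2, h3⟩
      exact ⟨h1, h3, h2⟩
    · rintro ⟨h1, h2, h3⟩
      exact ⟨h1, h3, h2⟩
  have hsplit : psum (fun q r => Rel γ ψ s q r ∧ Far γ s (cofac q r) (cofac r q) ∧
          V₀ ≤ max (cofac q r : ℝ) (cofac r q : ℝ)) N f f ≤
      psum (fun q r => OmG γ V₀ W t s (cofac q r) (cofac r q) ∧
          (cofac r q : ℝ) * ψ q ≤ s ∧ (cofac q r : ℝ) * ψ r ≤ s) N f f +
      psum (fun q r => KBadn γ W t (cofac q r) ∧ (cofac r q : ℝ) * ψ q ≤ s ∧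
        (cofac q r : ℝ) * ψ r ≤ s) N f f +
      psum (fun q r => KBadn γ W t (cofac r q) ∧ (cofac r q : ℝ) * ψ q ≤ s ∧
        (cofac q r : ℝ) * ψ r ≤ s) N f f := by
    refine kc_psum_cover _ _ _ _ N f (fun q => (hf q).1) ?_
    rintro q r ⟨⟨hr1, hr2, hr3, hr4⟩, hfar, hmax⟩
    by_cases hb1 : KBadn γ W t (cofac q r)
    · exact Or.inr (Or.inl ⟨hb1, hr2, hr3⟩)
    · by_cases hb2 : KBadn γ W t (cofac r q)
      · exact Or.inr (Or.inr ⟨hb2, hr2, hr3⟩)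
      · exact Or.inl ⟨⟨hmax, hr4, hfar, hb1, hb2⟩, hr2, hr3⟩
  refine hsplit.trans ?_
  rw [hbad']
  have hFF : ((∑ q ∈ Icc 1 N, f q) * ∑ r ∈ Icc 1 N, f r) ^ (501 / 1000 : ℝ) =
      (∑ q ∈ Icc 1 N, f q) ^ (2 * (501 / 1000 : ℝ)) := by
    rw [← sq, ← Real.rpow_natCast, ← Real.rpow_mul hF0]
    norm_num
  rw [hFF] at hmain hbad
  set F : ℝ := (∑ q ∈ Icc 1 N, f q) ^ (2 * (501 / 1000 : ℝ)) with hF
  have hFnn : 0 ≤ F := by (clear * - hF0; positivity)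
  -- numerics
  have e1 : (s * s * S) ^ (1 - (501 / 1000 : ℝ)) ≤ 70 * s ^ (1 + 1 / 64 : ℝ) := by
    have h1 : s * s * S ≤ 70 * (s ^ (2 + 1 / 16 : ℝ)) := by
      calc s * s * S ≤ s * s * (70 * t) := by
            have : S ≤ 70 * t := min_le_right _ _
            (clear * - this hs; gcongr)
        _ = 70 * (s ^ (2 + 1 / 16 : ℝ)) := by
            rw [Real.rpow_add hs, ht]
            have : s ^ (2 : ℝ) = s * s := by
              rw [show (2 : ℝ) = ((2 : ℕ) : ℝ) by norm_num, Real.rpow_natCast]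
              ring
            rw [this]
            ring
    calc (s * s * S) ^ (1 - (501 / 1000 : ℝ)) ≤ (70 * (s ^ (2 + 1 / 16 : ℝ))) ^ (1 - (501 / 1000 : ℝ)) :=
          Real.rpow_le_rpow (by (clear * - hs; positivity)) h1 (by norm_num)
      _ = 70 ^ (1 - (501 / 1000 : ℝ)) * (s ^ (2 + 1 / 16 : ℝ)) ^ (1 - (501 / 1000 : ℝ)) :=
          Real.mul_rpow (by norm_num) (by positivity)
      _ ≤ 70 ^ (1 : ℝ) * s ^ (1 + 1 / 64 : ℝ) := by
          refine mul_le_mul ?_ ?_ (by positivity) (by positivity)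
          · exact Real.rpow_le_rpow_of_exponent_le (by norm_num) (by norm_num)
          · rw [← Real.rpow_mul hs.le]
            exact Real.rpow_le_rpow_of_exponent_ge hs (by linarith only [hs']) (by norm_num)
      _ = 70 * s ^ (1 + 1 / 64 : ℝ) := by rw [Real.rpow_one]
  have e2 : (s * s) ^ (1 - (501 / 1000 : ℝ)) * ((1 / t) * (t ^ 3) ^ (1 - (501 / 1000 : ℝ))) ≤
      s ^ (1 + 1 / 64 : ℝ) := by
    have h1 : (s * s) ^ (1 - (501 / 1000 : ℝ)) = s ^ (998 / 1000 : ℝ) := by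
      rw [← sq, ← Real.rpow_natCast, ← Real.rpow_mul hs.le]
      norm_num
    have h2 : (1 / t) * (t ^ 3) ^ (1 - (501 / 1000 : ℝ)) = s ^ (497 / 16000 : ℝ) := by
      rw [← Real.rpow_natCast t 3, ← Real.rpow_mul ht0.le, one_div, ← Real.rpow_neg_one t,
        ← Real.rpow_add ht0, ht, ← Real.rpow_mul hs.le]
      norm_num
    rw [h1, h2, ← Real.rpow_add hs]
    exact Real.rpow_le_rpow_of_exponent_ge hs (by linarith only [hs']) (by norm_num)
  have e3 : C₁ * (s * s * S) ^ (1 - (501 / 1000 : ℝ)) * F ≤ C₁ * (70 * s ^ (1 + 1 / 64 : ℝ)) * F := by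
    (clear * - e1 hC₁ hF0; gcongr)
  have e4 : C₂ * (s * s) ^ (1 - (501 / 1000 : ℝ)) * F *
      ((1 / t) * (t ^ 3) ^ (1 - (501 / 1000 : ℝ))) ≤ C₂ * s ^ (1 + 1 / 64 : ℝ) * F := by
    calc C₂ * (s * s) ^ (1 - (501 / 1000 : ℝ)) * F *
        ((1 / t) * (t ^ 3) ^ (1 - (501 / 1000 : ℝ)))
        = C₂ * ((s * s) ^ (1 - (501 / 1000 : ℝ)) *
          ((1 / t) * (t ^ 3) ^ (1 - (501 / 1000 : ℝ)))) * F := by ring
      _ ≤ C₂ * s ^ (1 + 1 / 64 : ℝ) * F := by (clear * - e2 hC₂ hF0; gcongr)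
  calc _ ≤ C₁ * (70 * s ^ (1 + 1 / 64 : ℝ)) * F + C₂ * s ^ (1 + 1 / 64 : ℝ) * F +
        C₂ * s ^ (1 + 1 / 64 : ℝ) * F := by
        have h1 := hmain.trans e3
        have h2 := hbad.trans e4
        linarith only [hmain, hbad, e3, e4]
    _ = (C₁ * 70 + 2 * C₂) * s ^ (1 + 1 / 64 : ℝ) * F := by ring

end Vale.P028

end

section

/-!
# Numerics of the hard range for `coreT`
-/

namespace Vale.P028

/-- `K t ^ 2 ≤ exp (ε t)` for large `t`. -/
theorem rnum_sq {K ε : ℝ} (_hK : 0 ≤ K) (hε : 0 < ε) :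
    ∃ t₀ : ℝ, 1 ≤ t₀ ∧ ∀ t : ℝ, t₀ ≤ t → K * t ^ 2 ≤ Real.exp (ε * t) := by
  refine ⟨max 1 (6 * K / ε ^ 3), le_max_left _ _, fun t ht => ?_⟩
  have ht1 : 1 ≤ t := (le_max_left _ _).trans ht
  have ht2 : 6 * K / ε ^ 3 ≤ t := (le_max_right _ _).trans ht
  have ht0 : 0 ≤ t := by linarith
  have h1 := Real.pow_div_factorial_le_exp (x := ε * t) (by positivity) 3
  refine le_trans ?_ h1
  have h2 : 6 * K ≤ t * ε ^ 3 := (div_le_iff₀ (by positivity)).1 ht2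
  have h3 : ((Nat.factorial 3 : ℕ) : ℝ) = 6 := by norm_num [Nat.factorial]
  rw [h3, le_div_iff₀ (by norm_num)]
  have h4 : 0 ≤ t ^ 2 := by positivity
  nlinarith [mul_le_mul_of_nonneg_right h2 h4]

/-- `t = log (1/s)`, `l = 1 + log T`. Proof: `l + t ≤ 2 l t`, `t^2 ≤ C e^(ε₁ t / 2)`, so
`e^(ε₁ t/2) < 2 A C l ≤ 2 A C l t`; `hard_num` (KNearA) with `δ/2` and `ε₁/2` gives
`A' l t + t + 1 ≤ l^(1+δ/2)` and `t ≤ l^(δ/2)`; multiply. -/
theorem hard_num2 {A δ ε₁ : ℝ} (hA : 0 < A) (hδ : 0 < δ) (hε₁ : 0 < ε₁) :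
    ∃ l₀ : ℝ, 1 ≤ l₀ ∧ ∀ l t : ℝ, l₀ ≤ l → 1 ≤ t → Real.exp (ε₁ * t) < A * (l + t) * t →
      A * (l + t) * t + t + 1 ≤ l ^ (1 + δ) := by
  obtain ⟨C, hCdef⟩ : ∃ C : ℝ, C = 8 / ε₁ ^ 2 := ⟨_, rfl⟩
  have hC : 0 < C := by rw [hCdef]; positivity
  obtain ⟨A', hA'def⟩ : ∃ A' : ℝ, A' = 2 * A * C + 2 * A + 1 := ⟨_, rfl⟩
  have hAC : 0 < A * C := mul_pos hA hC
  have hA'1 : 1 ≤ A' := by rw [hA'def]; nlinarith
  obtain ⟨l₀, hl₀, h⟩ := hard_num (A := A') (δ := δ / 2) (ε₁ := ε₁ / 2) (by linarith)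
    (by positivity) (by positivity)
  refine ⟨l₀, hl₀, fun l t hl ht he => ?_⟩
  have hl1 : 1 ≤ l := hl₀.trans hl
  have hl0 : 0 < l := by linarith
  have ht0 : 0 < t := by linarith
  have hlt : 1 ≤ l * t := by nlinarith
  have h1 : l + t ≤ 2 * (l * t) := by nlinarith
  have hsq : t ^ 2 ≤ C * Real.exp (ε₁ / 2 * t) := by
    have h2 := Real.quadratic_le_exp_of_nonneg (x := ε₁ / 2 * t) (by positivity)
    have h3 : (ε₁ / 2 * t) ^ 2 / 2 ≤ Real.exp (ε₁ / 2 * t) := by nlinarith [mul_pos hε₁ ht0]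
    have h4 : C * ((ε₁ / 2 * t) ^ 2 / 2) = t ^ 2 := by
      rw [hCdef]
      field_simp
      norm_num
    rw [← h4]
    exact mul_le_mul_of_nonneg_left h3 hC.le
  obtain ⟨x, hx⟩ : ∃ x, x = Real.exp (ε₁ / 2 * t) := ⟨_, rfl⟩
  have hx0 : 0 < x := by rw [hx]; exact Real.exp_pos _
  have hxx : Real.exp (ε₁ * t) = x * x := by
    rw [hx, ← Real.exp_add]
    congr 1
    ring
  rw [← hx] at hsq
  have h5 : x * x < 2 * A * C * l * x := by
    rw [← hxx]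
    refine he.trans_le ?_
    calc A * (l + t) * t ≤ A * (2 * (l * t)) * t := by gcongr
      _ = 2 * A * l * t ^ 2 := by ring
      _ ≤ 2 * A * l * (C * x) := by gcongr
      _ = _ := by ring
  have h6 : x < 2 * A * C * l := lt_of_mul_lt_mul_right h5 hx0.le
  have h7 : x < A' * l * t := by
    have h8 : 2 * A * C * l ≤ A' * l * t := by
      have h9 : 2 * A * C * l ≤ A' * l := by
        refine mul_le_mul_of_nonneg_right ?_ hl0.le
        rw [hA'def]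
        linarith
      have h10 : A' * l ≤ A' * l * t := by
        have : 0 < A' * l := by positivity
        nlinarith
      exact h9.trans h10
    exact h6.trans_le h8
  have h11 := h l t hl ht (by rw [← hx]; exact h7)
  have hpow : l ^ (1 + δ / 2) = l * l ^ (δ / 2) := by
    rw [Real.rpow_add hl0, Real.rpow_one]
  have hpow2 : l ^ (1 + δ) = l ^ (1 + δ / 2) * l ^ (δ / 2) := by
    rw [← Real.rpow_add hl0]
    congr 1
    ring
  have hy0 : 0 < l ^ (δ / 2) := Real.rpow_pos_of_pos hl0 _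
  have h12 : t ≤ l ^ (δ / 2) := by
    have h13 : l * t ≤ l * l ^ (δ / 2) := by
      rw [← hpow]
      refine le_trans ?_ h11
      have : l * t ≤ A' * l * t := by
        have h14 : 0 < l * t := by positivity
        nlinarith
      linarith
    exact le_of_mul_le_mul_left h13 hl0
  rw [hpow2]
  calc A * (l + t) * t + t + 1 ≤ A * (2 * (l * t)) * t + t + 1 := by gcongr
    _ ≤ (A' * l * t + t + 1) * t := by
        have h15 : 2 * A ≤ A' := by rw [hA'def]; linarith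
        have h16 : 2 * A * (l * t * t) ≤ A' * (l * t * t) :=
          mul_le_mul_of_nonneg_right h15 (by positivity)
        nlinarith
    _ ≤ l ^ (1 + δ / 2) * l ^ (δ / 2) := by
        have h17 : 0 ≤ A' * l * t + t + 1 := by positivity
        exact mul_le_mul h11 h12 ht0.le (h17.trans h11)

/-- For bounded `l` the condition fails when `t` is large. -/
theorem hard_num3 {A ε₁ l₀ : ℝ} (hA : 0 < A) (hε₁ : 0 < ε₁) :
    ∃ t₀ : ℝ, 1 ≤ t₀ ∧ ∀ l t : ℝ, 1 ≤ l → l ≤ l₀ → t₀ ≤ t →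
      A * (l + t) * t ≤ Real.exp (ε₁ * t) := by
  obtain ⟨t₀, ht₀, h⟩ := rnum_sq (K := A * (|l₀| + 1)) (ε := ε₁) (by positivity) hε₁
  refine ⟨t₀, ht₀, fun l t hl hl0 ht => (le_trans ?_ (h t ht))⟩
  have ht1 : 1 ≤ t := ht₀.trans ht
  have h1 : l ≤ |l₀| := hl0.trans (le_abs_self _)
  have h2 : l + t ≤ (|l₀| + 1) * t := by nlinarith [abs_nonneg l₀]
  calc A * (l + t) * t ≤ A * ((|l₀| + 1) * t) * t := by gcongr
    _ = _ := by ring

/-- The scale `s` is good for all the classes up to `log T = 2 ^ k`, where `2 ^ k ≤ s^(-ε₁/2)`. -/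
theorem hard_num4 {A ε₁ : ℝ} (hA : 0 < A) (hε₁ : 0 < ε₁) :
    ∃ t₀ : ℝ, 1 ≤ t₀ ∧ ∀ l t : ℝ, t₀ ≤ t → 1 ≤ l → l ≤ 1 + Real.exp (ε₁ / 2 * t) →
      A * (l + t) * t ≤ Real.exp (ε₁ * t) := by
  obtain ⟨t₀, ht₀, h⟩ := rnum_sq (K := 3 * A) (ε := ε₁ / 2) (by positivity) (by positivity)
  refine ⟨t₀, ht₀, fun l t ht hl hl0 => ?_⟩
  have ht1 : 1 ≤ t := ht₀.trans ht
  have ht0 : 0 < t := by linarith
  have h1 := h t ht
  obtain ⟨x, hx⟩ : ∃ x, x = Real.exp (ε₁ / 2 * t) := ⟨_, rfl⟩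
  have hx1 : 1 ≤ x := by rw [hx]; exact Real.one_le_exp (by positivity)
  have hxx : Real.exp (ε₁ * t) = x * x := by
    rw [hx, ← Real.exp_add]
    congr 1
    ring
  rw [← hx] at h1 hl0
  rw [hxx]
  have h2 : l + t ≤ 3 * (x * t) := by nlinarith
  calc A * (l + t) * t ≤ A * (3 * (x * t)) * t := by gcongr
    _ = x * (3 * A * t ^ 2) := by ring
    _ ≤ x * x := mul_le_mul_of_nonneg_left h1 (by linarith)

end Vale.P028

end

section

/-!
# Far pairs of moduli with `∑_{p ∣ q} p^{-σ} ≤ T`, one class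
-/

namespace Vale.P028

open Finset

/-- trivial bound -/
theorem rt_psum_le_sq (R : ℕ → ℕ → Prop) (N : ℕ) (f : ℕ → ℝ) (hf : ∀ q, 0 ≤ f q) :
    psum R N f f ≤ (∑ q ∈ Icc 1 N, f q) ^ 2 := by
  classical
  unfold psum
  rw [pow_two, Finset.sum_mul_sum]
  refine sum_le_sum fun q _ => sum_le_sum fun r _ => ?_
  split_ifs
  · exact le_rfl
  · exact mul_nonneg (hf q) (hf r)

/-- near part and core, with a free lower bound `V₀` for the far cofactors -/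
theorem rt_common {σ : ℝ} (hσ : σ < 1) :
    ∃ C c A ε₁ : ℝ, 0 < C ∧ 0 < c ∧ 0 < A ∧ 0 < ε₁ ∧
      ∀ γ s T V₀ : ℝ, 0 < s → s ≤ 1 / 1000 → 1 ≤ T →
      Real.exp (A * (1 + Real.log T + Real.log (1 / s)) * Real.log (1 / s)) ≤ V₀ →
      ∀ (N : ℕ) (ψ f : ℕ → ℝ), (∀ q, 0 ≤ ψ q) →
        (∀ q, 0 ≤ f q ∧ f q ≤ ψ q * (q.totient / q)) →
        (∀ q, f q ≠ 0 → 0 < q ∧ sg σ q ≤ T) →
        (∀ q r : ℕ, f q ≠ 0 → f r ≠ 0 → TA γ ψ s q r →
          Real.exp (s ^ (-ε₁)) ≤ max (cofac q r : ℝ) (cofac r q : ℝ) →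
          V₀ ≤ max (cofac q r : ℝ) (cofac r q : ℝ)) →
        psum (TA γ ψ s) N f f ≤
          C * s ^ (1 + c) * ((∑ q ∈ Icc 1 N, f q) + (∑ q ∈ Icc 1 N, f q) ^ 2) := by
  classical
  obtain ⟨C₁, ε₁, hC₁, hε₁, hnear⟩ := near_part
  obtain ⟨θ, c₂, A, C₂, hθ, hθ1, hc₂, hA, hC₂, hB⟩ := coreT hσ
  refine ⟨C₁ + C₂, min (1 / 64) c₂, A, ε₁, by positivity, lt_min (by norm_num) hc₂, hA, hε₁, ?_⟩
  intro γ s T V₀ hs hs3 hT hV₀ N ψ f hψ hf hsupp hcof
  set F : ℝ := ∑ q ∈ Icc 1 N, f q with hFdef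
  have hf0 : ∀ q, 0 ≤ f q := fun q => (hf q).1
  have hF0 : 0 ≤ F := sum_nonneg fun q _ => hf0 q
  have hFF : 0 ≤ F + F ^ 2 := by (clear * - hF0; positivity)
  have hfψ : ∀ q, f q ≤ ψ q := by
    intro q
    refine (hf q).2.trans ?_
    calc ψ q * (q.totient / q) ≤ ψ q * 1 := mul_le_mul_of_nonneg_left (tot_le_one q) (hψ q)
      _ = ψ q := mul_one _
  have hs1 : s ≤ 1 := by linarith only [hs3]
  obtain ⟨c, hc⟩ : ∃ c, c = min (1 / 64) c₂ := ⟨_, rfl⟩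
  rw [← hc]
  have hcc1 : c ≤ 1 / 64 := by rw [hc]; exact min_le_left _ _
  have hcc2 : c ≤ c₂ := by rw [hc]; exact min_le_right _ _
  have hp0 : 0 ≤ s ^ (1 + c) := (Real.rpow_pos_of_pos hs _).le
  have hp1 : s ^ (1 + 1 / 64 : ℝ) ≤ s ^ (1 + c) :=
    Real.rpow_le_rpow_of_exponent_ge hs hs1 (by linarith only [hcc1])
  have hp2 : s ^ (1 + c₂) ≤ s ^ (1 + c) :=
    Real.rpow_le_rpow_of_exponent_ge hs hs1 (by linarith only [hcc2])
  obtain ⟨V, hV⟩ : ∃ V : ℕ, V = ⌊Real.exp (s ^ (-ε₁))⌋₊ := ⟨_, rfl⟩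
  have hVlt : ∀ n : ℕ, ¬ n ≤ V → Real.exp (s ^ (-ε₁)) ≤ n := by
    intro n hn
    rw [not_le, hV] at hn
    exact (Nat.lt_of_floor_lt hn).le
  have hnearpart : psum (fun q r => Rel γ ψ s q r ∧ Far γ s (cofac q r) (cofac r q) ∧
          cofac q r ≤ V ∧ cofac r q ≤ V) N f f ≤ C₁ * s ^ (1 + c) * (F + F ^ 2) := by
    rw [hV]
    refine (hnear γ s hs hs3 N ψ f (fun q => ⟨hf0 q, hfψ q⟩)).trans ?_
    exact mul_le_mul_of_nonneg_right (mul_le_mul_of_nonneg_left hp1 hC₁.le) hFF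
  have hcore : psum (fun q r => Rel γ ψ s q r ∧ Far γ s (cofac q r) (cofac r q) ∧
          V₀ ≤ max (cofac q r : ℝ) (cofac r q : ℝ)) N f f ≤ C₂ * s ^ (1 + c) * (F + F ^ 2) := by
    have h4 : F ^ (2 * θ) ≤ F + F ^ 2 :=
      rpow_le_add_sq hF0 (by linarith only [hθ]) (by linarith only [hθ1])
    have h5 : 0 ≤ F ^ (2 * θ) := Real.rpow_nonneg hF0 _
    refine (hB γ T s V₀ hT hs hs3 hV₀ N ψ f hψ hf hsupp).trans ?_
    exact mul_le_mul (mul_le_mul_of_nonneg_left hp2 hC₂.le) h4 h5 (mul_nonneg hC₂.le hp0)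
  have hsplit : psum (TA γ ψ s) N f f ≤
      psum (fun q r => Rel γ ψ s q r ∧ Far γ s (cofac q r) (cofac r q) ∧
          cofac q r ≤ V ∧ cofac r q ≤ V) N f f +
      psum (fun q r => Rel γ ψ s q r ∧ Far γ s (cofac q r) (cofac r q) ∧
          V₀ ≤ max (cofac q r : ℝ) (cofac r q : ℝ)) N f f := by
    have h1 : psum (TA γ ψ s) N f f ≤ psum (fun q r => TA γ ψ s q r ∧ f q ≠ 0 ∧ f r ≠ 0) N f f := by
      apply psum_mono _ _ _ _ _ _ _ hf0 hf0
      rintro q _ r _ hR hne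
      exact ⟨⟨hR, left_ne_zero_of_mul hne, right_ne_zero_of_mul hne⟩, le_rfl⟩
    refine h1.trans ?_
    apply psum_or_le _ _ _ _ _ _ hf0 hf0
    rintro q r ⟨hR, hq, hr⟩
    by_cases h : cofac q r ≤ V ∧ cofac r q ≤ V
    · exact Or.inl ⟨hR.1, hR.2.1, h⟩
    · refine Or.inr ⟨hR.1, hR.2.1, hcof q r hq hr hR ?_⟩
      rw [not_and_or] at h
      rcases h with h' | h'
      · exact (hVlt _ h').trans (le_max_left _ _)
      · exact (hVlt _ h').trans (le_max_right _ _)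
  calc psum (TA γ ψ s) N f f
      ≤ C₁ * s ^ (1 + c) * (F + F ^ 2) + C₂ * s ^ (1 + c) * (F + F ^ 2) :=
        hsplit.trans (add_le_add hnearpart hcore)
    _ = (C₁ + C₂) * s ^ (1 + c) * (F + F ^ 2) := by ring

/-- Good levels: no condition on `ψ`. Proof: `near_part` (constants `C₁, ε₁`) for the pairs with
both cofactors `≤ exp (s^(-ε₁))`; the other pairs have `max > exp (s^(-ε₁)) ≥ V₀` with
`V₀ = exp (A (1 + log T + log (1/s)) log (1/s))` by the hypothesis (`s^(-ε₁) = exp (ε₁ log (1/s))`):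
`coreT`. -/
theorem typeR_good {σ : ℝ} (hσ : σ < 1) :
    ∃ C c A ε₁ : ℝ, 0 < C ∧ 0 < c ∧ 0 < A ∧ 0 < ε₁ ∧
      ∀ γ s T : ℝ, 0 < s → s ≤ 1 / 1000 → 1 ≤ T →
      A * (1 + Real.log T + Real.log (1 / s)) * Real.log (1 / s) ≤
        Real.exp (ε₁ * Real.log (1 / s)) →
      ∀ (N : ℕ) (ψ f : ℕ → ℝ), (∀ q, 0 ≤ ψ q) →
        (∀ q, 0 ≤ f q ∧ f q ≤ ψ q * (q.totient / q)) →
        (∀ q, f q ≠ 0 → 0 < q ∧ sg σ q ≤ T) →
        psum (TA γ ψ s) N f f ≤
          C * s ^ (1 + c) * ((∑ q ∈ Icc 1 N, f q) + (∑ q ∈ Icc 1 N, f q) ^ 2) := by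
  obtain ⟨C, c, A, ε₁, hC, hc, hA, hε₁, h⟩ := rt_common hσ
  refine ⟨C, c, A, ε₁, hC, hc, hA, hε₁, ?_⟩
  intro γ s T hs hs3 hT hgood N ψ f hψ hf hsupp
  refine h γ s T (Real.exp (s ^ (-ε₁))) hs hs3 hT ?_ N ψ f hψ hf hsupp (fun q r _ _ _ h => h)
  rw [rpow_neg_eq_exp hs]
  exact Real.exp_le_exp.2 hgood

/-- One class, small arcs: `ψ ≤ exp (-(1 + log T)^(1+δ))`. Proof: if the condition of
`typeR_good` holds use it; otherwise, for `1 + log T ≥ l₀` (`hard_num2`), `classI_size` shows that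
all the pairs have `max ≥ (s/2) exp (l^(1+δ)) ≥ V₀`, and `coreT`; for `1 + log T ≤ l₀` the level
`s` is bounded below by `hard_num3`, and `psum ≤ F^2`. (It is best to prove both theorems together,
from `near_part` and `coreT`.) -/
theorem typeR_class {σ : ℝ} (hσ : σ < 1) {δ : ℝ} (hδ : 0 < δ) :
    ∃ C c : ℝ, 0 < C ∧ 0 < c ∧
      ∀ γ s T : ℝ, 0 < s → s ≤ 1 / 1000 → 1 ≤ T →
      ∀ (N : ℕ) (ψ f : ℕ → ℝ), (∀ q, 0 ≤ ψ q) →
        (∀ q, 0 ≤ f q ∧ f q ≤ ψ q * (q.totient / q)) →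
        (∀ q, f q ≠ 0 → 0 < q ∧ sg σ q ≤ T ∧
          ψ q ≤ Real.exp (-(1 + Real.log T) ^ (1 + δ))) →
        psum (TA γ ψ s) N f f ≤
          C * s ^ (1 + c) * ((∑ q ∈ Icc 1 N, f q) + (∑ q ∈ Icc 1 N, f q) ^ 2) := by
  obtain ⟨C, c, A, ε₁, hC, hc, hA, hε₁, h⟩ := rt_common hσ
  obtain ⟨l₀, hl₀1, hl₀⟩ := hard_num2 hA hδ hε₁
  obtain ⟨t₀, ht₀1, ht₀⟩ := hard_num3 (l₀ := l₀) hA hε₁
  refine ⟨C + Real.exp (t₀ * (1 + c)), c, by positivity, hc, ?_⟩
  intro γ s T hs hs3 hT N ψ f hψ hf hsupp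
  have hsupp' : ∀ q, f q ≠ 0 → 0 < q ∧ sg σ q ≤ T := fun q hq =>
    ⟨(hsupp q hq).1, (hsupp q hq).2.1⟩
  have hf0 : ∀ q, 0 ≤ f q := fun q => (hf q).1
  set F : ℝ := ∑ q ∈ Icc 1 N, f q with hFdef
  have hF0 : 0 ≤ F := sum_nonneg fun q _ => hf0 q
  have hp0 : 0 ≤ s ^ (1 + c) := (Real.rpow_pos_of_pos hs _).le
  have hFF : 0 ≤ F + F ^ 2 := by (clear * - hF0; positivity)
  have hE0 : 0 < Real.exp (t₀ * (1 + c)) := Real.exp_pos _
  have hup : C * s ^ (1 + c) * (F + F ^ 2) ≤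
      (C + Real.exp (t₀ * (1 + c))) * s ^ (1 + c) * (F + F ^ 2) := by
    apply mul_le_mul_of_nonneg_right _ hFF
    apply mul_le_mul_of_nonneg_right _ hp0
    linarith only [hE0]
  have hs4 : s ≤ 1 / 4 := by linarith only [hs3]
  have ht1 := log_inv_ge_one hs hs4
  have hl1 : 1 ≤ 1 + Real.log T := by
    have := Real.log_nonneg hT
    linarith only [this]
  rcases le_or_gt (A * (1 + Real.log T + Real.log (1 / s)) * Real.log (1 / s))
      (Real.exp (ε₁ * Real.log (1 / s))) with hcase | hcase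
  · refine le_trans (h γ s T (Real.exp (s ^ (-ε₁))) hs hs3 hT ?_ N ψ f hψ hf hsupp'
      (fun q r _ _ _ h => h)) hup
    rw [rpow_neg_eq_exp hs]
    exact Real.exp_le_exp.2 hcase
  · rcases le_or_gt l₀ (1 + Real.log T) with hl | hl
    · -- the hard range
      have hmain := hl₀ _ _ hl ht1 hcase
      have hV0 : Real.exp (A * (1 + Real.log T + Real.log (1 / s)) * Real.log (1 / s)) ≤
          s / 2 * Real.exp ((1 + Real.log T) ^ (1 + δ)) := by
        have h4 : s / 2 * Real.exp ((1 + Real.log T) ^ (1 + δ)) =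
            Real.exp (Real.log s - Real.log 2 + (1 + Real.log T) ^ (1 + δ)) := by
          rw [Real.exp_add, Real.exp_sub, Real.exp_log hs, Real.exp_log (by norm_num)]
        rw [h4]
        apply Real.exp_le_exp.2
        have h5 : Real.log s = -Real.log (1 / s) := by
          rw [one_div, Real.log_inv, neg_neg]
        have hlog2 : Real.log 2 ≤ 1 := by
          have := Real.log_two_lt_d9
          linarith only [this]
        linarith only [hmain, h5, hlog2]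
      refine le_trans (h γ s T _ hs hs3 hT hV0 N ψ f hψ hf hsupp' ?_) hup
      intro q r hq hr hTA _
      exact classI_size hψ (hsupp q hq).2.2 (hsupp r hr).2.2 hTA.2.2
    · -- bounded `T`: the level is bounded below
      have htt : Real.log (1 / s) < t₀ := by
        by_contra hcon
        rw [not_lt] at hcon
        have := ht₀ (1 + Real.log T) (Real.log (1 / s)) hl1 hl.le hcon
        linarith only [this, hcase]
      have h1 : 1 ≤ Real.exp (t₀ * (1 + c)) * s ^ (1 + c) := by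
        rw [Real.rpow_def_of_pos hs, ← Real.exp_add]
        apply Real.one_le_exp
        have h5 : Real.log s = -Real.log (1 / s) := by
          rw [one_div, Real.log_inv, neg_neg]
        have h6 : 0 ≤ (t₀ - Real.log (1 / s)) * (1 + c) :=
          mul_nonneg (by linarith only [htt]) (by linarith only [hc])
        rw [h5]
        linarith only [h6]
      calc psum (TA γ ψ s) N f f ≤ F ^ 2 := rt_psum_le_sq _ N f hf0
        _ ≤ 1 * (F + F ^ 2) := by linarith only [hF0]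
        _ ≤ (Real.exp (t₀ * (1 + c)) * s ^ (1 + c)) * (F + F ^ 2) :=
            mul_le_mul_of_nonneg_right h1 hFF
        _ ≤ (C + Real.exp (t₀ * (1 + c))) * s ^ (1 + c) * (F + F ^ 2) := by
            apply mul_le_mul_of_nonneg_right _ hFF
            apply mul_le_mul_of_nonneg_right _ hp0
            linarith only [hC]

end Vale.P028

end

section

/-!
# Numerics for the core estimate with `∑_{p ∣ q} (log p)^A / p ≤ H`

`y = exp (K (4H/s)^(1/A))`, `K = 1002 A + |log B₀| + 2`: `log y ≥ 2`;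
`LL y q ≤ (log y)^(-A) hg A q ≤ (s/(4H)) H = s/4` (`LL_le_hg`); `log (1/s) ≤ A s^(-1/A)`
(`t/A ≤ e^(t/A)`), so `log y ≥ 1002 log (1/s)` and `log y ≥ log (1/s) + |log B₀|`;
`(S^(-log y)/s)^16 ≤ exp (16 (log y + 1) log (1/s)) ≤ exp (A₂ (H/s)^(1/A) log (1/s))` with
`A₂ = 16 (4 K + 1)`.
-/

namespace Vale.P028

open Finset

theorem score_num {B₀ A : ℝ} (hB₀ : 0 < B₀) (hA : 1 ≤ A) :
    ∃ A₂ : ℝ, 0 < A₂ ∧ ∀ H s : ℝ, 1 ≤ H → 0 < s → s ≤ 1 / 1000 →
      ∃ y : ℝ, 0 < y ∧ 2 ≤ Real.log y ∧ ∀ S : ℝ, s ≤ S → S ≤ 1 →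
        1 ≤ S * y * B₀ ∧ 1 ≤ S * y ∧
        S ^ (-(2 * (501 / 1000 : ℝ))) ≤ y ^ ((501 / 1000 : ℝ) - 1 / 2) ∧
        (∀ q : ℕ, hg A q ≤ H → LL y q ≤ S / 4) ∧
        1 ≤ S ^ (-Real.log y) ∧
        ∀ V₀ : ℝ, Real.exp (A₂ * (H / s) ^ (1 / A) * Real.log (1 / s)) ≤ V₀ →
        (S ^ (-Real.log y) / s) ^ 16 ≤ V₀ := by
  have hA0 : 0 < A := by linarith
  obtain ⟨K, hK⟩ : ∃ K, K = 1002 * A + |Real.log B₀| + 2 := ⟨_, rfl⟩
  have hB : 0 ≤ |Real.log B₀| := abs_nonneg _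
  have hK2 : 2 ≤ K := by rw [hK]; linarith
  refine ⟨64 * (K + 1), by linarith, fun H s hH hs hs' => ?_⟩
  have hH0 : 0 < H := by linarith
  obtain ⟨t, ht⟩ : ∃ t, t = Real.log (1 / s) := ⟨_, rfl⟩
  have hts : Real.log s = -t := by rw [ht, one_div, Real.log_inv, neg_neg]
  have ht0 : 0 ≤ t := by
    have : Real.log s ≤ 0 := Real.log_nonpos hs.le (by linarith)
    linarith
  obtain ⟨m, hm⟩ : ∃ m, m = (4 * H / s) ^ (1 / A) := ⟨_, rfl⟩
  have hA1 : 0 < 1 / A := by positivity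
  have h4 : 1 ≤ 4 * H / s := by
    rw [le_div_iff₀ hs]
    linarith
  have hm1 : 1 ≤ m := by rw [hm]; exact Real.one_le_rpow h4 hA1.le
  have hmA : m ^ A = 4 * H / s := by
    rw [hm, ← Real.rpow_mul (by linarith), one_div_mul_cancel hA0.ne', Real.rpow_one]
  have htm : t ≤ A * m := by
    have h1 : t / A ≤ Real.exp (t / A) := by
      have := Real.add_one_le_exp (t / A)
      linarith
    have h2 : Real.exp (t / A) = (1 / s) ^ (1 / A) := by
      rw [Real.rpow_def_of_pos (by positivity), ← ht]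
      congr 1
      ring
    have h3 : (1 / s) ^ (1 / A) ≤ m := by
      rw [hm]
      refine Real.rpow_le_rpow (by positivity) ?_ hA1.le
      refine div_le_div_of_nonneg_right (by linarith) hs.le
    have h5 : t / A ≤ m := h1.trans (by rw [h2]; exact h3)
    rw [div_le_iff₀ hA0] at h5
    linarith
  obtain ⟨w, hw⟩ : ∃ w, w = K * m := ⟨_, rfl⟩
  have hBm : |Real.log B₀| ≤ |Real.log B₀| * m := le_mul_of_one_le_right hB hm1
  have hwe : w = 1002 * (A * m) + |Real.log B₀| * m + 2 * m := by rw [hw, hK]; ring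
  have hly : Real.log (Real.exp w) = w := Real.log_exp _
  have hAm : 0 ≤ A * m := by positivity
  have hw2 : 2 ≤ w := by rw [hwe]; linarith
  refine ⟨Real.exp w, Real.exp_pos _, by rw [hly]; exact hw2, fun S hSs hS1 => ?_⟩
  have hS0 : 0 < S := lt_of_lt_of_le hs hSs
  have hlogS : -t ≤ Real.log S := by
    rw [← hts]
    exact Real.log_le_log hs hSs
  have hlogS0 : Real.log S ≤ 0 := Real.log_nonpos hS0.le hS1
  have hZ : S ^ (-Real.log (Real.exp w)) = Real.exp (-Real.log S * w) := by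
    rw [Real.rpow_def_of_pos hS0, hly]
    congr 1
    ring
  refine ⟨?_, ?_, ?_, ?_, ?_, ?_⟩
  · calc (1 : ℝ) ≤ Real.exp (Real.log S + w + Real.log B₀) := by
          apply Real.one_le_exp
          have := neg_abs_le (Real.log B₀)
          linarith
      _ = S * Real.exp w * B₀ := by
          rw [Real.exp_add, Real.exp_add, Real.exp_log hS0, Real.exp_log hB₀]
  · calc (1 : ℝ) ≤ Real.exp (Real.log S + w) := by
          apply Real.one_le_exp
          linarith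
      _ = S * Real.exp w := by rw [Real.exp_add, Real.exp_log hS0]
  · rw [Real.rpow_def_of_pos hS0, Real.rpow_def_of_pos (Real.exp_pos _), hly]
    apply Real.exp_le_exp.2
    linarith
  · intro q hq
    have hy1 : 1 < Real.exp w := Real.one_lt_exp_iff.2 (by linarith)
    refine (LL_le_hg hA0.le hy1 q).trans ?_
    rw [hly]
    have hw0 : 0 < w := by linarith
    refine (mul_le_mul_of_nonneg_left hq (Real.rpow_nonneg hw0.le _)).trans ?_
    have h1 : 4 * H / s ≤ w ^ A := by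
      rw [← hmA]
      refine Real.rpow_le_rpow (by linarith) ?_ hA0.le
      rw [hw]
      nlinarith
    have h2 : w ^ (-A) * H ≤ s / 4 := by
      rw [Real.rpow_neg hw0.le, inv_mul_eq_div, div_le_iff₀ (Real.rpow_pos_of_pos hw0 _)]
      have h3 : s / 4 * (4 * H / s) = H := by
        field_simp
      calc H = s / 4 * (4 * H / s) := h3.symm
        _ ≤ s / 4 * w ^ A := mul_le_mul_of_nonneg_left h1 (by positivity)
    linarith
  · rw [hZ]
    apply Real.one_le_exp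
    nlinarith
  · intro V₀ hV₀
    refine le_trans ?_ hV₀
    have hZs : Real.exp (-Real.log S * w) / s = Real.exp (-Real.log S * w + t) := by
      rw [← sub_neg_eq_add, ← hts, Real.exp_sub, Real.exp_log hs]
    rw [hZ, hZs, ← Real.exp_nat_mul, ← ht]
    apply Real.exp_le_exp.2
    have hw0 : 0 ≤ w := by linarith
    have h1 : -Real.log S * w ≤ t * w := mul_le_mul_of_nonneg_right (by linarith) hw0
    have h2 : m ≤ 4 * (H / s) ^ (1 / A) := by
      have h3 : (4 : ℝ) ^ (1 / A) ≤ 4 := by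
        have h5 : 1 / A ≤ 1 := by
          rw [div_le_one hA0]
          exact hA
        calc (4 : ℝ) ^ (1 / A) ≤ (4 : ℝ) ^ (1 : ℝ) :=
              Real.rpow_le_rpow_of_exponent_le (by norm_num) h5
          _ = 4 := Real.rpow_one _
      have h6 : m = (4 : ℝ) ^ (1 / A) * (H / s) ^ (1 / A) := by
        rw [hm, mul_div_assoc, Real.mul_rpow (by norm_num) (by positivity)]
      rw [h6]
      exact mul_le_mul_of_nonneg_right h3 (Real.rpow_nonneg (by positivity) _)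
    have h7 : w + 1 ≤ (K + 1) * m := by rw [hw]; linarith
    have h8 : (K + 1) * m ≤ (K + 1) * (4 * (H / s) ^ (1 / A)) :=
      mul_le_mul_of_nonneg_left h2 (by linarith)
    have h9 : t * (w + 1) ≤ t * ((K + 1) * (4 * (H / s) ^ (1 / A))) :=
      mul_le_mul_of_nonneg_left (h7.trans h8) ht0
    push_cast
    linarith

end Vale.P028

end

section

/-!
# Core estimate with `∑_{p ∣ q} (log p)^A / p ≤ H`

Copy of `coreT` (RCore.lean) with `score_num`.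
-/

namespace Vale.P028

open Finset

open Classical in
theorem coreS {A : ℝ} (hA : 1 ≤ A) :
    ∃ θ c A₂ C : ℝ, 1 / 2 < θ ∧ θ < 1 ∧ 0 < c ∧ 0 < A₂ ∧ 0 < C ∧
      ∀ γ H s V₀ : ℝ, 1 ≤ H → 0 < s → s ≤ 1 / 1000 →
        Real.exp (A₂ * (H / s) ^ (1 / A) * Real.log (1 / s)) ≤ V₀ →
      ∀ (N : ℕ) (ψ f : ℕ → ℝ), (∀ q, 0 ≤ ψ q) →
        (∀ q, 0 ≤ f q ∧ f q ≤ ψ q * (q.totient / q)) →
        (∀ q, f q ≠ 0 → 0 < q ∧ hg A q ≤ H) →
        psum (fun q r => Rel γ ψ s q r ∧ Far γ s (cofac q r) (cofac r q) ∧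
          V₀ ≤ max (cofac q r : ℝ) (cofac r q : ℝ)) N f f ≤
        C * s ^ (1 + c) * (∑ q ∈ Icc 1 N, f q) ^ (2 * θ) := by
  classical
  have hθ : (1 / 2 : ℝ) < 501 / 1000 := by norm_num
  have hθ1 : (501 / 1000 : ℝ) < 1 := by norm_num
  obtain ⟨B₀, hB₀, C₁, hC₁, hT1⟩ := T1genT hθ hθ1
  obtain ⟨C₂, hC₂, hT2⟩ := T1_dvd hθ hθ1
  obtain ⟨A₂, hA₂, hnum⟩ := score_num hB₀ hA
  refine ⟨501 / 1000, 1 / 64, A₂, C₁ * 70 + 2 * C₂, hθ, hθ1, by norm_num, hA₂, by (clear * - hC₁ hC₂; positivity), ?_⟩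
  intro γ H s V₀ hH hs hs' hV₀ N ψ f hψ hf hsupp
  obtain ⟨y, hy0, hly, hnum'⟩ := hnum H s hH hs hs'
  set t : ℝ := s ^ (1 / 16 : ℝ) with ht
  have ht0 : 0 < t := by (clear * - hs; positivity)
  have hst : t ^ 16 = s := by
    rw [ht, ← Real.rpow_natCast, ← Real.rpow_mul hs.le]
    norm_num
  have ht1 : t < 1 := Real.rpow_lt_one hs.le (by linarith only [hs']) (by norm_num)
  have hst' : s ≤ t := by
    rw [← hst]
    calc t ^ 16 ≤ t ^ 1 := pow_le_pow_of_le_one ht0.le ht1.le (by norm_num)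
      _ = t := pow_one t
  set S : ℝ := min 1 (70 * t) with hS
  have hsS : s ≤ S := le_min (by linarith only [hs']) (by linarith only [ht0, hst'])
  have hS1 : S ≤ 1 := min_le_left _ _
  have hS0 : 0 < S := lt_of_lt_of_le hs hsS
  obtain ⟨hn1, hn2, hn3, hn4, hn5, hn6⟩ := hnum' S hsS hS1
  have hn7 := hn6 V₀ hV₀
  set Z : ℝ := S ^ (-Real.log y) with hZ
  have hV0 : 0 < V₀ := lt_of_lt_of_le (Real.exp_pos _) hV₀
  set W : ℝ := V₀ ^ (1 / 4 : ℝ) with hW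
  have hW4 : W ^ 4 = V₀ := by
    rw [hW, ← Real.rpow_natCast, ← Real.rpow_mul hV0.le]
    norm_num
  have hWZ : (Z / s) ^ 4 ≤ W := by
    have h1 : ((Z / s) ^ 16) ^ (1 / 4 : ℝ) ≤ V₀ ^ (1 / 4 : ℝ) :=
      Real.rpow_le_rpow (by (clear * - hs; positivity)) hn7 (by norm_num)
    have h2 : ((Z / s) ^ 16) ^ (1 / 4 : ℝ) = (Z / s) ^ 4 := by
      have h3 : 0 ≤ Z / s := by (clear * - hs; positivity)
      rw [← Real.rpow_natCast (Z / s) 16, ← Real.rpow_mul h3,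
        show ((16 : ℕ) : ℝ) * (1 / 4) = ((4 : ℕ) : ℝ) by norm_num, Real.rpow_natCast]
    rwa [h2] at h1
  have hF0 : 0 ≤ ∑ q ∈ Icc 1 N, f q := sum_nonneg fun q _ => (hf q).1
  have hsupp' : ∀ q : ℕ, f q ≠ 0 → 0 < q ∧ LL y q ≤ S / 4 := fun q hq =>
    ⟨(hsupp q hq).1, hn4 q (hsupp q hq).2⟩
  -- the main part
  have hmain := hT1 (OmG γ V₀ W t s) S y hS0 hS1 hy0 hly hn1 hn2 hn3 (by
    intro a b ha hb haZ hbZ q₀ r₀ hq₀ hr₀ hΩ
    rcases le_total (b * r₀) (a * q₀) with h | h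
    · have h1 := kc_row ht0 hst hs' hn5 hWZ hW4 ha haZ hq₀ h hΩ
      have h2 : (((Icc 1 r₀).filter (fun n => OmG γ V₀ W t s (a * q₀) (b * n))).card : ℝ) ≤
          r₀ := card_filter_cl _ _
      calc _ ≤ (S * q₀) * r₀ := mul_le_mul h1 h2 (by (clear * -; positivity)) (by (clear * - hs hq₀; positivity))
        _ = S * q₀ * r₀ := by ring
    · have h1 := kc_row ht0 hst hs' hn5 hWZ hW4 hb hbZ hr₀ h (OmG_comm hΩ)
      have h2 : (((Icc 1 q₀).filter (fun m => OmG γ V₀ W t s (a * m) (b * r₀))).card : ℝ) ≤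
          q₀ := card_filter_cl _ _
      have h3 : ((Icc 1 r₀).filter (fun n => OmG γ V₀ W t s (a * q₀) (b * n))) =
          (Icc 1 r₀).filter (fun n => OmG γ V₀ W t s (b * n) (a * q₀)) := by
        refine filter_congr fun n _ => ⟨fun h => OmG_comm h, fun h => OmG_comm h⟩
      rw [h3]
      calc _ ≤ (q₀ : ℝ) * (S * r₀) := mul_le_mul h2 h1 (by (clear * -; positivity)) (by (clear * - hq₀; positivity))
        _ = S * q₀ * r₀ := by ring) ψ ψ f f s s N hs hs hψ hψ hf hf hsupp' hsupp'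
  have hbad := kc_bad_pairs (γ := γ) (W := W) hθ hθ1 hC₂ hT2 ht0 ht1 hs N ψ f hψ hf
  -- the second bad part, by symmetry
  have hbad' : psum (fun q r => KBadn γ W t (cofac r q) ∧ (cofac r q : ℝ) * ψ q ≤ s ∧
        (cofac q r : ℝ) * ψ r ≤ s) N f f =
      psum (fun q r => KBadn γ W t (cofac q r) ∧ (cofac r q : ℝ) * ψ q ≤ s ∧
        (cofac q r : ℝ) * ψ r ≤ s) N f f := by
    rw [kc_psum_symm]
    congr 1
    funext q r
    rw [eq_iff_iff]
    constructor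
    · rintro ⟨h1, h2, h3⟩
      exact ⟨h1, h3, h2⟩
    · rintro ⟨h1, h2, h3⟩
      exact ⟨h1, h3, h2⟩
  have hsplit : psum (fun q r => Rel γ ψ s q r ∧ Far γ s (cofac q r) (cofac r q) ∧
          V₀ ≤ max (cofac q r : ℝ) (cofac r q : ℝ)) N f f ≤
      psum (fun q r => OmG γ V₀ W t s (cofac q r) (cofac r q) ∧
          (cofac r q : ℝ) * ψ q ≤ s ∧ (cofac q r : ℝ) * ψ r ≤ s) N f f +
      psum (fun q r => KBadn γ W t (cofac q r) ∧ (cofac r q : ℝ) * ψ q ≤ s ∧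
        (cofac q r : ℝ) * ψ r ≤ s) N f f +
      psum (fun q r => KBadn γ W t (cofac r q) ∧ (cofac r q : ℝ) * ψ q ≤ s ∧
        (cofac q r : ℝ) * ψ r ≤ s) N f f := by
    refine kc_psum_cover _ _ _ _ N f (fun q => (hf q).1) ?_
    rintro q r ⟨⟨hr1, hr2, hr3, hr4⟩, hfar, hmax⟩
    by_cases hb1 : KBadn γ W t (cofac q r)
    · exact Or.inr (Or.inl ⟨hb1, hr2, hr3⟩)
    · by_cases hb2 : KBadn γ W t (cofac r q)
      · exact Or.inr (Or.inr ⟨hb2, hr2, hr3⟩)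
      · exact Or.inl ⟨⟨hmax, hr4, hfar, hb1, hb2⟩, hr2, hr3⟩
  refine hsplit.trans ?_
  rw [hbad']
  have hFF : ((∑ q ∈ Icc 1 N, f q) * ∑ r ∈ Icc 1 N, f r) ^ (501 / 1000 : ℝ) =
      (∑ q ∈ Icc 1 N, f q) ^ (2 * (501 / 1000 : ℝ)) := by
    rw [← sq, ← Real.rpow_natCast, ← Real.rpow_mul hF0]
    norm_num
  rw [hFF] at hmain hbad
  set F : ℝ := (∑ q ∈ Icc 1 N, f q) ^ (2 * (501 / 1000 : ℝ)) with hF
  have hFnn : 0 ≤ F := by (clear * - hF0; positivity)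
  -- numerics
  have e1 : (s * s * S) ^ (1 - (501 / 1000 : ℝ)) ≤ 70 * s ^ (1 + 1 / 64 : ℝ) := by
    have h1 : s * s * S ≤ 70 * (s ^ (2 + 1 / 16 : ℝ)) := by
      calc s * s * S ≤ s * s * (70 * t) := by
            have : S ≤ 70 * t := min_le_right _ _
            (clear * - this hs; gcongr)
        _ = 70 * (s ^ (2 + 1 / 16 : ℝ)) := by
            rw [Real.rpow_add hs, ht]
            have : s ^ (2 : ℝ) = s * s := by
              rw [show (2 : ℝ) = ((2 : ℕ) : ℝ) by norm_num, Real.rpow_natCast]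
              ring
            rw [this]
            ring
    calc (s * s * S) ^ (1 - (501 / 1000 : ℝ)) ≤ (70 * (s ^ (2 + 1 / 16 : ℝ))) ^ (1 - (501 / 1000 : ℝ)) :=
          Real.rpow_le_rpow (by (clear * - hs; positivity)) h1 (by norm_num)
      _ = 70 ^ (1 - (501 / 1000 : ℝ)) * (s ^ (2 + 1 / 16 : ℝ)) ^ (1 - (501 / 1000 : ℝ)) :=
          Real.mul_rpow (by norm_num) (by positivity)
      _ ≤ 70 ^ (1 : ℝ) * s ^ (1 + 1 / 64 : ℝ) := by
          refine mul_le_mul ?_ ?_ (by positivity) (by positivity)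
          · exact Real.rpow_le_rpow_of_exponent_le (by norm_num) (by norm_num)
          · rw [← Real.rpow_mul hs.le]
            exact Real.rpow_le_rpow_of_exponent_ge hs (by linarith only [hs']) (by norm_num)
      _ = 70 * s ^ (1 + 1 / 64 : ℝ) := by rw [Real.rpow_one]
  have e2 : (s * s) ^ (1 - (501 / 1000 : ℝ)) * ((1 / t) * (t ^ 3) ^ (1 - (501 / 1000 : ℝ))) ≤
      s ^ (1 + 1 / 64 : ℝ) := by
    have h1 : (s * s) ^ (1 - (501 / 1000 : ℝ)) = s ^ (998 / 1000 : ℝ) := by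
      rw [← sq, ← Real.rpow_natCast, ← Real.rpow_mul hs.le]
      norm_num
    have h2 : (1 / t) * (t ^ 3) ^ (1 - (501 / 1000 : ℝ)) = s ^ (497 / 16000 : ℝ) := by
      rw [← Real.rpow_natCast t 3, ← Real.rpow_mul ht0.le, one_div, ← Real.rpow_neg_one t,
        ← Real.rpow_add ht0, ht, ← Real.rpow_mul hs.le]
      norm_num
    rw [h1, h2, ← Real.rpow_add hs]
    exact Real.rpow_le_rpow_of_exponent_ge hs (by linarith only [hs']) (by norm_num)
  have e3 : C₁ * (s * s * S) ^ (1 - (501 / 1000 : ℝ)) * F ≤ C₁ * (70 * s ^ (1 + 1 / 64 : ℝ)) * F := by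
    (clear * - e1 hC₁ hF0; gcongr)
  have e4 : C₂ * (s * s) ^ (1 - (501 / 1000 : ℝ)) * F *
      ((1 / t) * (t ^ 3) ^ (1 - (501 / 1000 : ℝ))) ≤ C₂ * s ^ (1 + 1 / 64 : ℝ) * F := by
    calc C₂ * (s * s) ^ (1 - (501 / 1000 : ℝ)) * F *
        ((1 / t) * (t ^ 3) ^ (1 - (501 / 1000 : ℝ)))
        = C₂ * ((s * s) ^ (1 - (501 / 1000 : ℝ)) *
          ((1 / t) * (t ^ 3) ^ (1 - (501 / 1000 : ℝ)))) * F := by ring
      _ ≤ C₂ * s ^ (1 + 1 / 64 : ℝ) * F := by (clear * - e2 hC₂ hF0; gcongr)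
  calc _ ≤ C₁ * (70 * s ^ (1 + 1 / 64 : ℝ)) * F + C₂ * s ^ (1 + 1 / 64 : ℝ) * F +
        C₂ * s ^ (1 + 1 / 64 : ℝ) * F := by
        have h1 := hmain.trans e3
        have h2 := hbad.trans e4
        linarith only [hmain, hbad, e3, e4]
    _ = (C₁ * 70 + 2 * C₂) * s ^ (1 + 1 / 64 : ℝ) * F := by ring

end Vale.P028

end

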