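import Vale.Agent.P028.MathlibUsed
import Vale.Agent.P028.Bd3.B5

set_option linter.all false

section

/-!
# From a bound for the far pairs (type (a)) under a side condition `P` to full measure
-/

namespace Vale.P028

open Finset MeasureTheory Filter

/-- the bound for the pairs of type (a) under the side condition `P` -/
def TypeAP (P : ℕ → (ℕ → ℝ) → (ℕ → ℝ) → Prop) : Prop :=
  ∃ C c : ℝ, 0 < C ∧ 0 < c ∧ ∀ γ s : ℝ, 0 < s → s ≤ 1 / 1000 →
    ∀ (N : ℕ) (ψ f : ℕ → ℝ), (∀ q, 0 ≤ ψ q) →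
      (∀ q, 0 ≤ f q ∧ f q ≤ ψ q * (q.totient / q)) → P N ψ f →
      psum (TA γ ψ s) N f f ≤
        C * s ^ (1 + c) * ((∑ q ∈ Icc 1 N, f q) + (∑ q ∈ Icc 1 N, f q) ^ 2)

/-- pairs at one small level -/
theorem qc_level {P : ℕ → (ℕ → ℝ) → (ℕ → ℝ) → Prop} (hP : TypeAP P) :
    ∃ C c : ℝ, 0 < C ∧ 0 < c ∧
      ∀ γ s : ℝ, 0 < s → s ≤ 1 / 1000 →
      ∀ (N : ℕ) (ψ f : ℕ → ℝ), (∀ q, 0 ≤ ψ q) →
        (∀ q, 0 ≤ f q ∧ f q ≤ ψ q * (q.totient / q)) →
        P N ψ f →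
        wsum (TA γ ψ s) N f f (fun q r => GG (cofac q r * cofac r q)) +
          wsum (UB ψ s) N f f (fun q r => GG (cofac q r * cofac r q)) ≤
          C * s ^ (1 + c) * ((∑ q ∈ Icc 1 N, f q) + (∑ q ∈ Icc 1 N, f q) ^ 2) := by
  obtain ⟨C₁, c₁, hC₁, hc₁, hTA⟩ := hP
  obtain ⟨C₂, hC₂, hUB⟩ := typeU
  obtain ⟨C₃, hC₃, hG1⟩ := GG_transfer (half_pos hc₁)
  obtain ⟨C₄, hC₄, hG2⟩ := GG_transfer (η := 1 / 5) (by norm_num)
  obtain ⟨c, hc⟩ : ∃ c : ℝ, c = min (c₁ / 2) (1 / 5) := ⟨_, rfl⟩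
  have hc0 : 0 < c := by rw [hc]; exact lt_min (half_pos hc₁) (by norm_num)
  have hcc1 : c ≤ c₁ / 2 := by rw [hc]; exact min_le_left _ _
  have hcc2 : c ≤ 1 / 5 := by rw [hc]; exact min_le_right _ _
  refine ⟨C₃ * C₁ + C₃ + (C₄ * C₂ + C₄), c, by (clear * - hC₃ hC₁ hC₄ hC₂; positivity), hc0, ?_⟩
  intro γ s hs hs3 N ψ f hψ hf hsep
  set F : ℝ := ∑ q ∈ Icc 1 N, f q with hFdef
  have hf0 : ∀ q, 0 ≤ f q := fun q => (hf q).1
  have hF0 : 0 ≤ F := sum_nonneg fun q _ => hf0 q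
  have hFF : 0 ≤ F + F ^ 2 := by (clear * - hF0; positivity)
  have hs1 : s ≤ 1 := by linarith only [hs3]
  have hp : 0 ≤ s ^ (1 + c) := Real.rpow_nonneg hs.le _
  have hs2 : s ^ 2 ≤ s ^ (1 + c) := by
    rw [← Real.rpow_two]
    exact Real.rpow_le_rpow_of_exponent_ge hs hs1 (by linarith only [hcc2])
  have h1 := hG1 (TA γ ψ s) s N ψ f hs hs3 hψ hf (fun q r h => ⟨h.1.2.1, h.1.2.2.1⟩)
  have h2 := hG2 (UB ψ s) s N ψ f hs hs3 hψ hf (fun q r h => ⟨h.1, h.2.1⟩)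
  have h3 := hTA γ s hs hs3 N ψ f hψ hf hsep
  have h4 := hUB s N ψ f hs hs1 hψ hf
  have e1 : s ^ (-(c₁ / 2)) * s ^ (1 + c₁) ≤ s ^ (1 + c) := by
    rw [← Real.rpow_add hs]
    exact Real.rpow_le_rpow_of_exponent_ge hs hs1 (by linarith only [hcc1])
  have e2 : s ^ (-(1 / 5) : ℝ) * s ^ (7 / 5 : ℝ) ≤ s ^ (1 + c) := by
    rw [← Real.rpow_add hs]
    exact Real.rpow_le_rpow_of_exponent_ge hs hs1 (by linarith only [hcc2])
  have hq1 : 0 ≤ s ^ (-(c₁ / 2)) := Real.rpow_nonneg hs.le _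
  have hq2 : 0 ≤ s ^ (-(1 / 5) : ℝ) := Real.rpow_nonneg hs.le _
  have f1 : wsum (TA γ ψ s) N f f (fun q r => GG (cofac q r * cofac r q)) ≤
      (C₃ * C₁ + C₃) * s ^ (1 + c) * (F + F ^ 2) := by
    calc _ ≤ C₃ * s ^ (-(c₁ / 2)) * psum (TA γ ψ s) N f f + C₃ * s ^ 2 * (F + F ^ 2) := h1
      _ ≤ C₃ * s ^ (-(c₁ / 2)) * (C₁ * s ^ (1 + c₁) * (F + F ^ 2)) +
          C₃ * s ^ (1 + c) * (F + F ^ 2) := by (clear * - h3 hC₃ hs hs2 hF0; gcongr)
      _ = C₃ * C₁ * (s ^ (-(c₁ / 2)) * s ^ (1 + c₁)) * (F + F ^ 2) +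
          C₃ * s ^ (1 + c) * (F + F ^ 2) := by ring
      _ ≤ C₃ * C₁ * s ^ (1 + c) * (F + F ^ 2) + C₃ * s ^ (1 + c) * (F + F ^ 2) := by (clear * - e1 hC₃ hC₁ hF0; gcongr)
      _ = _ := by ring
  have f2 : wsum (UB ψ s) N f f (fun q r => GG (cofac q r * cofac r q)) ≤
      (C₄ * C₂ + C₄) * s ^ (1 + c) * (F + F ^ 2) := by
    calc _ ≤ C₄ * s ^ (-(1 / 5) : ℝ) * psum (UB ψ s) N f f + C₄ * s ^ 2 * (F + F ^ 2) := h2
      _ ≤ C₄ * s ^ (-(1 / 5) : ℝ) * (C₂ * s ^ (7 / 5 : ℝ) * (F + F ^ 2)) +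
          C₄ * s ^ (1 + c) * (F + F ^ 2) := by (clear * - h4 hC₄ hs hs2 hF0; gcongr)
      _ = C₄ * C₂ * (s ^ (-(1 / 5) : ℝ) * s ^ (7 / 5 : ℝ)) * (F + F ^ 2) +
          C₄ * s ^ (1 + c) * (F + F ^ 2) := by ring
      _ ≤ C₄ * C₂ * s ^ (1 + c) * (F + F ^ 2) + C₄ * s ^ (1 + c) * (F + F ^ 2) := by (clear * - e2 hC₄ hC₂ hF0; gcongr)
      _ = _ := by ring
  calc _ ≤ (C₃ * C₁ + C₃) * s ^ (1 + c) * (F + F ^ 2) +
      (C₄ * C₂ + C₄) * s ^ (1 + c) * (F + F ^ 2) := add_le_add f1 f2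
    _ = _ := by ring

/-- the pairs at a small distance  -/
theorem small_sum_P {P : ℕ → (ℕ → ℝ) → (ℕ → ℝ) → Prop} (hP : TypeAP P) :
    ∃ C > 0, ∀ (γ : ℝ) (N : ℕ) (ψ f : ℕ → ℝ),
    (∀ q, 0 ≤ ψ q) → (∀ q, 0 ≤ f q ∧ f q ≤ ψ q * (q.totient / q)) → P N ψ f →
      wsum (SmallRel γ ψ) N f f
        (fun q r => GG (cofac q r * cofac r q) / DD q r (ψ q) (ψ r)) ≤
        C * ((∑ q ∈ Icc 1 N, f q) + (∑ q ∈ Icc 1 N, f q) ^ 2) := by
  classical
  obtain ⟨C, c, hC, hc, hlev⟩ := qc_level hP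
  have hc1 : (1 / 2 : ℝ) ^ c < 1 := Real.rpow_lt_one (by norm_num) (by norm_num) hc
  refine ⟨2 * C * (1 - (1 / 2 : ℝ) ^ c)⁻¹, ?_, ?_⟩
  · have : 0 < 1 - (1 / 2 : ℝ) ^ c := by linarith only [hc1]
    positivity
  intro γ N ψ f hψ hf hsep
  set F : ℝ := ∑ q ∈ Icc 1 N, f q with hFdef
  have hf0 : ∀ q, 0 ≤ f q := fun q => (hf q).1
  have hF0 : 0 ≤ F := sum_nonneg fun q _ => hf0 q
  have hFF : 0 ≤ F + F ^ 2 := by (clear * - hF0; positivity)
  -- the dyadic index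
  have hj : ∀ q r : ℕ, ∃ j : ℕ, 0 < DD q r (ψ q) (ψ r) → DD q r (ψ q) (ψ r) ≤ 1 →
      DD q r (ψ q) (ψ r) ≤ (1 / 2 : ℝ) ^ j ∧ (1 / 2 : ℝ) ^ j / 2 < DD q r (ψ q) (ψ r) := by
    intro q r
    by_cases h : 0 < DD q r (ψ q) (ψ r) ∧ DD q r (ψ q) (ψ r) ≤ 1
    · obtain ⟨j, hj⟩ := exists_dyadic h.1 h.2
      exact ⟨j, fun _ _ => hj⟩
    · exact ⟨0, fun h1 h2 => absurd ⟨h1, h2⟩ h⟩
  choose j hj using hj
  set J : ℕ := (Icc 1 N ×ˢ Icc 1 N).sup (fun p => j p.1 p.2) + 1 with hJ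
  have hjJ : ∀ q ∈ Icc 1 N, ∀ r ∈ Icc 1 N, j q r < J := by
    intro q hq r hr
    have hm : ((q, r) : ℕ × ℕ) ∈ Icc 1 N ×ˢ Icc 1 N := mem_product.mpr ⟨hq, hr⟩
    have h1 := Finset.le_sup (f := fun p : ℕ × ℕ => j p.1 p.2) hm
    simp only at h1
    omega
  set G : ℕ → ℕ → ℝ := fun q r => GG (cofac q r * cofac r q) with hG
  have hG0 : ∀ q r, 0 ≤ G q r := fun q r => GG_nonneg _
  -- pointwise
  have hpt : ∀ q ∈ Icc 1 N, ∀ r ∈ Icc 1 N,
      (if SmallRel γ ψ q r then f q * f r * (G q r / DD q r (ψ q) (ψ r)) else 0) ≤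
      ∑ i ∈ (range J).filter (fun i => 10 ≤ i), 2 * (2 : ℝ) ^ i *
        ((if TA γ ψ ((1 / 2 : ℝ) ^ i) q r then f q * f r * G q r else 0) +
          (if UB ψ ((1 / 2 : ℝ) ^ i) q r then f q * f r * G q r else 0)) := by
    intro q hq r hr
    have hq0 : 0 < q := by rw [mem_Icc] at hq; omega
    have hr0 : 0 < r := by rw [mem_Icc] at hr; omega
    have hnn : 0 ≤ f q * f r := mul_nonneg (hf0 q) (hf0 r)
    have hfG : 0 ≤ f q * f r * G q r := mul_nonneg hnn (hG0 q r)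
    have hterm : ∀ i ∈ (range J).filter (fun i => 10 ≤ i), 0 ≤ 2 * (2 : ℝ) ^ i *
        ((if TA γ ψ ((1 / 2 : ℝ) ^ i) q r then f q * f r * G q r else 0) +
          (if UB ψ ((1 / 2 : ℝ) ^ i) q r then f q * f r * G q r else 0)) := by
      intro i _
      apply mul_nonneg (by positivity)
      apply add_nonneg <;> split_ifs <;> first | exact hfG | exact le_rfl
    have hs := sum_nonneg hterm
    by_cases hR : SmallRel γ ψ q r
    · rw [if_pos hR]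
      by_cases hne : f q * f r = 0
      · rw [hne, zero_mul]
        rw [hne] at hs
        exact hs
      · have hfq : f q ≠ 0 := left_ne_zero_of_mul hne
        have hψq : 0 < ψ q := by
          rcases (hψ q).eq_or_lt with h | h
          · exfalso
            apply hfq
            have := (hf q).2
            rw [← h, zero_mul] at this
            linarith only [this, hf0 q]
          · exact h
        have hD0 : 0 < DD q r (ψ q) (ψ r) := DD_pos'' hq0 hr0 hψq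
        obtain ⟨hR1, hR2⟩ := hR
        obtain ⟨h1, h2⟩ := hj q r hD0 (by linarith only [hR1])
        have hs0 : (0 : ℝ) < (1 / 2 : ℝ) ^ (j q r) := by positivity
        have hj10 : 10 ≤ j q r := by
          by_contra hlt
          push Not at hlt
          have h3 : (1 / 2 : ℝ) ^ 9 ≤ (1 / 2 : ℝ) ^ (j q r) :=
            pow_le_pow_of_le_one (by norm_num) (by norm_num) (by omega)
          have h4 : (1 / 2 : ℝ) ^ 9 = 1 / 512 := by norm_num
          rw [h4] at h3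
          linarith only [hR1, h2, h3]
        have hs1024 : (1 / 2 : ℝ) ^ (j q r) ≤ 1 / 1024 := by
          have h3 : (1 / 2 : ℝ) ^ (j q r) ≤ (1 / 2 : ℝ) ^ 10 :=
            pow_le_pow_of_le_one (by norm_num) (by norm_num) hj10
          have h4 : (1 / 2 : ℝ) ^ 10 = 1 / 1024 := by norm_num
          rw [h4] at h3
          exact h3
        have hmem : j q r ∈ (range J).filter (fun i => 10 ≤ i) := by
          rw [mem_filter, mem_range]
          exact ⟨hjJ q hq r hr, hj10⟩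
        have h3 := single_le_sum hterm hmem
        refine le_trans ?_ h3
        have h4 : f q * f r * G q r ≤
            (if TA γ ψ ((1 / 2 : ℝ) ^ (j q r)) q r then f q * f r * G q r else 0) +
            (if UB ψ ((1 / 2 : ℝ) ^ (j q r)) q r then f q * f r * G q r else 0) := by
          rcases hR2 _ hs0 hs1024 h1 h2 with h | h
          · rw [if_pos h]
            have : 0 ≤ (if UB ψ ((1 / 2 : ℝ) ^ (j q r)) q r then f q * f r * G q r else 0) := by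
              split_ifs
              · exact hfG
              · exact le_rfl
            linarith only [this]
          · rw [if_pos h]
            have : 0 ≤ (if TA γ ψ ((1 / 2 : ℝ) ^ (j q r)) q r then f q * f r * G q r else 0) := by
              split_ifs
              · exact hfG
              · exact le_rfl
            linarith only [this]
        have h5 : 1 / DD q r (ψ q) (ψ r) ≤ 2 * (2 : ℝ) ^ (j q r) := by
          rw [div_le_iff₀ hD0]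
          have h6 : (2 : ℝ) ^ (j q r) * (1 / 2 : ℝ) ^ (j q r) = 1 := by
            rw [← mul_pow]; norm_num
          have h7 : (2 : ℝ) ^ (j q r) * ((1 / 2 : ℝ) ^ (j q r) / 2) ≤
              (2 : ℝ) ^ (j q r) * DD q r (ψ q) (ψ r) := by (clear * - h2; gcongr)
          nlinarith only [h6, h7]
        calc f q * f r * (G q r / DD q r (ψ q) (ψ r))
            = (1 / DD q r (ψ q) (ψ r)) * (f q * f r * G q r) := by ring
          _ ≤ 2 * (2 : ℝ) ^ (j q r) * (f q * f r * G q r) := by (clear * - h5 hfG; gcongr)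
          _ ≤ _ := by (clear * - h4; gcongr)
    · rw [if_neg hR]
      exact hs
  calc wsum (SmallRel γ ψ) N f f
        (fun q r => GG (cofac q r * cofac r q) / DD q r (ψ q) (ψ r))
      ≤ ∑ q ∈ Icc 1 N, ∑ r ∈ Icc 1 N, ∑ i ∈ (range J).filter (fun i => 10 ≤ i),
        2 * (2 : ℝ) ^ i *
        ((if TA γ ψ ((1 / 2 : ℝ) ^ i) q r then f q * f r * G q r else 0) +
          (if UB ψ ((1 / 2 : ℝ) ^ i) q r then f q * f r * G q r else 0)) := by
        unfold wsum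
        exact sum_le_sum fun q hq => sum_le_sum fun r hr => hpt q hq r hr
    _ = ∑ i ∈ (range J).filter (fun i => 10 ≤ i), 2 * (2 : ℝ) ^ i *
        (wsum (TA γ ψ ((1 / 2 : ℝ) ^ i)) N f f G + wsum (UB ψ ((1 / 2 : ℝ) ^ i)) N f f G) := by
        unfold wsum
        simp_rw [mul_add, mul_sum]
        conv_lhs =>
          enter [2, q]
          rw [sum_comm]
        rw [sum_comm]
        refine sum_congr rfl fun i _ => ?_
        simp_rw [sum_add_distrib]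
    _ ≤ ∑ i ∈ (range J).filter (fun i => 10 ≤ i), 2 * (2 : ℝ) ^ i *
        (C * ((1 / 2 : ℝ) ^ i) ^ (1 + c) * (F + F ^ 2)) := by
        apply sum_le_sum
        intro i hi
        rw [mem_filter] at hi
        have hs0 : (0 : ℝ) < (1 / 2 : ℝ) ^ i := by positivity
        have hs3 : (1 / 2 : ℝ) ^ i ≤ 1 / 1000 := by
          have h3 : (1 / 2 : ℝ) ^ i ≤ (1 / 2 : ℝ) ^ 10 :=
            pow_le_pow_of_le_one (by norm_num) (by norm_num) hi.2
          have h4 : (1 / 2 : ℝ) ^ 10 = 1 / 1024 := by norm_num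
          rw [h4] at h3
          linarith only [h3]
        have := hlev γ ((1 / 2 : ℝ) ^ i) hs0 hs3 N ψ f hψ hf hsep
        (clear * - this; gcongr)
    _ = ∑ i ∈ (range J).filter (fun i => 10 ≤ i), 2 * C * (F + F ^ 2) * ((1 / 2 : ℝ) ^ c) ^ i := by
        apply sum_congr rfl
        intro i _
        rw [half_pow_rpow]
        have h6 : (2 : ℝ) ^ i * (1 / 2 : ℝ) ^ i = 1 := by
          rw [← mul_pow]; norm_num
        linear_combination (2 * C * (F + F ^ 2) * ((1 / 2 : ℝ) ^ c) ^ i) * h6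
    _ ≤ ∑ i ∈ range J, 2 * C * (F + F ^ 2) * ((1 / 2 : ℝ) ^ c) ^ i := by
        apply sum_le_sum_of_subset_of_nonneg (filter_subset _ _)
        intro i _ _
        have : (0 : ℝ) ≤ (1 / 2 : ℝ) ^ c := by positivity
        (clear * - hC hF0; positivity)
    _ = 2 * C * (F + F ^ 2) * ∑ i ∈ range J, ((1 / 2 : ℝ) ^ c) ^ i := by rw [mul_sum]
    _ ≤ 2 * C * (F + F ^ 2) * (1 - (1 / 2 : ℝ) ^ c)⁻¹ := by
        have := geom_half hc J
        (clear * - this hC hF0; gcongr)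
    _ = _ := by ring

open Classical in
/-- the moment for a function vanishing outside of `S` -/
theorem qc_aux (P : ℕ → (ℕ → ℝ) → (ℕ → ℝ) → Prop)
    (hsmall : ∃ C > 0, ∀ (γ : ℝ) (N : ℕ) (ψ f : ℕ → ℝ),
      (∀ q, 0 ≤ ψ q) → (∀ q, 0 ≤ f q ∧ f q ≤ ψ q * (q.totient / q)) → P N ψ f →
        wsum (SmallRel γ ψ) N f f
          (fun q r => GG (cofac q r * cofac r q) / DD q r (ψ q) (ψ r)) ≤
          C * ((∑ q ∈ Icc 1 N, f q) + (∑ q ∈ Icc 1 N, f q) ^ 2)) :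
    ∃ C > 0, ∀ (γ : ℝ) (ψ : ℕ → ℝ) (S : Finset ℕ) (N : ℕ), S ⊆ Icc 1 N →
      (∀ q, q ∉ S → ψ q = 0) → (∀ q ∈ S, 0 < ψ q ∧ ψ q ≤ 1 / 2) →
      P N ψ (fun q => (q.totient : ℝ) / q * ψ q) →
      ∑ q ∈ S, ∑ r ∈ S, wK γ (ψ q) q * wK γ (ψ r) r *
        volume.real (GK γ ψ q ∩ GK γ ψ r ∩ Set.Ioc 0 1) ≤
      C * ((∑ q ∈ Icc 1 N, (q.totient : ℝ) / q * ψ q) +
        (∑ q ∈ Icc 1 N, (q.totient : ℝ) / q * ψ q) ^ 2) := by
  obtain ⟨C₀, hC₀, hpair⟩ := pair_four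
  obtain ⟨C₁, hC₁, hanat⟩ := anat_sum
  obtain ⟨C₂, hC₂, hsmall⟩ := hsmall
  obtain ⟨C₃, hC₃, hres⟩ := resid
  obtain ⟨C₄, hC₄, hdiff⟩ := diff_sum
  refine ⟨C₀ * C₁ + C₀ * C₂ + 128 * C₃ + 32 * C₄,
    by (clear * - hC₀ hC₁ hC₂ hC₃ hC₄; positivity), ?_⟩
  intro γ ψ S N hSN hψ0 hS hsep
  have hψ : ∀ q, 0 ≤ ψ q := by
    intro q
    by_cases h : q ∈ S
    · exact (hS q h).1.le
    · rw [hψ0 q h]
  set f : ℕ → ℝ := fun q => (q.totient : ℝ) / q * ψ q with hf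
  have hf0 : ∀ q, 0 ≤ f q := fun q => mul_nonneg (by (clear * -; positivity)) (hψ q)
  have hfψ : ∀ q, 0 ≤ f q ∧ f q ≤ ψ q * (q.totient / q) :=
    fun q => ⟨hf0 q, le_of_eq (mul_comm _ _)⟩
  set F : ℝ := ∑ q ∈ Icc 1 N, f q with hF
  have hF0 : 0 ≤ F := sum_nonneg fun q _ => hf0 q
  have hpos : ∀ q ∈ S, 0 < q := by
    intro q hq
    have := hSN hq
    rw [mem_Icc] at this
    omega
  -- pointwise bound, everything expressed by `f`
  have hpt : ∀ q ∈ S, ∀ r ∈ S, wK γ (ψ q) q * wK γ (ψ r) r *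
        volume.real (GK γ ψ q ∩ GK γ ψ r ∩ Set.Ioc 0 1) ≤
      C₀ * (f q * f r * GT (max 2 (DD q r (ψ q) (ψ r))) (cofac q r * cofac r q)) +
      C₀ * (if SmallRel γ ψ q r then
        f q * f r * (GG (cofac q r * cofac r q) / DD q r (ψ q) (ψ r)) else 0) +
      128 * (Real.sqrt (f q * f r) * resK q r) +
      16 * (Real.sqrt (f q * f r) *
        KD (Bq γ (ψ q)) (Bq γ (ψ r)) (cofac q r) (cofac r q)) +
      16 * (Real.sqrt (f r * f q) *
        KD (Bq γ (ψ r)) (Bq γ (ψ q)) (cofac r q) (cofac q r)) := by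
    intro q hq r hr
    obtain ⟨hq3, hq4⟩ := hS q hq
    obtain ⟨hr3, hr4⟩ := hS r hr
    have h1 := hpair γ ψ q r (hpos q hq) (hpos r hr) hq3 hr3 hq4 hr4
    refine h1.trans ?_
    refine add_le_add (add_le_add (add_le_add (add_le_add le_rfl ?_) le_rfl) le_rfl) ?_
    · split_ifs with h
      · apply le_of_eq
        simp only [hf]
        ring
      · simp
    · rw [mul_comm (f r) (f q)]
  -- the sums
  have hGT0 : ∀ (D : ℝ) (n : ℕ), 0 ≤ GT D n := by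
    intro D n
    rw [GT_eq]
    exact inv_nonneg.mpr (pr_pos fun p hp =>
      Nat.prime_of_mem_primeFactors (mem_filter.mp hp).1).le
  have hDn : ∀ q r, 0 ≤ DD q r (ψ q) (ψ r) := by
    intro q r
    unfold DD
    exact div_nonneg (le_trans (mul_nonneg (Nat.cast_nonneg _) (hψ q)) (le_max_left _ _))
      (Nat.cast_nonneg _)
  have hext : ∀ G : ℕ → ℕ → ℝ, (∀ q r, 0 ≤ G q r) →
      ∑ q ∈ S, ∑ r ∈ S, G q r ≤ ∑ q ∈ Icc 1 N, ∑ r ∈ Icc 1 N, G q r := by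
    intro G hG
    calc ∑ q ∈ S, ∑ r ∈ S, G q r ≤ ∑ q ∈ S, ∑ r ∈ Icc 1 N, G q r :=
          sum_le_sum fun q _ => sum_le_sum_of_subset_of_nonneg hSN fun r _ _ => hG q r
      _ ≤ _ := sum_le_sum_of_subset_of_nonneg hSN fun q _ _ => sum_nonneg fun r _ => hG q r
  have hff : ∀ q r, 0 ≤ f q * f r := fun q r => mul_nonneg (hf0 q) (hf0 r)
  have s1 : ∑ q ∈ S, ∑ r ∈ S,
      f q * f r * GT (max 2 (DD q r (ψ q) (ψ r))) (cofac q r * cofac r q) ≤
      C₁ * (F + F ^ 2) :=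
    (hext _ fun q r => mul_nonneg (hff q r) (hGT0 _ _)).trans (hanat N ψ f hψ hfψ)
  have s2 : ∑ q ∈ S, ∑ r ∈ S,
      (if SmallRel γ ψ q r then
        f q * f r * (GG (cofac q r * cofac r q) / DD q r (ψ q) (ψ r)) else 0) ≤
      C₂ * (F + F ^ 2) := by
    refine (hext _ fun q r => ?_).trans (hsmall γ N ψ f hψ hfψ hsep)
    split_ifs
    · exact mul_nonneg (hff q r) (div_nonneg (GG_nonneg _) (hDn q r))
    · exact le_rfl
  have s3 : ∑ q ∈ S, ∑ r ∈ S, Real.sqrt (f q * f r) * resK q r ≤ C₃ * F :=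
    (hext _ fun q r => mul_nonneg (Real.sqrt_nonneg _) (resK_nonneg q r)).trans (hres N f hf0)
  have s4 : ∑ q ∈ S, ∑ r ∈ S, Real.sqrt (f q * f r) *
      KD (Bq γ (ψ q)) (Bq γ (ψ r)) (cofac q r) (cofac r q) ≤ C₄ * F :=
    (hext _ fun q r => mul_nonneg (Real.sqrt_nonneg _) (n16_KD_nonneg _ _ _ _)).trans
      (hdiff N f (fun q => Bq γ (ψ q)) hf0 (fun q => Bsel_pos _ _ _) fun q r h => n16_gap h)
  have s5 : ∑ q ∈ S, ∑ r ∈ S, Real.sqrt (f r * f q) *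
      KD (Bq γ (ψ r)) (Bq γ (ψ q)) (cofac r q) (cofac q r) ≤ C₄ * F := by
    rw [sum_comm]
    exact s4
  have hsum : ∑ q ∈ S, ∑ r ∈ S, wK γ (ψ q) q * wK γ (ψ r) r *
        volume.real (GK γ ψ q ∩ GK γ ψ r ∩ Set.Ioc 0 1) ≤
      C₀ * (C₁ * (F + F ^ 2)) + C₀ * (C₂ * (F + F ^ 2)) + 128 * (C₃ * F) +
        16 * (C₄ * F) + 16 * (C₄ * F) := by
    refine (sum_le_sum fun q hq => sum_le_sum fun r hr => hpt q hq r hr).trans ?_
    simp_rw [sum_add_distrib, ← mul_sum]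
    (clear * - s1 hC₀ s2 s3 s4 s5; gcongr)
  refine hsum.trans ?_
  have h6 : F ≤ F + F ^ 2 := by nlinarith only []
  have h7 : 128 * (C₃ * F) ≤ 128 * (C₃ * (F + F ^ 2)) := by
    (clear * - h6 hC₃; gcongr)
  have h9 : 16 * (C₄ * F) ≤ 16 * (C₄ * (F + F ^ 2)) := by
    (clear * - h6 hC₄; gcongr)
  have h8 : (C₀ * C₁ + C₀ * C₂ + 128 * C₃ + 32 * C₄) * (F + F ^ 2) =
      C₀ * (C₁ * (F + F ^ 2)) + C₀ * (C₂ * (F + F ^ 2)) + 128 * (C₃ * (F + F ^ 2)) +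
        16 * (C₄ * (F + F ^ 2)) + 16 * (C₄ * (F + F ^ 2)) := by ring
  rw [h8]
  linarith only [h7, h9]

/-- the second moment -/
theorem qc_moment (P : ℕ → (ℕ → ℝ) → (ℕ → ℝ) → Prop)
    (hsmall : ∃ C > 0, ∀ (γ : ℝ) (N : ℕ) (ψ f : ℕ → ℝ),
      (∀ q, 0 ≤ ψ q) → (∀ q, 0 ≤ f q ∧ f q ≤ ψ q * (q.totient / q)) → P N ψ f →
        wsum (SmallRel γ ψ) N f f
          (fun q r => GG (cofac q r * cofac r q) / DD q r (ψ q) (ψ r)) ≤
          C * ((∑ q ∈ Icc 1 N, f q) + (∑ q ∈ Icc 1 N, f q) ^ 2)) :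
    open Classical in ∃ C > 0, ∀ (γ : ℝ) (ψ : ℕ → ℝ) (S : Finset ℕ),
    (∀ q ∈ S, 0 < q ∧ 0 < ψ q ∧ ψ q ≤ 1 / 2) →
    P (S.sup id) (fun q => if q ∈ S then ψ q else 0)
      (fun q => if q ∈ S then (q.totient : ℝ) / q * ψ q else 0) →
      ∑ q ∈ S, ∑ r ∈ S, wK γ (ψ q) q * wK γ (ψ r) r *
        volume.real (GK γ ψ q ∩ GK γ ψ r ∩ Set.Ioc 0 1) ≤
      C * ((∑ q ∈ S, (q.totient : ℝ) / q * ψ q) + (∑ q ∈ S, (q.totient : ℝ) / q * ψ q) ^ 2) := by
  classical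
  obtain ⟨C, hC, h⟩ := qc_aux P hsmall
  refine ⟨C, hC, ?_⟩
  intro γ ψ S hS hP
  set ψ' : ℕ → ℝ := fun q => if q ∈ S then ψ q else 0 with hψ'
  have he : ∀ q ∈ S, ψ' q = ψ q := fun q hq => by simp only [hψ', if_pos hq]
  have hSN : S ⊆ Icc 1 (S.sup id) := by
    intro q hq
    rw [mem_Icc]
    exact ⟨(hS q hq).1, Finset.le_sup (f := id) hq⟩
  have hPe : (fun q : ℕ => (q.totient : ℝ) / q * ψ' q) =
      fun q => if q ∈ S then (q.totient : ℝ) / q * ψ q else 0 := by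
    funext q
    simp only [hψ']
    split_ifs
    · rfl
    · rw [mul_zero]
  have h1 := h γ ψ' S (S.sup id) hSN (fun q hq => by simp only [hψ', if_neg hq])
    (fun q hq => by rw [he q hq]; exact (hS q hq).2) (by rw [hPe]; exact hP)
  have h2 : ∑ q ∈ Icc 1 (S.sup id), (q.totient : ℝ) / q * ψ' q =
      ∑ q ∈ S, (q.totient : ℝ) / q * ψ q := by
    rw [← sum_subset hSN]
    · exact sum_congr rfl fun q hq => by rw [he q hq]
    · intro q _ hq
      simp only [hψ', if_neg hq, mul_zero]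
  rw [h2] at h1
  refine (le_of_eq ?_).trans h1
  refine sum_congr rfl fun q hq => sum_congr rfl fun r hr => ?_
  unfold GK
  rw [he q hq, he r hr]


open Classical in
/-- full measure from `TypeAP` -/
theorem full_P {P : ℕ → (ℕ → ℝ) → (ℕ → ℝ) → Prop} (hP : TypeAP P) (γ : ℝ) (ψ : ℕ → ℝ)
    (_hψ : ∀ q, 0 ≤ ψ q)
    (h : ∀ N : ℕ, ∃ S : Finset ℕ, (∀ q ∈ S, N ≤ q ∧ 0 < ψ q) ∧
      1 ≤ ∑ q ∈ S, ((q.totient : ℝ) / q) * ψ q ∧
      P (S.sup id) (fun q => if q ∈ S then ψ q else 0)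
        (fun q => if q ∈ S then (q.totient : ℝ) / q * ψ q else 0)) :
    volume (W γ ψ)ᶜ = 0 := by
  rcases Set.finite_or_infinite {q : ℕ | 1 / 2 < ψ q} with hfin | hinf
  swap
  · exact n17_full γ ψ hinf
  obtain ⟨N₁, hN₁⟩ : ∃ N₁ : ℕ, ∀ q : ℕ, N₁ ≤ q → ψ q ≤ 1 / 2 := by
    obtain ⟨M, hM⟩ := hfin.bddAbove
    refine ⟨M + 1, fun q hq => ?_⟩
    by_contra hlt
    push Not at hlt
    have := hM (show q ∈ {q : ℕ | 1 / 2 < ψ q} from hlt)
    omega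
  obtain ⟨C, hC, hmom⟩ := qc_moment P (small_sum_P hP)
  apply full_of_moment γ ψ (2 * C) (1 / 2) (by positivity) (by norm_num)
  intro N
  obtain ⟨Q₀, hQ₀⟩ := lower_count (1 / ((N : ℝ) + 1)) (by (clear * -; positivity))
  obtain ⟨S, hS, hF1, hPS⟩ := h (N₁ + Q₀ + N + 1)
  have hS1 : ∀ q ∈ S, N₁ + Q₀ + N + 1 ≤ q := fun q hq => (hS q hq).1
  have hq0 : ∀ q ∈ S, 0 < q := fun q hq => by have := hS1 q hq; omega
  have hhalf : ∀ q ∈ S, ψ q ≤ 1 / 2 := fun q hq => hN₁ q (by have := hS1 q hq; omega)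
  have hpos : ∀ q ∈ S, 0 < ψ q := fun q hq => (hS q hq).2
  refine ⟨S, fun q => wK γ (ψ q) q, fun q => AK γ (ψ q) q, ?_, ?_, ?_, ?_, ?_⟩
  · intro q hq
    exact ⟨by have := hS1 q hq; omega, hpos q hq, hhalf q hq⟩
  · intro q _
    exact wK_nonneg _ _ _
  · linarith only [hF1]
  · intro q hq m n hmn
    have h1 := hQ₀ q (Bq γ (ψ q)) (Aq γ (ψ q)) (PK γ (ψ q) q)
      (by have := hS1 q hq; omega)
      (fun p hp => ⟨(mem_PK hp).1, (mem_PK hp).2.1, (mem_PK hp).2.2.2⟩) m n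
      (by rw [one_div_mul_eq_div]; exact hmn)
    have h2 : ((((Ioc m n).filter (fun al : ℤ => ∀ p ∈ PK γ (ψ q) q,
        ¬ (p : ℤ) ∣ al * (Bq γ (ψ q) : ℤ) + Aq γ (ψ q))).card : ℕ) : ℝ) =
        (((Finset.Ioc m n).filter (AK γ (ψ q) q)).card : ℝ) := by
      norm_cast
      congr 1
      ext al
      simp only [mem_filter]
      rfl
    rw [h2] at h1
    calc 1 / 2 * ((q.totient : ℝ) / q) * ((n : ℝ) - m)
        = wK γ (ψ q) q * (1 / 2 * ((n : ℝ) - m) * pr (PK γ (ψ q) q)) := by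
          rw [← wK_mul_pr γ (ψ q) q]; ring
      _ ≤ _ := mul_le_mul_of_nonneg_left h1 (wK_nonneg _ _ _)
  · have h1 := hmom γ ψ S (fun q hq => ⟨hq0 q hq, hpos q hq, hhalf q hq⟩) (by convert hPS)
    refine h1.trans ?_
    set F := ∑ q ∈ S, (q.totient : ℝ) / q * ψ q with hF'
    have h2 : F ≤ F ^ 2 := by nlinarith only [hF1]
    calc C * (F + F ^ 2) ≤ C * (F ^ 2 + F ^ 2) := by (clear * - h2 hC; gcongr)
      _ = 2 * C * F ^ 2 := by ring

end Vale.P028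

end

section

/-!
# Far pairs for large arcs: loss `(log (3 / ψ))^ε`
-/

namespace Vale.P028

open Finset

/-- the numerics of the second case -/
theorem qz_num {s x F k ε δ : ℝ} (hs : 0 < s) (hs1 : s ≤ 1) (hx : 1 ≤ x) (hk : 0 ≤ k)
    (hε : 0 < ε) (hδ : 0 < δ) (hδ1 : δ ≤ 1 / 512) (hδ2 : δ ≤ ε / (2048 * k + 1))
    (hF : x ^ ε ≤ F) (h : (1 / 2 : ℝ) ^ 64 < s ∨ s ^ (-(1 / 512) : ℝ) < x ^ k) :
    s ^ (-(2 * δ)) ≤ 2 ^ 64 * F ^ (1 - δ) := by
  have hx0 : 0 < x := by linarith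
  have hF1 : 1 ≤ F := le_trans (Real.one_le_rpow hx hε.le) hF
  have hF2 : 1 ≤ F ^ (1 - δ) := Real.one_le_rpow hF1 (by linarith)
  rcases h with h | h
  · have h1 : s ^ (-(2 * δ)) ≤ s ^ (-1 : ℝ) :=
      Real.rpow_le_rpow_of_exponent_ge hs hs1 (by linarith)
    have h2 : s ^ (-1 : ℝ) ≤ 2 ^ 64 := by
      rw [Real.rpow_neg_one]
      rw [inv_le_comm₀ hs (by norm_num)]
      refine le_trans (le_of_eq ?_) h.le
      norm_num
    calc s ^ (-(2 * δ)) ≤ 2 ^ 64 := h1.trans h2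
      _ = 2 ^ 64 * 1 := (mul_one _).symm
      _ ≤ 2 ^ 64 * F ^ (1 - δ) := mul_le_mul_of_nonneg_left hF2 (by norm_num)
  · have h1 : s ^ (-(2 * δ)) = (s ^ (-(1 / 512) : ℝ)) ^ (1024 * δ) := by
      rw [← Real.rpow_mul hs.le]
      congr 1
      ring
    have h2 : (s ^ (-(1 / 512) : ℝ)) ^ (1024 * δ) ≤ (x ^ k) ^ (1024 * δ) :=
      Real.rpow_le_rpow (Real.rpow_nonneg hs.le _) h.le (by linarith)
    have h3 : (x ^ k) ^ (1024 * δ) = x ^ (1024 * k * δ) := by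
      rw [← Real.rpow_mul hx0.le]
      congr 1
      ring
    have h4 : 1024 * k * δ ≤ ε * (1 - δ) := by
      have a1 : (0 : ℝ) < 2048 * k + 1 := by linarith
      rw [le_div_iff₀ a1] at hδ2
      have a2 : ε * δ ≤ ε * (1 / 512) := mul_le_mul_of_nonneg_left hδ1 hε.le
      nlinarith
    have h5 : x ^ (1024 * k * δ) ≤ x ^ (ε * (1 - δ)) := Real.rpow_le_rpow_of_exponent_le hx h4
    have h6 : x ^ (ε * (1 - δ)) = (x ^ ε) ^ (1 - δ) := Real.rpow_mul hx0.le _ _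
    have h7 : (x ^ ε) ^ (1 - δ) ≤ F ^ (1 - δ) :=
      Real.rpow_le_rpow (Real.rpow_nonneg hx0.le _) hF (by linarith)
    calc s ^ (-(2 * δ)) ≤ F ^ (1 - δ) := by
          rw [h1]
          refine h2.trans ?_
          rw [h3]
          refine h5.trans ?_
          rw [h6]
          exact h7
      _ = 1 * F ^ (1 - δ) := (one_mul _).symm
      _ ≤ 2 ^ 64 * F ^ (1 - δ) := mul_le_mul_of_nonneg_right (by norm_num) (by linarith)

/-- the pairs of type (a) at a large level, when the mass is large -/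
theorem qs_case2 {k ε : ℝ} (hk : 0 ≤ k) (hε : 0 < ε) :
    ∃ C δ : ℝ, 0 < C ∧ 0 < δ ∧ δ ≤ 1 / 512 ∧ ∀ (γ s x : ℝ) (N : ℕ) (ψ f : ℕ → ℝ), 0 < s →
      s ≤ 1 → 1 ≤ x → (∀ q, 0 ≤ ψ q) → (∀ q, 0 ≤ f q ∧ f q ≤ ψ q * (q.totient / q)) →
      x ^ ε ≤ ∑ q ∈ Icc 1 N, f q → s ^ (-(1 / 512) : ℝ) < x ^ k →
      psum (TA γ ψ s) N f f ≤
        C * s ^ (1 + δ) * ((∑ q ∈ Icc 1 N, f q) + (∑ q ∈ Icc 1 N, f q) ^ 2) := by
  set δ : ℝ := min (1 / 512) (ε / (2048 * k + 1)) with hδdef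
  have hδ : 0 < δ := lt_min (by norm_num) (div_pos hε (by linarith))
  have hδ1 : δ ≤ 1 / 512 := min_le_left _ _
  have hδ2 : δ ≤ ε / (2048 * k + 1) := min_le_right _ _
  obtain ⟨C₂, hC₂, hT⟩ := T1 (θ := (1 + δ) / 2) (by linarith) (by linarith)
  refine ⟨C₂ * 2 ^ 64, δ, by positivity, hδ, hδ1, ?_⟩
  intro γ s x N ψ f hs hs2 hx hψ hf hFx hcase
  set F : ℝ := ∑ q ∈ Icc 1 N, f q with hF
  have hf0 : ∀ q, 0 ≤ f q := fun q => (hf q).1
  have hF0 : 0 ≤ F := sum_nonneg fun q _ => hf0 q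
  have hsδ : 0 ≤ s ^ (1 + δ) := Real.rpow_nonneg hs.le _
  have hF1 : 1 ≤ F := le_trans (Real.one_le_rpow hx hε.le) hFx
  have hFp : 0 < F := by linarith
  have h1 : psum (TA γ ψ s) N f f ≤
      psum (fun q r => (cofac r q : ℝ) * ψ q ≤ s ∧ (cofac q r : ℝ) * ψ r ≤ s) N f f := by
    apply psum_mono _ _ _ _ _ _ _ hf0 hf0
    intro q _ r _ hR _
    exact ⟨⟨hR.1.2.1, hR.1.2.2.1⟩, le_rfl⟩
  have h2 := hT ψ ψ f f s s N hs hs hψ hψ hf hf
  have h3 := qz_num hs hs2 hx hk hε hδ hδ1 hδ2 hFx (Or.inr hcase)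
  have e1 : (s * s) ^ (1 - (1 + δ) / 2) = s ^ (1 + δ) * s ^ (-(2 * δ)) := by
    rw [← Real.rpow_add hs, ← pow_two, ← Real.rpow_natCast, ← Real.rpow_mul hs.le]
    congr 1
    push_cast
    ring
  have e2 : (F * F) ^ ((1 + δ) / 2) * F ^ (1 - δ) = F ^ 2 := by
    rw [← pow_two, ← Real.rpow_natCast, ← Real.rpow_mul hFp.le, ← Real.rpow_add hFp]
    congr 1
    push_cast
    ring
  calc psum (TA γ ψ s) N f f
      ≤ C₂ * (s * s) ^ (1 - (1 + δ) / 2) * (F * F) ^ ((1 + δ) / 2) := h1.trans h2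
    _ = C₂ * s ^ (1 + δ) * ((F * F) ^ ((1 + δ) / 2) * s ^ (-(2 * δ))) := by rw [e1]; ring
    _ ≤ C₂ * s ^ (1 + δ) * ((F * F) ^ ((1 + δ) / 2) * (2 ^ 64 * F ^ (1 - δ))) := by
        apply mul_le_mul_of_nonneg_left _ (mul_nonneg hC₂.le hsδ)
        exact mul_le_mul_of_nonneg_left h3 (Real.rpow_nonneg (by positivity) _)
    _ = C₂ * 2 ^ 64 * s ^ (1 + δ) * ((F * F) ^ ((1 + δ) / 2) * F ^ (1 - δ)) := by ring
    _ = C₂ * 2 ^ 64 * s ^ (1 + δ) * F ^ 2 := by rw [e2]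
    _ ≤ C₂ * 2 ^ 64 * s ^ (1 + δ) * (F + F ^ 2) := by
        apply mul_le_mul_of_nonneg_left _ (by positivity)
        linarith

/-- large arcs: `ψ ≥ e^{-Λ}` on the support and mass at least `(1 + Λ)^ε` -/
def PSize (ε : ℝ) (N : ℕ) (ψ f : ℕ → ℝ) : Prop :=
  ∃ Λ : ℝ, 0 ≤ Λ ∧ (∀ q, f q ≠ 0 → Real.exp (-Λ) ≤ ψ q) ∧
    (1 + Λ) ^ ε ≤ ∑ q ∈ Icc 1 N, f q

theorem typeA_size {ε : ℝ} (hε : 0 < ε) : TypeAP (PSize ε) := by
  obtain ⟨C₁, ε₁, hC₁, hε₁, hnear⟩ := near_part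
  set k : ℝ := 1 / (512 * ε₁) with hk
  have hk0 : 0 < k := by positivity
  obtain ⟨C₂, δ, hC₂, hδ, hδ1, hbig⟩ := qs_case2 hk0.le hε
  refine ⟨C₁ + C₂, δ, by positivity, hδ, ?_⟩
  rintro γ s hs hs1 N ψ f hψ hf ⟨Λ, hΛ, hsupp, hFx⟩
  set F : ℝ := ∑ q ∈ Icc 1 N, f q with hF
  have hf0 : ∀ q, 0 ≤ f q := fun q => (hf q).1
  have hF0 : 0 ≤ F := sum_nonneg fun q _ => hf0 q
  have hs2 : s ≤ 1 := by linarith
  have hsδ : 0 ≤ s ^ (1 + δ) := Real.rpow_nonneg hs.le _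
  have hFF : 0 ≤ F + F ^ 2 := by positivity
  have hfψ : ∀ q, 0 ≤ f q ∧ f q ≤ ψ q := by
    intro q
    refine ⟨hf0 q, (hf q).2.trans ?_⟩
    calc ψ q * ((q.totient : ℝ) / q) ≤ ψ q * 1 :=
          mul_le_mul_of_nonneg_left (tot_le_one q) (hψ q)
      _ = ψ q := mul_one _
  by_cases hcase : s ^ (-(1 / 512) : ℝ) < (1 + Λ) ^ k
  · have h1 := hbig γ s (1 + Λ) N ψ f hs hs2 (by linarith) hψ hf hFx hcase
    refine h1.trans ?_
    apply mul_le_mul_of_nonneg_right _ hFF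
    apply mul_le_mul_of_nonneg_right _ hsδ
    linarith
  · push Not at hcase
    have hΛ1 : 1 + Λ ≤ s ^ (-ε₁) := by
      have h1 : ((1 + Λ) ^ k) ^ (512 * ε₁) ≤ (s ^ (-(1 / 512) : ℝ)) ^ (512 * ε₁) :=
        Real.rpow_le_rpow (Real.rpow_nonneg (by linarith) _) hcase (by positivity)
      rw [← Real.rpow_mul (by linarith), ← Real.rpow_mul hs.le] at h1
      have e1 : k * (512 * ε₁) = 1 := by
        rw [hk]
        field_simp
      have e2 : (-(1 / 512) : ℝ) * (512 * ε₁) = -ε₁ := by ring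
      rw [e1, e2, Real.rpow_one] at h1
      exact h1
    have hsize : ∀ (w : ℕ) (x : ℝ), Real.exp (-Λ) ≤ x → (w : ℝ) * x ≤ s →
        w ≤ ⌊Real.exp (s ^ (-ε₁))⌋₊ := by
      intro w x hx hw
      apply Nat.le_floor
      have h1 : (w : ℝ) * Real.exp (-Λ) ≤ 1 :=
        (mul_le_mul_of_nonneg_left hx (Nat.cast_nonneg _)).trans (hw.trans hs2)
      have h2 : (w : ℝ) ≤ Real.exp Λ := by
        have h3 : (w : ℝ) = (w : ℝ) * Real.exp (-Λ) * Real.exp Λ := by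
          rw [mul_assoc, ← Real.exp_add]
          simp
        rw [h3]
        calc (w : ℝ) * Real.exp (-Λ) * Real.exp Λ ≤ 1 * Real.exp Λ :=
              mul_le_mul_of_nonneg_right h1 (Real.exp_pos _).le
          _ = Real.exp Λ := one_mul _
      refine h2.trans (Real.exp_le_exp.mpr ?_)
      linarith
    have h1 : psum (TA γ ψ s) N f f ≤
        psum (fun q r => Rel γ ψ s q r ∧ Far γ s (cofac q r) (cofac r q) ∧
          cofac q r ≤ ⌊Real.exp (s ^ (-ε₁))⌋₊ ∧ cofac r q ≤ ⌊Real.exp (s ^ (-ε₁))⌋₊) N f f := by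
      apply psum_mono _ _ _ _ _ _ _ hf0 hf0
      intro q _ r _ hR hne
      have hq : f q ≠ 0 := left_ne_zero_of_mul hne
      have hr : f r ≠ 0 := right_ne_zero_of_mul hne
      exact ⟨⟨hR.1, hR.2.1, hsize _ _ (hsupp r hr) hR.1.2.2.1,
        hsize _ _ (hsupp q hq) hR.1.2.1⟩, le_rfl⟩
    have h2 := hnear γ s hs hs1 N ψ f hfψ
    have h3 : s ^ (1 + 1 / 64 : ℝ) ≤ s ^ (1 + δ) :=
      Real.rpow_le_rpow_of_exponent_ge hs hs2 (by linarith)
    calc psum (TA γ ψ s) N f f ≤ C₁ * s ^ (1 + 1 / 64 : ℝ) * (F + F ^ 2) := h1.trans h2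
      _ ≤ C₁ * s ^ (1 + δ) * (F + F ^ 2) := by
          apply mul_le_mul_of_nonneg_right _ hFF
          exact mul_le_mul_of_nonneg_left h3 hC₁.le
      _ ≤ (C₁ + C₂) * s ^ (1 + δ) * (F + F ^ 2) := by
          apply mul_le_mul_of_nonneg_right _ hFF
          apply mul_le_mul_of_nonneg_right _ hsδ
          linarith

end Vale.P028

end

section

/-!
# Theorem L: selection of a class with large mass
-/

namespace Vale.P028

open Finset

/-- `log (2 + t)` is at least a quarter of `2 ^ k` when `k` is the first with `t ≤ exp (2 ^ k)`. -/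
theorem ql_class (t : ℝ) (_ht : 0 ≤ t) : ∃ k : ℕ, t ≤ Real.exp (2 ^ k) ∧
    (2 : ℝ) ^ k / 4 ≤ Real.log (2 + t) := by
  classical
  have hex : ∃ k : ℕ, t ≤ Real.exp (2 ^ k) := by
    obtain ⟨n, hn⟩ := exists_nat_gt t
    refine ⟨n, hn.le.trans ?_⟩
    have h1 : (n : ℝ) ≤ 2 ^ n := by exact_mod_cast Nat.lt_two_pow_self.le
    exact h1.trans ((by linarith [Real.add_one_le_exp ((2 : ℝ) ^ n)]))
  refine ⟨Nat.find hex, Nat.find_spec hex, ?_⟩
  rcases Nat.eq_zero_or_pos (Nat.find hex) with h0 | h0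
  · rw [h0, pow_zero]
    have h1 : Real.log 2 ≤ Real.log (2 + t) := Real.log_le_log (by norm_num) (by linarith)
    have h2 := Real.log_two_gt_d9
    linarith
  · have h1 : ¬ t ≤ Real.exp (2 ^ (Nat.find hex - 1)) := Nat.find_min hex (by omega)
    push Not at h1
    have h2 : (2 : ℝ) ^ (Nat.find hex - 1) ≤ Real.log (2 + t) := by
      rw [Real.le_log_iff_exp_le (by linarith)]
      linarith
    have h3 : (2 : ℝ) ^ (Nat.find hex) = 2 ^ (Nat.find hex - 1) * 2 := by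
      rw [← pow_succ]
      congr 1
      omega
    have h4 : (0 : ℝ) < 2 ^ (Nat.find hex - 1) := by positivity
    rw [h3]
    linarith

theorem ql_select {g t : ℕ → ℝ} (hg : ∀ q, 0 ≤ g q) (ht : ∀ q, 0 ≤ t q) {ε : ℝ} (hε : 0 < ε)
    (hdiv : ¬ Summable (fun q : ℕ => g q / (Real.log (2 + t q)) ^ ε)) (N : ℕ) :
    ∃ (T : ℝ) (S : Finset ℕ), 1 ≤ T ∧ (∀ q ∈ S, N ≤ q ∧ g q ≠ 0 ∧ t q ≤ T) ∧
      (1 + Real.log T) ^ (ε / 2) ≤ ∑ q ∈ S, g q := by
  classical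
  by_contra hcon
  push Not at hcon
  apply hdiv
  choose k hk1 hk2 using fun q => ql_class (t q) (ht q)
  have hlog : ∀ q, 0 < Real.log (2 + t q) := fun q =>
    Real.log_pos (by linarith [ht q])
  have hterm0 : ∀ q, 0 ≤ g q / (Real.log (2 + t q)) ^ ε := fun q =>
    div_nonneg (hg q) (Real.rpow_nonneg (hlog q).le _)
  set r : ℝ := (2 : ℝ) ^ (-(ε / 2)) with hr
  have hr0 : 0 < r := Real.rpow_pos_of_pos (by norm_num) _
  have hr1 : r < 1 := Real.rpow_lt_one_of_one_lt_of_neg (by norm_num) (by linarith)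
  set A : ℝ := (4 : ℝ) ^ ε * 2 ^ (ε / 2) with hA
  have hA0 : 0 < A := by positivity
  refine summable_of_sum_le (c := ∑ q ∈ range N, g q / (Real.log (2 + t q)) ^ ε + A / (1 - r))
    hterm0 ?_
  intro u
  rw [← sum_filter_add_sum_filter_not u (fun q => q < N)]
  refine add_le_add ?_ ?_
  · apply sum_le_sum_of_subset_of_nonneg
    · intro q hq
      rw [mem_filter] at hq
      exact mem_range.mpr hq.2
    · exact fun q _ _ => hterm0 q
  · set v := u.filter (fun q => ¬ q < N) with hv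
    obtain ⟨K, hK⟩ : ∃ K : ℕ, ∀ q ∈ v, k q < K := by
      refine ⟨v.sup k + 1, fun q hq => ?_⟩
      have := le_sup (f := k) hq
      omega
    have h1 : ∑ q ∈ v, g q / (Real.log (2 + t q)) ^ ε =
        ∑ j ∈ range K, ∑ q ∈ v with k q = j, g q / (Real.log (2 + t q)) ^ ε :=
      (sum_fiberwise_of_maps_to (fun q hq => mem_range.mpr (hK q hq)) _).symm
    have h2 : ∀ j ∈ range K, ∑ q ∈ v with k q = j, g q / (Real.log (2 + t q)) ^ ε ≤
        A * r ^ j := by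
      intro j _
      have hj : ∀ q ∈ v.filter (fun q => k q = j), g q / (Real.log (2 + t q)) ^ ε ≤
          (4 / 2 ^ j) ^ ε * g q := by
        intro q hq
        rw [mem_filter] at hq
        have h3 := hk2 q
        rw [hq.2] at h3
        have h4 : (0 : ℝ) < 2 ^ j / 4 := by positivity
        rw [div_le_iff₀ (Real.rpow_pos_of_pos (hlog q) _)]
        have h5 : (1 : ℝ) ≤ (4 / 2 ^ j) ^ ε * (Real.log (2 + t q)) ^ ε := by
          rw [← Real.mul_rpow (by positivity) (hlog q).le]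
          apply Real.one_le_rpow _ hε.le
          have h6 : (0 : ℝ) < 4 / 2 ^ j := by positivity
          calc (1 : ℝ) = 4 / 2 ^ j * (2 ^ j / 4) := by field_simp
            _ ≤ 4 / 2 ^ j * Real.log (2 + t q) := mul_le_mul_of_nonneg_left h3 h6.le
        calc g q = 1 * g q := (one_mul _).symm
          _ ≤ ((4 / 2 ^ j) ^ ε * (Real.log (2 + t q)) ^ ε) * g q :=
            mul_le_mul_of_nonneg_right h5 (hg q)
          _ = _ := by ring
      have hS : ∑ q ∈ (v.filter (fun q => k q = j)).filter (fun q => g q ≠ 0), g q ≤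
          (1 + Real.log (Real.exp (2 ^ j))) ^ (ε / 2) := by
        apply le_of_lt
        apply hcon (Real.exp (2 ^ j)) _ (Real.one_le_exp (by positivity))
        intro q hq
        rw [mem_filter, mem_filter, hv, mem_filter] at hq
        refine ⟨by have := hq.1.1.2; omega, hq.2, ?_⟩
        have := hk1 q
        rw [hq.1.2] at this
        exact this
      have hS2 : ∑ q ∈ (v.filter (fun q => k q = j)).filter (fun q => g q ≠ 0), g q =
          ∑ q ∈ v.filter (fun q => k q = j), g q := sum_filter_ne_zero _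
      rw [hS2, Real.log_exp] at hS
      have h7 : ((4 : ℝ) / 2 ^ j) ^ ε * (1 + 2 ^ j) ^ (ε / 2) ≤ A * r ^ j := by
        have h8 : (1 + (2 : ℝ) ^ j) ^ (ε / 2) ≤ (2 * 2 ^ j) ^ (ε / 2) := by
          apply Real.rpow_le_rpow (by positivity) _ (by linarith)
          have : (1 : ℝ) ≤ 2 ^ j := one_le_pow₀ (by norm_num)
          linarith
        have h9 : (0 : ℝ) < 2 ^ j := by positivity
        have e1 : ((4 : ℝ) / 2 ^ j) ^ ε = 4 ^ ε * ((2 : ℝ) ^ j) ^ (-ε) := by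
          rw [Real.div_rpow (by norm_num) h9.le, Real.rpow_neg h9.le]
          rfl
        have e2 : (2 * (2 : ℝ) ^ j) ^ (ε / 2) = 2 ^ (ε / 2) * ((2 : ℝ) ^ j) ^ (ε / 2) :=
          Real.mul_rpow (by norm_num) h9.le
        have e3 : ((2 : ℝ) ^ j) ^ (-ε) * ((2 : ℝ) ^ j) ^ (ε / 2) = r ^ j := by
          rw [← Real.rpow_add h9, hr, ← Real.rpow_natCast, ← Real.rpow_natCast,
            ← Real.rpow_mul (by norm_num), ← Real.rpow_mul (by norm_num)]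
          congr 1
          ring
        calc ((4 : ℝ) / 2 ^ j) ^ ε * (1 + 2 ^ j) ^ (ε / 2)
            ≤ ((4 : ℝ) / 2 ^ j) ^ ε * (2 * 2 ^ j) ^ (ε / 2) :=
              mul_le_mul_of_nonneg_left h8 (Real.rpow_nonneg (by positivity) _)
          _ = A * (((2 : ℝ) ^ j) ^ (-ε) * ((2 : ℝ) ^ j) ^ (ε / 2)) := by
              rw [e1, e2, hA]; ring
          _ = A * r ^ j := by rw [e3]
      calc ∑ q ∈ v with k q = j, g q / (Real.log (2 + t q)) ^ ε
          ≤ ∑ q ∈ v with k q = j, (4 / 2 ^ j) ^ ε * g q := sum_le_sum hj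
        _ = (4 / 2 ^ j) ^ ε * ∑ q ∈ v with k q = j, g q := by rw [mul_sum]
        _ ≤ (4 / 2 ^ j) ^ ε * (1 + 2 ^ j) ^ (ε / 2) :=
          mul_le_mul_of_nonneg_left hS (Real.rpow_nonneg (by positivity) _)
        _ ≤ A * r ^ j := h7
    rw [h1]
    calc ∑ j ∈ range K, ∑ q ∈ v with k q = j, g q / (Real.log (2 + t q)) ^ ε
        ≤ ∑ j ∈ range K, A * r ^ j := sum_le_sum h2
      _ = A * ∑ j ∈ range K, r ^ j := by rw [mul_sum]
      _ ≤ A * (1 - r)⁻¹ := by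
          apply mul_le_mul_of_nonneg_left _ hA0.le
          rw [← tsum_geometric_of_lt_one hr0.le hr1]
          exact (summable_geometric_of_lt_one hr0.le hr1).sum_le_tsum _
            (fun i _ => by positivity)
      _ = A / (1 - r) := by rw [div_eq_mul_inv]

end Vale.P028

end

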