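import Vale.Agent.P028.MathlibUsed
import Vale.Agent.P028.RBd.C1
import Vale.Agent.P028.RBd.C2

set_option linter.all false

section

/-!
# Pairs whose cofactor has a large `∑ p^{-σ}`
-/

namespace Vale.P028

open Finset

theorem sg_cofac {σ : ℝ} {q r : ℕ} (hq : 0 < q) (hr : 0 < r) :
    sg σ r ≤ sg σ q + sg σ (cofac r q) := by
  unfold sg
  have hg : 0 < Nat.gcd r q := Nat.gcd_pos_of_pos_left _ hr
  have hc : cofac r q ≠ 0 := by
    unfold cofac
    exact (Nat.div_pos (Nat.le_of_dvd hr (Nat.gcd_dvd_left r q)) hg).ne'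
  have hsub : r.primeFactors ⊆ q.primeFactors ∪ (cofac r q).primeFactors := by
    intro p hp
    rw [Nat.mem_primeFactors] at hp
    rw [mem_union, Nat.mem_primeFactors, Nat.mem_primeFactors]
    by_cases h : p ∣ q
    · exact Or.inl ⟨hp.1, h, hq.ne'⟩
    · refine Or.inr ⟨hp.1, ?_, hc⟩
      have h1 : p ∣ cofac r q * Nat.gcd r q := by
        unfold cofac
        rw [Nat.div_mul_cancel (Nat.gcd_dvd_left r q)]
        exact hp.2.1
      rcases hp.1.dvd_mul.1 h1 with h2 | h2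
      · exact h2
      · exact absurd (h2.trans (Nat.gcd_dvd_right r q)) h
  have hnn : ∀ p : ℕ, 0 ≤ (p : ℝ) ^ (-σ) := fun p => Real.rpow_nonneg (Nat.cast_nonneg p) _
  calc ∑ p ∈ r.primeFactors, (p : ℝ) ^ (-σ)
      ≤ ∑ p ∈ q.primeFactors ∪ (cofac r q).primeFactors, (p : ℝ) ^ (-σ) :=
        sum_le_sum_of_subset_of_nonneg hsub fun p _ _ => hnn p
    _ ≤ _ := by
        rw [← sum_union_inter]
        have : 0 ≤ ∑ p ∈ q.primeFactors ∩ (cofac r q).primeFactors, (p : ℝ) ^ (-σ) :=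
          sum_nonneg fun p _ => hnn p
        linarith

theorem anat_sg {σ : ℝ} (hσ : 3 / 4 ≤ σ) :
    ∃ C > 0, ∀ (Y s : ℝ) (N : ℕ) (ψ f : ℕ → ℝ), 0 < Y → 0 < s → (∀ q, 0 ≤ ψ q) →
      (∀ q, 0 ≤ f q ∧ f q ≤ ψ q * (q.totient / q)) →
      psum (fun q r => Y ≤ sg σ (cofac q r) ∧ (cofac r q : ℝ) * ψ q ≤ s ∧
        (cofac q r : ℝ) * ψ r ≤ s) N f f ≤
        C / Y * (s * s) ^ (1 - 501 / 1000 : ℝ) *
          (∑ q ∈ Icc 1 N, f q) ^ (2 * (501 / 1000) : ℝ) := by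
  classical
  obtain ⟨C, hC, hT⟩ := T1_dvd (θ := 501 / 1000) (by norm_num) (by norm_num)
  have hsm : Summable (fun n : ℕ => (n : ℝ) ^ (-(1249 / 1000) : ℝ)) :=
    Real.summable_nat_rpow.2 (by norm_num)
  have hnn : ∀ n : ℕ, 0 ≤ (n : ℝ) ^ (-(1249 / 1000) : ℝ) :=
    fun n => Real.rpow_nonneg (Nat.cast_nonneg n) _
  refine ⟨C * (1 + ∑' n : ℕ, (n : ℝ) ^ (-(1249 / 1000) : ℝ)), ?_, ?_⟩
  · have : 0 ≤ ∑' n : ℕ, (n : ℝ) ^ (-(1249 / 1000) : ℝ) := tsum_nonneg hnn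
    positivity
  intro Y s N ψ f hY hs hψ hf
  set F : ℝ := ∑ q ∈ Icc 1 N, f q with hF
  have hF0 : 0 ≤ F := sum_nonneg fun q _ => (hf q).1
  have hFF : (F * F) ^ (501 / 1000 : ℝ) = F ^ (2 * (501 / 1000) : ℝ) := by
    rw [← pow_two, ← Real.rpow_natCast, ← Real.rpow_mul hF0]
    norm_num
  set P : Finset ℕ := (Icc 1 N).filter Nat.Prime with hP
  have hpt : psum (fun q r => Y ≤ sg σ (cofac q r) ∧ (cofac r q : ℝ) * ψ q ≤ s ∧
        (cofac q r : ℝ) * ψ r ≤ s) N f f ≤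
      ∑ p ∈ P, Y⁻¹ * (p : ℝ) ^ (-σ) * psum (fun q r => p ∣ cofac q r ∧ 1 ∣ cofac r q ∧
        (cofac r q : ℝ) * ψ q ≤ s ∧ (cofac q r : ℝ) * ψ r ≤ s) N f f := by
    unfold psum
    simp only [mul_sum]
    rw [sum_comm (s := P)]
    refine sum_le_sum fun q hq => ?_
    rw [sum_comm (s := P)]
    refine sum_le_sum fun r hr => ?_
    have hff : 0 ≤ f q * f r := mul_nonneg (hf q).1 (hf r).1
    have hw : ∀ p : ℕ, 0 ≤ Y⁻¹ * (p : ℝ) ^ (-σ) := fun p => by positivity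
    by_cases hc : Y ≤ sg σ (cofac q r) ∧ (cofac r q : ℝ) * ψ q ≤ s ∧ (cofac q r : ℝ) * ψ r ≤ s
    · rw [if_pos hc]
      have hsub : (cofac q r).primeFactors ⊆ P := by
        intro p hp
        rw [Nat.mem_primeFactors] at hp
        rw [hP, mem_filter, mem_Icc]
        refine ⟨⟨hp.1.one_lt.le, ?_⟩, hp.1⟩
        calc p ≤ cofac q r := Nat.le_of_dvd (Nat.pos_of_ne_zero hp.2.2) hp.2.1
          _ ≤ q := Nat.div_le_self _ _
          _ ≤ N := (mem_Icc.1 hq).2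
      calc f q * f r = Y⁻¹ * Y * (f q * f r) := by rw [inv_mul_cancel₀ hY.ne', one_mul]
        _ ≤ Y⁻¹ * sg σ (cofac q r) * (f q * f r) := by
            apply mul_le_mul_of_nonneg_right _ hff
            exact mul_le_mul_of_nonneg_left hc.1 (inv_nonneg.2 hY.le)
        _ = ∑ p ∈ (cofac q r).primeFactors, Y⁻¹ * (p : ℝ) ^ (-σ) * (f q * f r) := by
            unfold sg
            rw [mul_sum, sum_mul]
        _ ≤ _ := by
            refine le_trans ?_ (sum_le_sum_of_subset_of_nonneg hsub ?_)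
            · refine sum_le_sum fun p hp => ?_
              rw [if_pos ⟨Nat.dvd_of_mem_primeFactors hp, one_dvd _, hc.2.1, hc.2.2⟩]
            · intro p _ _
              apply mul_nonneg (hw p)
              split_ifs
              · exact hff
              · exact le_rfl
    · rw [if_neg hc]
      apply sum_nonneg
      intro p _
      apply mul_nonneg (hw p)
      split_ifs
      · exact hff
      · exact le_rfl
  refine hpt.trans ?_
  have hX0 : 0 ≤ C * (s * s) ^ (1 - 501 / 1000 : ℝ) * F ^ (2 * (501 / 1000) : ℝ) := by positivity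
  have h1 : ∀ p ∈ P, Y⁻¹ * (p : ℝ) ^ (-σ) * psum (fun q r => p ∣ cofac q r ∧ 1 ∣ cofac r q ∧
        (cofac r q : ℝ) * ψ q ≤ s ∧ (cofac q r : ℝ) * ψ r ≤ s) N f f ≤
      Y⁻¹ * (C * (s * s) ^ (1 - 501 / 1000 : ℝ) * F ^ (2 * (501 / 1000) : ℝ)) *
        (p : ℝ) ^ (-(1249 / 1000) : ℝ) := by
    intro p hp
    rw [hP, mem_filter] at hp
    have hp1 : (1 : ℝ) ≤ p := by exact_mod_cast hp.2.one_lt.le
    have hp0 : (0 : ℝ) < p := by linarith
    have h2 := hT p 1 hp.2.pos one_pos ψ ψ f f s s N hs hs hψ hψ hf hf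
    rw [Nat.cast_one, Real.one_rpow, mul_one, hFF] at h2
    have h3 : (p : ℝ) ^ (-σ) * (p : ℝ) ^ (-(1 - 501 / 1000) : ℝ) ≤
        (p : ℝ) ^ (-(1249 / 1000) : ℝ) := by
      rw [← Real.rpow_add hp0]
      exact Real.rpow_le_rpow_of_exponent_le hp1 (by norm_num; linarith)
    calc Y⁻¹ * (p : ℝ) ^ (-σ) * psum (fun q r => p ∣ cofac q r ∧ 1 ∣ cofac r q ∧
        (cofac r q : ℝ) * ψ q ≤ s ∧ (cofac q r : ℝ) * ψ r ≤ s) N f f
        ≤ Y⁻¹ * (p : ℝ) ^ (-σ) * (C * (s * s) ^ (1 - 501 / 1000 : ℝ) *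
          F ^ (2 * (501 / 1000) : ℝ) * (p : ℝ) ^ (-(1 - 501 / 1000) : ℝ)) :=
          mul_le_mul_of_nonneg_left h2 (by positivity)
      _ = Y⁻¹ * (C * (s * s) ^ (1 - 501 / 1000 : ℝ) * F ^ (2 * (501 / 1000) : ℝ)) *
          ((p : ℝ) ^ (-σ) * (p : ℝ) ^ (-(1 - 501 / 1000) : ℝ)) := by ring
      _ ≤ _ := mul_le_mul_of_nonneg_left h3 (by positivity)
  have h4 : ∑ p ∈ P, (p : ℝ) ^ (-(1249 / 1000) : ℝ) ≤
      1 + ∑' n : ℕ, (n : ℝ) ^ (-(1249 / 1000) : ℝ) := by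
    have := hsm.sum_le_tsum P fun n _ => hnn n
    linarith
  calc _ ≤ ∑ p ∈ P, Y⁻¹ * (C * (s * s) ^ (1 - 501 / 1000 : ℝ) *
          F ^ (2 * (501 / 1000) : ℝ)) * (p : ℝ) ^ (-(1249 / 1000) : ℝ) := sum_le_sum h1
    _ = Y⁻¹ * (C * (s * s) ^ (1 - 501 / 1000 : ℝ) * F ^ (2 * (501 / 1000) : ℝ)) *
        ∑ p ∈ P, (p : ℝ) ^ (-(1249 / 1000) : ℝ) := by rw [mul_sum]
    _ ≤ Y⁻¹ * (C * (s * s) ^ (1 - 501 / 1000 : ℝ) * F ^ (2 * (501 / 1000) : ℝ)) *
        (1 + ∑' n : ℕ, (n : ℝ) ^ (-(1249 / 1000) : ℝ)) :=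
        mul_le_mul_of_nonneg_left h4 (by positivity)
    _ = _ := by
        rw [div_eq_mul_inv]
        ring

end Vale.P028

end

section

/-!
# Numerics and splitting for the combination of the classes (`typeA_R`)
-/

namespace Vale.P028

open Finset

/-- `(1 + 4 y)^(1+δ/2) ≤ y^(1+δ)` for large `y` -/
theorem class_num {δ : ℝ} (hδ : 0 < δ) :
    ∃ y₀ : ℝ, 1 ≤ y₀ ∧ ∀ y : ℝ, y₀ ≤ y → (1 + 4 * y) ^ (1 + δ / 2) ≤ y ^ (1 + δ) := by
  refine ⟨max 1 ((5 ^ (1 + δ / 2)) ^ (2 / δ)), le_max_left _ _, fun y hy => ?_⟩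
  have h1 : 1 ≤ y := (le_max_left _ _).trans hy
  have h2 : ((5 : ℝ) ^ (1 + δ / 2)) ^ (2 / δ) ≤ y := (le_max_right _ _).trans hy
  have h0 : (0 : ℝ) ≤ 5 ^ (1 + δ / 2) := Real.rpow_nonneg (by norm_num) _
  have h3 : (5 : ℝ) ^ (1 + δ / 2) ≤ y ^ (δ / 2) := by
    have h4 := Real.rpow_le_rpow (Real.rpow_nonneg h0 _) h2 (by linarith : 0 ≤ δ / 2)
    rw [← Real.rpow_mul h0, show 2 / δ * (δ / 2) = 1 by field_simp, Real.rpow_one] at h4
    exact h4
  calc (1 + 4 * y) ^ (1 + δ / 2) ≤ (5 * y) ^ (1 + δ / 2) :=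
        Real.rpow_le_rpow (by linarith) (by linarith) (by linarith)
    _ = 5 ^ (1 + δ / 2) * y ^ (1 + δ / 2) := Real.mul_rpow (by norm_num) (by linarith)
    _ ≤ y ^ (δ / 2) * y ^ (1 + δ / 2) :=
        mul_le_mul_of_nonneg_right h3 (Real.rpow_nonneg (by linarith) _)
    _ = y ^ (1 + δ) := by
        rw [← Real.rpow_add (by linarith)]
        congr 1
        ring

/-- `exp (-x/2) ≤ K s^2` for `x = exp (e t)`, `s = exp (-t)` -/
theorem class_num2 {e : ℝ} (he : 0 < e) (t : ℝ) (ht : 0 ≤ t) :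
    2 * Real.exp (-(Real.exp (e * t) / 2)) ≤ 2 * Real.exp (4 / e ^ 2) * Real.exp (-(2 * t)) := by
  rw [mul_assoc, ← Real.exp_add]
  apply mul_le_mul_of_nonneg_left _ (by norm_num)
  apply Real.exp_le_exp.2
  have h1 := Real.quadratic_le_exp_of_nonneg (x := e * t) (by positivity)
  have h2 : 2 * t ≤ e ^ 2 * t ^ 2 / 4 + 4 / e ^ 2 := by
    have h3 : 0 ≤ (e * t / 2 - 2 / e) ^ 2 := sq_nonneg _
    have h4 : (e * t / 2 - 2 / e) ^ 2 = e ^ 2 * t ^ 2 / 4 + 4 / e ^ 2 - 2 * t := by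
      field_simp
      ring
    linarith
  have h5 : 0 ≤ e * t := by positivity
  nlinarith

/-- the scale `k₀`: `2^k₀ ≤ x < 2^(k₀+1)` -/
theorem exists_k0 {x : ℝ} (hx : 1 ≤ x) : ∃ k₀ : ℕ, (2 : ℝ) ^ k₀ ≤ x ∧ x < 2 ^ (k₀ + 1) := by
  refine ⟨Nat.log 2 ⌊x⌋₊, ?_, ?_⟩
  · have h1 : 2 ^ Nat.log 2 ⌊x⌋₊ ≤ ⌊x⌋₊ := Nat.pow_log_le_self 2 (Nat.floor_pos.2 hx).ne'
    calc (2 : ℝ) ^ Nat.log 2 ⌊x⌋₊ = ((2 ^ Nat.log 2 ⌊x⌋₊ : ℕ) : ℝ) := by push_cast; rfl
      _ ≤ (⌊x⌋₊ : ℝ) := by exact_mod_cast h1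
      _ ≤ x := Nat.floor_le (by linarith)
  · have h1 : ⌊x⌋₊ < 2 ^ (Nat.log 2 ⌊x⌋₊ + 1) := Nat.lt_pow_succ_log_self (by norm_num) _
    have h2 : ⌊x⌋₊ + 1 ≤ 2 ^ (Nat.log 2 ⌊x⌋₊ + 1) := h1
    calc x < (⌊x⌋₊ : ℝ) + 1 := Nat.lt_floor_add_one x
      _ ≤ 2 ^ (Nat.log 2 ⌊x⌋₊ + 1) := by exact_mod_cast h2

theorem exists_classR (σ : ℝ) (q : ℕ) : ∃ k : ℕ, sg σ q ≤ Real.exp (2 ^ k) := by
  obtain ⟨k, hk⟩ := pow_unbounded_of_one_lt (sg σ q) (by norm_num : (1 : ℝ) < 2)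
  refine ⟨k, hk.le.trans ?_⟩
  have := Real.add_one_le_exp ((2 : ℝ) ^ k)
  linarith

open Classical in
/-- the class of `q` -/
noncomputable def kq (σ : ℝ) (q : ℕ) : ℕ := Nat.find (exists_classR σ q)

theorem kq_spec (σ : ℝ) (q : ℕ) : sg σ q ≤ Real.exp (2 ^ kq σ q) := by
  classical
  exact Nat.find_spec (exists_classR σ q)

theorem lt_of_lt_kq {σ : ℝ} {q j : ℕ} (h : j < kq σ q) : Real.exp (2 ^ j) < sg σ q := by
  classical
  exact not_le.1 (Nat.find_min (exists_classR σ q) h)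

theorem sg_le_of_kq_le {σ : ℝ} {q k : ℕ} (h : kq σ q ≤ k) : sg σ q ≤ Real.exp (2 ^ k) :=
  (kq_spec σ q).trans (Real.exp_le_exp.2 (pow_le_pow_right₀ (by norm_num) h))

theorem psum_swapR (R : ℕ → ℕ → Prop) (N : ℕ) (f h : ℕ → ℝ) :
    psum R N f h = psum (fun q r => R r q) N h f := by
  classical
  unfold psum
  rw [sum_comm]
  refine sum_congr rfl fun q _ => sum_congr rfl fun r _ => ?_
  simp only [mul_comm]

/-- splitting of a bilinear sum into a low part, classes, and two exceptional relations -/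
theorem psum_split4 (R Rc : ℕ → ℕ → Prop) (N : ℕ) (f fa : ℕ → ℝ) (S : Finset ℕ)
    (fk : ℕ → ℕ → ℝ) (hf : ∀ q, 0 ≤ f q) (hfa : ∀ q, 0 ≤ fa q) (hfk : ∀ k q, 0 ≤ fk k q)
    (H : ∀ q ∈ Icc 1 N, ∀ r ∈ Icc 1 N, R q r → f q * f r ≠ 0 →
      (fa q = f q ∧ fa r = f r) ∨ (∃ k ∈ S, fk k q = f q ∧ fk k r = f r) ∨ Rc q r ∨ Rc r q) :
    psum R N f f ≤ psum R N fa fa + ∑ k ∈ S, psum R N (fk k) (fk k) + psum Rc N f f
      + psum (fun q r => Rc r q) N f f := by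
  classical
  unfold psum
  have e : ∑ k ∈ S, ∑ q ∈ Icc 1 N, ∑ r ∈ Icc 1 N, (if R q r then fk k q * fk k r else 0)
      = ∑ q ∈ Icc 1 N, ∑ r ∈ Icc 1 N, ∑ k ∈ S, (if R q r then fk k q * fk k r else 0) := by
    rw [sum_comm]
    refine sum_congr rfl fun q _ => ?_
    rw [sum_comm]
  rw [e, ← sum_add_distrib, ← sum_add_distrib, ← sum_add_distrib]
  refine sum_le_sum fun q hq => ?_
  rw [← sum_add_distrib, ← sum_add_distrib, ← sum_add_distrib]
  refine sum_le_sum fun r hr => ?_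
  have p0 : 0 ≤ f q * f r := mul_nonneg (hf q) (hf r)
  have p1 : 0 ≤ (if R q r then fa q * fa r else 0) := by
    split_ifs
    · exact mul_nonneg (hfa q) (hfa r)
    · exact le_rfl
  have p2 : 0 ≤ ∑ k ∈ S, (if R q r then fk k q * fk k r else 0) := by
    refine sum_nonneg fun k _ => ?_
    split_ifs
    · exact mul_nonneg (hfk k q) (hfk k r)
    · exact le_rfl
  have p3 : 0 ≤ (if Rc q r then f q * f r else 0) := by
    split_ifs
    · exact p0
    · exact le_rfl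
  have p4 : 0 ≤ (if Rc r q then f q * f r else 0) := by
    split_ifs
    · exact p0
    · exact le_rfl
  change _ ≤ (if R q r then fa q * fa r else 0)
    + (∑ k ∈ S, (if R q r then fk k q * fk k r else 0)) + (if Rc q r then f q * f r else 0)
    + (if Rc r q then f q * f r else 0)
  by_cases hR : R q r
  · by_cases h0 : f q * f r = 0
    · rw [if_pos hR]
      linarith
    · rcases H q hq r hr hR h0 with ⟨h1, h2⟩ | ⟨k, hk, h1, h2⟩ | h1 | h1
      · rw [if_pos hR] at p1 ⊢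
        rw [if_pos hR, h1, h2]
        linarith
      · have p5 : f q * f r ≤ ∑ k ∈ S, (if R q r then fk k q * fk k r else 0) := by
          have := single_le_sum (f := fun k => (if R q r then fk k q * fk k r else 0))
            (fun k _ => by
              show 0 ≤ (if R q r then fk k q * fk k r else 0)
              rw [if_pos hR]
              exact mul_nonneg (hfk k q) (hfk k r)) hk
          simp only [if_pos hR, h1, h2] at this ⊢
          exact this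
        rw [if_pos hR]
        rw [if_pos hR] at p1
        simp only [if_pos hR] at p5 p2 ⊢
        linarith
      · rw [if_pos h1, if_pos hR]
        linarith
      · have p6 : (if Rc r q then f q * f r else 0) = f q * f r := if_pos h1
        rw [p6]
        rw [if_pos hR]
        linarith
  · rw [if_neg hR]
    linarith

end Vale.P028

end

section

/-!
# Combination of the classes

Proof of `typeA_R`. Constants: `C₁, c₁, A, ε₁` of `typeR_good`, `t₀` of `hard_num4`, `C₂, c₂` of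
`typeR_class` with `δ/2`, `C₃` of `anat_sg`. `t = log (1/s)`, `x = exp (ε₁ t / 2)`.
For `t` bounded (`t ≤ t₁`): `psum ≤ F^2 ≤ C s^(1+c) F^2`. Let `t` be large.
`kq σ q` = the least `k` with `sg σ q ≤ exp (2^k)`. Let `k₀` be the largest `k` with `2^k ≤ x`
(`2^k₀ > x/2`). A pair of `TA` (with `f q, f r ≠ 0`), `k = max (kq q) (kq r)`:
(a) `k ≤ k₀`: `typeR_good` with `T = exp (2^k₀)`, `1 + log T ≤ 1 + x`, `hard_num4`;
(b) `k > k₀`, `min ≥ k - 1`: both moduli in the class `{k-1, k}`: `sg ≤ T = exp (2^k)` and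
`ψ q ≤ exp (-(1+log T)^(1+δ/2))`: `typeR_class`; sum over `k`;
(c) `k > k₀`, `min ≤ k - 2`: say `kq r = k`: `sg σ r > exp (2^(k-1))`, `sg σ q ≤ exp (2^(k-2))`,
so `sg σ (cofac r q) ≥ exp (2^(k-1))/2 ≥ exp(x/2)/2`: `anat_sg` with `Y = exp (x/2)/2`.
-/

namespace Vale.P028

open Finset

/-- small arcs: `ψ ≤ exp (-(log (2 + ∑_{p ∣ q} p^(-σ)))^(1+δ))` on the support -/
def PSmall (σ δ : ℝ) (_N : ℕ) (ψ f : ℕ → ℝ) : Prop :=
  ∀ q, f q ≠ 0 → 0 < q ∧ ψ q ≤ Real.exp (-(Real.log (2 + sg σ q)) ^ (1 + δ))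

theorem psum_le_sq (R : ℕ → ℕ → Prop) (N : ℕ) (f : ℕ → ℝ) (hf : ∀ q, 0 ≤ f q) :
    psum R N f f ≤ (∑ q ∈ Icc 1 N, f q) ^ 2 := by
  classical
  unfold psum
  rw [pow_two, sum_mul_sum]
  refine sum_le_sum fun q _ => sum_le_sum fun r _ => ?_
  split_ifs
  · exact le_rfl
  · exact mul_nonneg (hf q) (hf r)

/-- case (c) -/
theorem cross_class {σ : ℝ} {q r k₀ : ℕ} {x : ℝ} (hq : 0 < q) (hr : 0 < r)
    (hx : x < 2 ^ (k₀ + 1)) (hk : k₀ < kq σ r) (hqr : kq σ q + 2 ≤ kq σ r) :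
    Real.exp (x / 2) / 2 ≤ sg σ (cofac r q) := by
  obtain ⟨m, hm⟩ : ∃ m, kq σ r = m + 2 := ⟨kq σ r - 2, by omega⟩
  have h1 : Real.exp (2 ^ (m + 1)) < sg σ r := lt_of_lt_kq (by omega)
  have h2 : sg σ q ≤ Real.exp (2 ^ m) := sg_le_of_kq_le (by omega)
  have h3 := sg_cofac (σ := σ) hq hr
  have h4 : Real.exp (2 ^ (m + 1)) = Real.exp (2 ^ m) ^ 2 := by
    rw [← Real.exp_nat_mul]
    congr 1
    push_cast
    ring
  have h5 : 2 ≤ Real.exp (2 ^ m) := by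
    have h6 : (1 : ℝ) ≤ 2 ^ m := one_le_pow₀ (by norm_num)
    have h7 := Real.add_one_le_exp ((2 : ℝ) ^ m)
    linarith
  have h8 : Real.exp (x / 2) ≤ Real.exp (2 ^ (m + 1)) := by
    apply Real.exp_le_exp.2
    have h9 : (2 : ℝ) ^ k₀ ≤ 2 ^ (m + 1) := pow_le_pow_right₀ (by norm_num) (by omega)
    rw [pow_succ] at hx
    linarith
  rw [h4] at h8 h1
  nlinarith

open Classical in
/-- the part of `f` on the classes `≤ k₀` -/
noncomputable def lowf (σ : ℝ) (k₀ : ℕ) (f : ℕ → ℝ) (q : ℕ) : ℝ := if kq σ q ≤ k₀ then f q else 0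

open Classical in
/-- the part of `f` on the classes `k - 1`, `k` -/
noncomputable def clf (σ : ℝ) (f : ℕ → ℝ) (k q : ℕ) : ℝ :=
  if kq σ q = k ∨ kq σ q + 1 = k then f q else 0

theorem lowf_le {σ : ℝ} {k₀ : ℕ} {f : ℕ → ℝ} (hf : ∀ q, 0 ≤ f q) (q : ℕ) :
    0 ≤ lowf σ k₀ f q ∧ lowf σ k₀ f q ≤ f q := by
  unfold lowf
  split_ifs
  · exact ⟨hf q, le_rfl⟩
  · exact ⟨le_rfl, hf q⟩

theorem clf_le {σ : ℝ} {f : ℕ → ℝ} (hf : ∀ q, 0 ≤ f q) (k q : ℕ) :
    0 ≤ clf σ f k q ∧ clf σ f k q ≤ f q := by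
  unfold clf
  split_ifs
  · exact ⟨hf q, le_rfl⟩
  · exact ⟨le_rfl, hf q⟩

theorem lowf_ne {σ : ℝ} {k₀ : ℕ} {f : ℕ → ℝ} {q : ℕ} (h : lowf σ k₀ f q ≠ 0) :
    f q ≠ 0 ∧ kq σ q ≤ k₀ := by
  unfold lowf at h
  by_cases h1 : kq σ q ≤ k₀
  · rw [if_pos h1] at h
    exact ⟨h, h1⟩
  · rw [if_neg h1] at h
    exact absurd rfl h

theorem clf_ne {σ : ℝ} {f : ℕ → ℝ} {k q : ℕ} (h : clf σ f k q ≠ 0) :
    f q ≠ 0 ∧ (kq σ q = k ∨ kq σ q + 1 = k) := by
  unfold clf at h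
  by_cases h1 : kq σ q = k ∨ kq σ q + 1 = k
  · rw [if_pos h1] at h
    exact ⟨h, h1⟩
  · rw [if_neg h1] at h
    exact absurd rfl h

/-- exceptional pairs -/
def RcY (σ Y s : ℝ) (ψ : ℕ → ℝ) (q r : ℕ) : Prop :=
  Y ≤ sg σ (cofac q r) ∧ (cofac r q : ℝ) * ψ q ≤ s ∧ (cofac q r : ℝ) * ψ r ≤ s

theorem class_split {σ γ s x : ℝ} {ψ f : ℕ → ℝ} {N k₀ : ℕ} (hf0 : ∀ q, 0 ≤ f q)
    (hk2 : x < 2 ^ (k₀ + 1)) :
    psum (TA γ ψ s) N f f ≤ psum (TA γ ψ s) N (lowf σ k₀ f) (lowf σ k₀ f)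
      + ∑ k ∈ Icc (k₀ + 1) ((Icc 1 N).sup (kq σ)), psum (TA γ ψ s) N (clf σ f k) (clf σ f k)
      + psum (RcY σ (Real.exp (x / 2) / 2) s ψ) N f f
      + psum (RcY σ (Real.exp (x / 2) / 2) s ψ) N f f := by
  have h := psum_split4 (TA γ ψ s) (RcY σ (Real.exp (x / 2) / 2) s ψ)
    N f (lowf σ k₀ f) (Icc (k₀ + 1) ((Icc 1 N).sup (kq σ))) (clf σ f) hf0
    (fun q => (lowf_le hf0 q).1) (fun k q => (clf_le hf0 k q).1) (by
      intro q hq r hr hTA _
      have hq0 : 0 < q := (mem_Icc.1 hq).1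
      have hr0 : 0 < r := (mem_Icc.1 hr).1
      have hqK : kq σ q ≤ (Icc 1 N).sup (kq σ) := le_sup hq
      have hrK : kq σ r ≤ (Icc 1 N).sup (kq σ) := le_sup hr
      obtain ⟨⟨-, hsz1, hsz2, -⟩, -, -⟩ := hTA
      by_cases ha : kq σ q ≤ k₀ ∧ kq σ r ≤ k₀
      · left
        exact ⟨if_pos ha.1, if_pos ha.2⟩
      · right
        by_cases hb : kq σ q + 1 < kq σ r
        · right
          right
          exact ⟨cross_class hq0 hr0 hk2 (by omega) (by omega), hsz2, hsz1⟩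
        · by_cases hb' : kq σ r + 1 < kq σ q
          · right
            left
            exact ⟨cross_class hr0 hq0 hk2 (by omega) (by omega), hsz1, hsz2⟩
          · left
            refine ⟨max (kq σ q) (kq σ r), mem_Icc.2 ⟨?_, max_le hqK hrK⟩, ?_, ?_⟩
            · have : k₀ < max (kq σ q) (kq σ r) := by
                rw [lt_max_iff]
                omega
              exact this
            · refine if_pos ?_
              rcases le_total (kq σ q) (kq σ r) with h | h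
              · rw [max_eq_right h]; omega
              · rw [max_eq_left h]; omega
            · refine if_pos ?_
              rcases le_total (kq σ q) (kq σ r) with h | h
              · rw [max_eq_right h]; omega
              · rw [max_eq_left h]; omega)
  have hswap := psum_swapR (RcY σ (Real.exp (x / 2) / 2) s ψ) N f f
  rw [← hswap] at h
  exact h

/-- sum over the classes -/
theorem class_sum {σ γ s : ℝ} {ψ f : ℕ → ℝ} {N : ℕ} (hf0 : ∀ q, 0 ≤ f q) (S : Finset ℕ) {B : ℝ}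
    (hB : 0 ≤ B) (hB1 : ∀ k ∈ S, psum (TA γ ψ s) N (clf σ f k) (clf σ f k) ≤
      B * ((∑ q ∈ Icc 1 N, clf σ f k q) + (∑ q ∈ Icc 1 N, clf σ f k q) ^ 2)) :
    ∑ k ∈ S, psum (TA γ ψ s) N (clf σ f k) (clf σ f k) ≤
      2 * B * ((∑ q ∈ Icc 1 N, f q) + (∑ q ∈ Icc 1 N, f q) ^ 2) := by
  classical
  set F : ℝ := ∑ q ∈ Icc 1 N, f q with hFdef
  have hF0 : 0 ≤ F := sum_nonneg fun q _ => hf0 q
  have hB2 : ∑ k ∈ S, ∑ q ∈ Icc 1 N, clf σ f k q ≤ 2 * F := by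
    rw [sum_comm, hFdef, mul_sum]
    refine sum_le_sum fun q _ => ?_
    have h1 : ∀ k ∈ S, clf σ f k q ≤
        (if kq σ q = k then f q else 0) + (if kq σ q + 1 = k then f q else 0) := by
      intro k _
      unfold clf
      have := hf0 q
      by_cases h2 : kq σ q = k
      · rw [if_pos (Or.inl h2), if_pos h2]
        split_ifs <;> linarith
      · by_cases h3 : kq σ q + 1 = k
        · rw [if_pos (Or.inr h3), if_neg h2, if_pos h3]
          linarith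
        · rw [if_neg (by tauto), if_neg h2, if_neg h3]
          linarith
    refine (sum_le_sum h1).trans ?_
    rw [sum_add_distrib, sum_ite_eq, sum_ite_eq]
    have := hf0 q
    split_ifs <;> linarith
  refine (sum_le_sum hB1).trans ?_
  rw [← mul_sum, sum_add_distrib]
  have h1 : ∑ k ∈ S, (∑ q ∈ Icc 1 N, clf σ f k q) ^ 2 ≤ (2 * F) * F := by
    refine le_trans ?_ (mul_le_mul_of_nonneg_right hB2 hF0)
    rw [sum_mul]
    refine sum_le_sum fun k _ => ?_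
    rw [pow_two]
    exact mul_le_mul_of_nonneg_left (sum_le_sum fun q _ => (clf_le hf0 k q).2)
      (sum_nonneg fun q _ => (clf_le hf0 k q).1)
  calc _ ≤ B * (2 * F + (2 * F) * F) := mul_le_mul_of_nonneg_left (add_le_add hB2 h1) hB
    _ = _ := by ring

/-- the exceptional pairs -/
theorem class_exc {C₃ e t s x c F : ℝ} (hC₃ : 0 < C₃) (he : 0 < e) (ht0 : 0 ≤ t) (hs : 0 < s)
    (hs1 : s ≤ 1) (ht : t = Real.log (1 / s)) (hx : x = Real.exp (e * t)) (hc : c ≤ 1)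
    (hF0 : 0 ≤ F) :
    C₃ / (Real.exp (x / 2) / 2) * (s * s) ^ (1 - 501 / 1000 : ℝ) * F ^ (2 * (501 / 1000) : ℝ) ≤
        C₃ * (2 * Real.exp (4 / e ^ 2)) * s ^ (1 + c) * (F + F ^ 2) := by
  have hFF : 0 ≤ F + F ^ 2 := add_nonneg hF0 (sq_nonneg F)
  have hlogs : Real.log (1 / s) = -Real.log s := by rw [one_div, Real.log_inv]
  have h1 : C₃ / (Real.exp (x / 2) / 2) ≤ C₃ * (2 * Real.exp (4 / e ^ 2)) * s ^ (1 + c) := by
    have h2 := class_num2 he t ht0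
    rw [← hx] at h2
    have h3 : 1 / (Real.exp (x / 2) / 2) = 2 * Real.exp (-(x / 2)) := by
      rw [Real.exp_neg]
      field_simp
    have h4 : Real.exp (-(2 * t)) = s ^ (2 : ℝ) := by
      rw [Real.rpow_def_of_pos hs, ht, hlogs]
      congr 1
      ring
    have h5 : s ^ (2 : ℝ) ≤ s ^ (1 + c) :=
      Real.rpow_le_rpow_of_exponent_ge hs hs1 (by linarith)
    calc C₃ / (Real.exp (x / 2) / 2) = C₃ * (1 / (Real.exp (x / 2) / 2)) := by ring
      _ ≤ C₃ * ((2 * Real.exp (4 / e ^ 2)) * s ^ (1 + c)) := by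
          apply mul_le_mul_of_nonneg_left _ hC₃.le
          rw [h3]
          refine h2.trans ?_
          rw [h4]
          exact mul_le_mul_of_nonneg_left h5 (by positivity)
      _ = _ := by ring
  have h2 : (s * s) ^ (1 - 501 / 1000 : ℝ) ≤ 1 :=
    Real.rpow_le_one (by positivity) (by nlinarith) (by norm_num)
  have h3 : F ^ (2 * (501 / 1000) : ℝ) ≤ F + F ^ 2 :=
    rpow_le_add_sq hF0 (by norm_num) (by norm_num)
  have h5 : 0 ≤ C₃ / (Real.exp (x / 2) / 2) := by positivity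
  calc C₃ / (Real.exp (x / 2) / 2) * (s * s) ^ (1 - 501 / 1000 : ℝ) * F ^ (2 * (501 / 1000) : ℝ)
      ≤ C₃ / (Real.exp (x / 2) / 2) * 1 * (F + F ^ 2) :=
        mul_le_mul (mul_le_mul_of_nonneg_left h2 h5) h3 (Real.rpow_nonneg hF0 _) (by positivity)
    _ = C₃ / (Real.exp (x / 2) / 2) * (F + F ^ 2) := by ring
    _ ≤ _ := mul_le_mul_of_nonneg_right h1 hFF

/-- bounded `t` -/
theorem class_bounded {γ s t₁ c : ℝ} {ψ f : ℕ → ℝ} {N : ℕ} (hf0 : ∀ q, 0 ≤ f q) (hs : 0 < s)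
    (hc : 0 < c) (ht : Real.log (1 / s) ≤ t₁) :
    psum (TA γ ψ s) N f f ≤ Real.exp (t₁ * (1 + c)) * s ^ (1 + c) *
      ((∑ q ∈ Icc 1 N, f q) + (∑ q ∈ Icc 1 N, f q) ^ 2) := by
  have hF0 : 0 ≤ ∑ q ∈ Icc 1 N, f q := sum_nonneg fun q _ => hf0 q
  have hlogs : Real.log (1 / s) = -Real.log s := by rw [one_div, Real.log_inv]
  have h1 := psum_le_sq (TA γ ψ s) N f hf0
  have h2 : Real.exp (-(t₁ * (1 + c))) ≤ s ^ (1 + c) := by
    rw [Real.rpow_def_of_pos hs]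
    apply Real.exp_le_exp.2
    rw [hlogs] at ht
    nlinarith
  have h3 : 1 ≤ Real.exp (t₁ * (1 + c)) * s ^ (1 + c) := by
    calc (1 : ℝ) = Real.exp (t₁ * (1 + c)) * Real.exp (-(t₁ * (1 + c))) := by
          rw [← Real.exp_add, add_neg_cancel, Real.exp_zero]
      _ ≤ _ := mul_le_mul_of_nonneg_left h2 (Real.exp_pos _).le
  calc psum (TA γ ψ s) N f f ≤ (∑ q ∈ Icc 1 N, f q) ^ 2 := h1
    _ ≤ 1 * ((∑ q ∈ Icc 1 N, f q) + (∑ q ∈ Icc 1 N, f q) ^ 2) := by linarith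
    _ ≤ _ := mul_le_mul_of_nonneg_right h3 (add_nonneg hF0 (sq_nonneg _))

theorem typeA_R {σ : ℝ} (hσ : σ < 1) (hσ' : 3 / 4 ≤ σ) {δ : ℝ} (hδ : 0 < δ) :
    TypeAP (PSmall σ δ) := by
  obtain ⟨C₁, c₁, A, ε₁, hC₁, hc₁, hA, hε₁, hG⟩ := typeR_good hσ
  obtain ⟨t₀, ht₀, hN4⟩ := hard_num4 hA hε₁
  obtain ⟨C₂, c₂, hC₂, hc₂, hCl⟩ := typeR_class hσ (half_pos hδ)
  obtain ⟨C₃, hC₃, hAn⟩ := anat_sg hσ'
  obtain ⟨y₀, hy₀, hy⟩ := class_num hδ
  obtain ⟨e, he⟩ : ∃ e : ℝ, e = ε₁ / 2 := ⟨_, rfl⟩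
  have he0 : 0 < e := by rw [he]; linarith
  obtain ⟨t₁, ht₁⟩ : ∃ t₁ : ℝ, t₁ = max t₀ (Real.log (4 * y₀) / e) := ⟨_, rfl⟩
  have ht₁0 : t₀ ≤ t₁ := by rw [ht₁]; exact le_max_left _ _
  have ht₁1 : Real.log (4 * y₀) / e ≤ t₁ := by rw [ht₁]; exact le_max_right _ _
  obtain ⟨c, hc⟩ : ∃ c : ℝ, c = min (min c₁ c₂) 1 := ⟨_, rfl⟩
  have hc0 : 0 < c := by rw [hc]; exact lt_min (lt_min hc₁ hc₂) one_pos
  have hcc1 : c ≤ c₁ := by rw [hc]; exact (min_le_left _ _).trans (min_le_left _ _)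
  have hcc2 : c ≤ c₂ := by rw [hc]; exact (min_le_left _ _).trans (min_le_right _ _)
  have hcc3 : c ≤ 1 := by rw [hc]; exact min_le_right _ _
  obtain ⟨K, hK⟩ : ∃ K : ℝ, K = 2 * Real.exp (4 / e ^ 2) := ⟨_, rfl⟩
  have hK0 : 0 < K := by rw [hK]; positivity
  refine ⟨Real.exp (t₁ * (1 + c)) + C₁ + 2 * C₂ + 2 * (C₃ * K), c, by positivity, hc0, ?_⟩
  intro γ s hs hs3 N ψ f hψ hf hP
  have hf0 : ∀ q, 0 ≤ f q := fun q => (hf q).1
  obtain ⟨G, hGdef⟩ : ∃ G : ℝ, G = (∑ q ∈ Icc 1 N, f q) + (∑ q ∈ Icc 1 N, f q) ^ 2 := ⟨_, rfl⟩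
  have hF0 : 0 ≤ ∑ q ∈ Icc 1 N, f q := sum_nonneg fun q _ => hf0 q
  have hG0 : 0 ≤ G := by rw [hGdef]; positivity
  have hs1 : s ≤ 1 := by linarith only [hs3]
  have hp : 0 < s ^ (1 + c) := Real.rpow_pos_of_pos hs _
  have hexpand : (Real.exp (t₁ * (1 + c)) + C₁ + 2 * C₂ + 2 * (C₃ * K)) * s ^ (1 + c) * G
      = Real.exp (t₁ * (1 + c)) * s ^ (1 + c) * G + (C₁ * s ^ (1 + c) * G
        + 2 * (C₂ * s ^ (1 + c)) * G + C₃ * K * s ^ (1 + c) * G + C₃ * K * s ^ (1 + c) * G) := by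
    ring
  have hE : 0 ≤ Real.exp (t₁ * (1 + c)) * s ^ (1 + c) * G := by positivity
  have hE1 : 0 ≤ C₁ * s ^ (1 + c) * G := by positivity
  have hE2 : 0 ≤ 2 * (C₂ * s ^ (1 + c)) * G := by positivity
  have hE3 : 0 ≤ C₃ * K * s ^ (1 + c) * G := by positivity
  rw [← hGdef, hexpand]
  by_cases ht : Real.log (1 / s) ≤ t₁
  · have h1 := class_bounded (γ := γ) (ψ := ψ) (N := N) hf0 hs hc0 ht
    rw [← hGdef] at h1
    linarith only [h1, hE1, hE2, hE3]
  · rw [not_le] at ht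
    obtain ⟨t, htdef⟩ : ∃ t : ℝ, t = Real.log (1 / s) := ⟨_, rfl⟩
    rw [← htdef] at ht
    have ht0 : 0 < t := by linarith only [ht, ht₁0, ht₀]
    obtain ⟨x, hx⟩ : ∃ x : ℝ, x = Real.exp (e * t) := ⟨_, rfl⟩
    have hx4 : 4 * y₀ ≤ x := by
      rw [hx]
      have h1 : Real.log (4 * y₀) ≤ e * t := by
        rw [div_le_iff₀ he0] at ht₁1
        have h2 : t₁ * e ≤ t * e := mul_le_mul_of_nonneg_right ht.le he0.le
        linarith only [ht₁1, h2]
      calc 4 * y₀ = Real.exp (Real.log (4 * y₀)) := (Real.exp_log (by linarith only [hy₀])).symm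
        _ ≤ _ := Real.exp_le_exp.2 h1
    obtain ⟨k₀, hk1, hk2⟩ := exists_k0 (x := x) (by linarith only [hx4, hy₀])
    have hk₀ : 2 ≤ k₀ := by
      by_contra hcon
      have : k₀ + 1 ≤ 2 := by omega
      have h3 : (2 : ℝ) ^ (k₀ + 1) ≤ 2 ^ 2 := pow_le_pow_right₀ (by norm_num) this
      norm_num at h3
      linarith only [h3, hk2, hx4, hy₀]
    have hsplit := class_split (σ := σ) (γ := γ) (s := s) (ψ := ψ) (N := N) hf0 hk2
    -- (a)
    have hA1 : psum (TA γ ψ s) N (lowf σ k₀ f) (lowf σ k₀ f) ≤ C₁ * s ^ (1 + c) * G := by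
      have h1 := hG γ s (Real.exp (2 ^ k₀)) hs hs3 (Real.one_le_exp (by positivity)) (by
        rw [Real.log_exp, ← htdef]
        refine hN4 (1 + 2 ^ k₀) t (by linarith only [ht, ht₁0]) ?_ ?_
        · have : (0 : ℝ) ≤ 2 ^ k₀ := by positivity
          linarith only [this]
        · rw [← he, ← hx]
          linarith only [hk1]) N ψ (lowf σ k₀ f) hψ
        (fun q => ⟨(lowf_le hf0 q).1, (lowf_le hf0 q).2.trans (hf q).2⟩) (by
        intro q hq
        exact ⟨(hP q (lowf_ne hq).1).1, sg_le_of_kq_le (lowf_ne hq).2⟩)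
      have h2 : s ^ (1 + c₁) ≤ s ^ (1 + c) :=
        Real.rpow_le_rpow_of_exponent_ge hs hs1 (by linarith only [hcc1])
      have h3 : ∑ q ∈ Icc 1 N, lowf σ k₀ f q ≤ ∑ q ∈ Icc 1 N, f q :=
        sum_le_sum fun q _ => (lowf_le hf0 q).2
      have h4 : 0 ≤ ∑ q ∈ Icc 1 N, lowf σ k₀ f q := sum_nonneg fun q _ => (lowf_le hf0 q).1
      refine h1.trans (mul_le_mul (mul_le_mul_of_nonneg_left h2 hC₁.le) ?_ (by positivity)
        (by positivity))
      rw [hGdef]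
      exact add_le_add h3 (pow_le_pow_left₀ h4 h3 2)
    -- (b)
    have hB1 : ∀ k ∈ Icc (k₀ + 1) ((Icc 1 N).sup (kq σ)),
        psum (TA γ ψ s) N (clf σ f k) (clf σ f k) ≤ (C₂ * s ^ (1 + c)) *
          ((∑ q ∈ Icc 1 N, clf σ f k q) + (∑ q ∈ Icc 1 N, clf σ f k q) ^ 2) := by
      intro k hk
      have hk' : k₀ + 1 ≤ k := (mem_Icc.1 hk).1
      obtain ⟨m, hm⟩ : ∃ m, k = m + 2 := ⟨k - 2, by omega⟩
      have h4m : (2 : ℝ) ^ k = 4 * 2 ^ m := by
        rw [hm, pow_add]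
        ring
      have hym : y₀ ≤ 2 ^ m := by
        have h5 : (2 : ℝ) ^ (k₀ + 1) ≤ 2 ^ k := pow_le_pow_right₀ (by norm_num) hk'
        rw [h4m] at h5
        linarith only [h5, hk2, hx4]
      have h1 := hCl γ s (Real.exp (2 ^ k)) hs hs3 (Real.one_le_exp (by positivity)) N ψ
        (clf σ f k) hψ (fun q => ⟨(clf_le hf0 k q).1, (clf_le hf0 k q).2.trans (hf q).2⟩) (by
        intro q hq
        obtain ⟨hq1, hq2⟩ := clf_ne hq
        have h6 := hP q hq1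
        refine ⟨h6.1, sg_le_of_kq_le (by omega), h6.2.trans (Real.exp_le_exp.2 ?_)⟩
        rw [Real.log_exp, neg_le_neg_iff, h4m]
        have h7 : Real.exp (2 ^ m) < sg σ q := lt_of_lt_kq (by omega)
        have h8 : (2 : ℝ) ^ m ≤ Real.log (2 + sg σ q) := by
          rw [Real.le_log_iff_exp_le (by linarith only [Real.exp_pos ((2 : ℝ) ^ m), h7])]
          linarith only [h7]
        exact (hy _ hym).trans (Real.rpow_le_rpow (by positivity) h8 (by linarith only [hδ])))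
      have h2 : s ^ (1 + c₂) ≤ s ^ (1 + c) :=
        Real.rpow_le_rpow_of_exponent_ge hs hs1 (by linarith only [hcc2])
      refine h1.trans (mul_le_mul_of_nonneg_right (mul_le_mul_of_nonneg_left h2 hC₂.le) ?_)
      exact add_nonneg (sum_nonneg fun q _ => (clf_le hf0 k q).1) (sq_nonneg _)
    have hB3 := class_sum hf0 _ (by positivity) hB1
    rw [← hGdef] at hB3
    -- (c)
    have hD0 : psum (RcY σ (Real.exp (x / 2) / 2) s ψ) N f f ≤ _ :=
      hAn (Real.exp (x / 2) / 2) s N ψ f (by positivity) hs hψ hf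
    have hD1 := class_exc hC₃ he0 ht0.le hs hs1 htdef hx hcc3 hF0
    rw [← hK, ← hGdef] at hD1
    have hfin := hD0.trans hD1
    linarith only [hsplit, hA1, hB3, hfin, hE]

end Vale.P028

end

section

/-!
# Theorem R: every real `γ`
-/

namespace Vale.P028

open Finset MeasureTheory Filter

/-- **Theorem S**: loss `(log (2 + 1/ψ))^ε`. -/
theorem theoremS (γ : ℝ) (ψ : ℕ → ℝ) (hψ : ∀ q, 0 ≤ ψ q) {ε : ℝ} (hε : 0 < ε)
    (hdiv : ¬ Summable (fun q : ℕ => ((q.totient : ℝ) / q) * ψ q /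
      (Real.log (2 + 1 / ψ q)) ^ ε)) :
    volume (W γ ψ)ᶜ = 0 := by
  classical
  have hε2 : 0 < ε / 2 := by linarith
  refine full_P (typeA_size hε2) γ ψ hψ ?_
  intro N
  obtain ⟨T, S, hT, hS, hF⟩ := ql_select (g := fun q : ℕ => ((q.totient : ℝ) / q) * ψ q)
    (t := fun q : ℕ => 1 / ψ q)
    (fun q => mul_nonneg (by (clear * -; positivity)) (hψ q))
    (fun q => one_div_nonneg.mpr (hψ q)) hε hdiv (N + 1)
  have hlogT : 0 ≤ Real.log T := Real.log_nonneg hT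
  have hpos : ∀ q ∈ S, 0 < ψ q := by
    intro q hq
    refine lt_of_le_of_ne (hψ q) ?_
    intro h0
    have h1 := (hS q hq).2.1
    simp only [← h0, mul_zero] at h1
    exact h1 rfl
  refine ⟨S, fun q hq => ⟨by have := (hS q hq).1; omega, hpos q hq⟩,
    (Real.one_le_rpow (by linarith) hε2.le).trans hF, Real.log T, hlogT, ?_, ?_⟩
  · intro q hq
    by_cases h : q ∈ S
    · beta_reduce
      rw [if_pos h, Real.exp_neg, Real.exp_log (by linarith)]
      have h1 := (hS q h).2.2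
      rw [inv_le_comm₀ (by linarith) (hpos q h), ← one_div]
      exact h1
    · simp only [if_neg h, ne_eq, not_true_eq_false] at hq
  · refine hF.trans (le_of_eq ?_)
    have hSN : S ⊆ Icc 1 (S.sup id) := by
      intro q hq
      rw [mem_Icc]
      exact ⟨by have := (hS q hq).1; omega, Finset.le_sup (f := id) hq⟩
    rw [← sum_subset hSN]
    · exact sum_congr rfl fun q hq => by rw [if_pos hq]
    · intro q _ hq
      rw [if_neg hq]

/-- no loss for small arcs -/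
theorem theoremR_small (γ : ℝ) (ψ : ℕ → ℝ) (hψ : ∀ q, 0 ≤ ψ q) {σ δ : ℝ} (hσ : σ < 1)
    (hσ' : 3 / 4 ≤ σ) (hδ : 0 < δ) (A : Set ℕ)
    (hA : ∀ q ∈ A, ψ q ≤ Real.exp (-(Real.log (2 + sg σ q)) ^ (1 + δ)))
    (hdiv : ¬ Summable (A.indicator (fun q : ℕ => ((q.totient : ℝ) / q) * ψ q))) :
    volume (W γ ψ)ᶜ = 0 := by
  classical
  refine full_P (typeA_R hσ hσ' hδ) γ ψ hψ ?_
  intro N
  have hg0 : ∀ q : ℕ, 0 ≤ ((q.totient : ℝ) / q) * ψ q := fun q =>
    mul_nonneg (by (clear * -; positivity)) (hψ q)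
  obtain ⟨S, hS, hF1⟩ := exists_finset_sum_ge
    (g := A.indicator (fun q : ℕ => ((q.totient : ℝ) / q) * ψ q))
    (fun q => Set.indicator_nonneg (fun q _ => hg0 q) q) hdiv (N + 1)
  have hSA : ∀ q ∈ S, q ∈ A := fun q hq => Set.mem_of_indicator_ne_zero (hS q hq).2
  have hsum : ∑ q ∈ S, A.indicator (fun q : ℕ => ((q.totient : ℝ) / q) * ψ q) q =
      ∑ q ∈ S, ((q.totient : ℝ) / q) * ψ q :=
    sum_congr rfl fun q hq => Set.indicator_of_mem (hSA q hq) _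
  rw [hsum] at hF1
  have hpos : ∀ q ∈ S, 0 < ψ q := by
    intro q hq
    refine lt_of_le_of_ne (hψ q) ?_
    intro h0
    have h1 := (hS q hq).2
    rw [Set.indicator_of_mem (hSA q hq), ← h0, mul_zero] at h1
    exact h1 rfl
  refine ⟨S, fun q hq => ⟨by have := (hS q hq).1; omega, hpos q hq⟩, hF1, ?_⟩
  intro q hq
  by_cases h : q ∈ S
  · beta_reduce
    rw [if_pos h]
    exact ⟨by have := (hS q h).1; omega, hA q (hSA q h)⟩
  · simp only [if_neg h, ne_eq, not_true_eq_false] at hq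

theorem sg_anti {σ σ' : ℝ} (h : σ ≤ σ') (q : ℕ) : sg σ' q ≤ sg σ q := by
  unfold sg
  refine sum_le_sum fun p hp => ?_
  have h1 : (1 : ℝ) ≤ p := by exact_mod_cast (Nat.prime_of_mem_primeFactors hp).one_lt.le
  exact Real.rpow_le_rpow_of_exponent_le h1 (by linarith)

theorem sg_nn (σ : ℝ) (q : ℕ) : 0 ≤ sg σ q := by
  unfold sg
  exact sum_nonneg fun p _ => Real.rpow_nonneg (Nat.cast_nonneg _) _

open Classical in
/-- **Theorem R.** -/
theorem theoremR (γ : ℝ) (ψ : ℕ → ℝ) (hψ : ∀ q, 0 ≤ ψ q) {σ δ : ℝ} (hσ : σ < 1) (hδ : 0 < δ)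
    (hdiv : ¬ Summable (fun q : ℕ => ((q.totient : ℝ) / q) * ψ q /
      (if ψ q ≤ Real.exp (-(Real.log (2 + ∑ p ∈ q.primeFactors, (p : ℝ) ^ (-σ))) ^ (1 + δ))
        then 1 else (Real.log (2 + 1 / ψ q)) ^ δ))) :
    volume (W γ ψ)ᶜ = 0 := by
  set A : Set ℕ := {q | ψ q ≤ Real.exp
    (-(Real.log (2 + ∑ p ∈ q.primeFactors, (p : ℝ) ^ (-σ))) ^ (1 + δ))} with hAdef
  have hg0 : ∀ q : ℕ, 0 ≤ ((q.totient : ℝ) / q) * ψ q := fun q =>
    mul_nonneg (by (clear * -; positivity)) (hψ q)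
  by_cases h1 : Summable (A.indicator (fun q : ℕ => ((q.totient : ℝ) / q) * ψ q))
  · by_cases h2 : Summable (fun q : ℕ => ((q.totient : ℝ) / q) * ψ q /
      (Real.log (2 + 1 / ψ q)) ^ δ)
    · exfalso
      apply hdiv
      refine Summable.of_nonneg_of_le ?_ ?_ (h1.add h2)
      · intro q
        apply div_nonneg (hg0 q)
        split_ifs
        · exact zero_le_one
        · apply Real.rpow_nonneg
          apply Real.log_nonneg
          have := one_div_nonneg.mpr (hψ q)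
          linarith
      · intro q
        have hl : 0 ≤ (Real.log (2 + 1 / ψ q)) ^ δ := by
          apply Real.rpow_nonneg
          apply Real.log_nonneg
          have := one_div_nonneg.mpr (hψ q)
          linarith
        split_ifs with h
        · rw [div_one, Set.indicator_of_mem (show q ∈ A from h)]
          have := div_nonneg (hg0 q) hl
          linarith
        · rw [Set.indicator_of_notMem (show q ∉ A from h), zero_add]
    · exact theoremS γ ψ hψ hδ h2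
  · refine theoremR_small γ ψ hψ (σ := max σ (3 / 4)) (max_lt hσ (by norm_num))
      (le_max_right _ _) hδ A ?_ h1
    intro q hq
    have hq' : ψ q ≤ Real.exp
      (-(Real.log (2 + ∑ p ∈ q.primeFactors, (p : ℝ) ^ (-σ))) ^ (1 + δ)) := hq
    refine hq'.trans (Real.exp_le_exp.mpr (neg_le_neg ?_))
    have h3 := sg_anti (le_max_left σ (3 / 4)) q
    have h4 := sg_nn (max σ (3 / 4)) q
    apply Real.rpow_le_rpow (Real.log_nonneg (by linarith)) _ (by linarith)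
    apply Real.log_le_log (by linarith)
    unfold sg at h3 ⊢
    linarith

open Classical in
/-- no loss for the moduli with `∑_{p ∣ q} p^(-σ) ≤ C` -/
theorem theoremR_class (γ : ℝ) (ψ : ℕ → ℝ) (hψ : ∀ q, 0 ≤ ψ q) {σ C : ℝ} (hσ : σ < 1)
    (hdiv : ¬ Summable (fun q : ℕ => if ∑ p ∈ q.primeFactors, (p : ℝ) ^ (-σ) ≤ C then
      ((q.totient : ℝ) / q) * ψ q else 0)) :
    volume (W γ ψ)ᶜ = 0 := by
  have hg0 : ∀ q : ℕ, 0 ≤ ((q.totient : ℝ) / q) * ψ q := fun q =>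
    mul_nonneg (by (clear * -; positivity)) (hψ q)
  refine theoremR γ ψ hψ (σ := σ) (δ := 1) hσ one_pos ?_
  intro hs
  apply hdiv
  set B : ℝ := Real.log (2 + Real.exp ((Real.log (2 + max C 0)) ^ (1 + 1 : ℝ))) with hB
  have hB1 : 1 ≤ B + 1 := by
    have : 0 ≤ B := Real.log_nonneg (by
      have := Real.exp_pos ((Real.log (2 + max C 0)) ^ (1 + 1 : ℝ))
      linarith)
    linarith
  refine Summable.of_nonneg_of_le ?_ ?_ (hs.mul_left (B + 1))
  · intro q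
    split_ifs
    · exact hg0 q
    · exact le_rfl
  · intro q
    have hsg := sg_nn σ q
    unfold sg at hsg
    have hl0 : 0 < Real.log (2 + 1 / ψ q) := Real.log_pos (by
      have := one_div_nonneg.mpr (hψ q)
      linarith)
    have hw0 : 0 ≤ ((q.totient : ℝ) / q) * ψ q /
      (if ψ q ≤ Real.exp (-(Real.log (2 + ∑ p ∈ q.primeFactors, (p : ℝ) ^ (-σ))) ^ (1 + 1 : ℝ))
        then 1 else (Real.log (2 + 1 / ψ q)) ^ (1 : ℝ)) := by
      apply div_nonneg (hg0 q)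
      split_ifs
      · exact zero_le_one
      · exact Real.rpow_nonneg hl0.le _
    by_cases hC : ∑ p ∈ q.primeFactors, (p : ℝ) ^ (-σ) ≤ C
    · rw [if_pos hC]
      by_cases hψ' : ψ q ≤ Real.exp
          (-(Real.log (2 + ∑ p ∈ q.primeFactors, (p : ℝ) ^ (-σ))) ^ (1 + 1 : ℝ))
      · rw [if_pos hψ', div_one]
        have := hg0 q
        nlinarith
      · rw [if_neg hψ', Real.rpow_one, ← mul_div_assoc, le_div_iff₀ hl0]
        rw [mul_comm (B + 1)]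
        apply mul_le_mul_of_nonneg_left _ (hg0 q)
        push Not at hψ'
        have h1 : 1 / ψ q ≤ Real.exp ((Real.log (2 + max C 0)) ^ (1 + 1 : ℝ)) := by
          have h2 : Real.exp (-(Real.log (2 + max C 0)) ^ (1 + 1 : ℝ)) ≤ ψ q := by
            refine le_trans (Real.exp_le_exp.mpr (neg_le_neg ?_)) hψ'.le
            apply Real.rpow_le_rpow (Real.log_nonneg (by linarith)) _ (by norm_num)
            apply Real.log_le_log (by linarith)
            have := le_max_left C 0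
            linarith
          rw [one_div]
          rw [Real.exp_neg] at h2
          exact inv_le_of_inv_le₀ (Real.exp_pos _) h2
        have h3 : Real.log (2 + 1 / ψ q) ≤ B := by
          apply Real.log_le_log _ (by linarith)
          have := one_div_nonneg.mpr (hψ q)
          linarith
        linarith
    · rw [if_neg hC]
      exact mul_nonneg (by linarith) hw0

end Vale.P028

end

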