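import Vale.Agent.P028.MathlibUsed
import Vale.Agent.P028.RBd.C3

set_option linter.all false

section

/-!
# Numerics for `coreS` (`t = log (1/s)`, `h = H^(1/A)`, `a = 1/A`)
-/

namespace Vale.P028

/-- Good scales. `A₂ h e^(at) t ≤ A₂ t e^(ε₁t/2 + ε₁t/4) ≤ e^(ε₁ t)` for large `t`. -/
theorem unum_good {A₂ ε₁ : ℝ} (hA : 0 < A₂) (hε₁ : 0 < ε₁) :
    ∃ t₀ : ℝ, 1 ≤ t₀ ∧ ∀ a h t : ℝ, t₀ ≤ t → 0 ≤ h → a ≤ ε₁ / 8 →
      h ≤ Real.exp (ε₁ / 2 * t) →
      A₂ * h * Real.exp (a * t) * t ≤ Real.exp (ε₁ * t) := by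
  obtain ⟨t₀, ht₀, hq⟩ := rnum_sq (K := A₂) (ε := 3 * ε₁ / 8) hA.le (by positivity)
  refine ⟨t₀, ht₀, fun a h t ht hh ha hhe => ?_⟩
  have ht1 : 1 ≤ t := ht₀.trans ht
  have ht0 : 0 < t := by linarith
  have h1 : A₂ * t ≤ Real.exp (3 * ε₁ / 8 * t) := by
    refine le_trans ?_ (hq t ht)
    have : t ≤ t ^ 2 := by nlinarith
    exact mul_le_mul_of_nonneg_left this hA.le
  have h2 : Real.exp (a * t) ≤ Real.exp (ε₁ / 8 * t) :=
    Real.exp_le_exp.2 (mul_le_mul_of_nonneg_right ha ht0.le)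
  calc A₂ * h * Real.exp (a * t) * t ≤
        A₂ * Real.exp (ε₁ / 2 * t) * Real.exp (ε₁ / 8 * t) * t := by gcongr
    _ = (A₂ * t) * (Real.exp (ε₁ / 2 * t) * Real.exp (ε₁ / 8 * t)) := by ring
    _ ≤ Real.exp (3 * ε₁ / 8 * t) * (Real.exp (ε₁ / 2 * t) * Real.exp (ε₁ / 8 * t)) := by
        gcongr
    _ = Real.exp (ε₁ * t) := by
        rw [← Real.exp_add, ← Real.exp_add]
        congr 1
        ring

/-- Bad scales, large classes. From `e^(ε₁ t) < A₂ h e^(at) t` and `a ≤ ε₁ δ / 8`, `δ ≤ 1`,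
`t ≤ C e^(ε₁ t/8)`: `e^(3 ε₁ t/4) < A₂ C h`, so `e^(at) ≤ e^(ε₁ δ t/8) < (A₂ C h)^(δ/6)`,
and `t ≤ C' e^(ε₁ δ t/8)`; `A₂ h C' (A₂ C h)^(δ/3) + ... ≤ h^(1+δ)` for large `h`. -/
theorem unum_bad {A₂ ε₁ δ : ℝ} (hA : 0 < A₂) (hε₁ : 0 < ε₁) (hδ : 0 < δ) (hδ1 : δ ≤ 1) :
    ∃ h₀ : ℝ, 1 ≤ h₀ ∧ ∀ a h t : ℝ, h₀ ≤ h → 1 ≤ t → 0 ≤ a → a ≤ ε₁ * δ / 8 →
      Real.exp (ε₁ * t) < A₂ * h * Real.exp (a * t) * t →
      A₂ * h * Real.exp (a * t) * t + t + 1 ≤ h ^ (1 + δ) := by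
  obtain ⟨C, hC⟩ : ∃ C : ℝ, C = 8 / ε₁ := ⟨_, rfl⟩
  obtain ⟨C', hC'⟩ : ∃ C' : ℝ, C' = 8 / (ε₁ * δ) := ⟨_, rfl⟩
  have hC0 : 0 < C := by rw [hC]; positivity
  have hC'0 : 0 < C' := by rw [hC']; positivity
  obtain ⟨D, hD⟩ : ∃ D : ℝ, D = (A₂ * C) ^ (δ / 6) := ⟨_, rfl⟩
  have hAC : 0 < A₂ * C := mul_pos hA hC0
  have hD0 : 0 < D := by rw [hD]; exact Real.rpow_pos_of_pos hAC _
  obtain ⟨M, hM⟩ : ∃ M : ℝ, M = A₂ * C' * D ^ 2 + C' * D + 1 := ⟨_, rfl⟩
  have hM1 : 1 ≤ M := by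
    rw [hM]
    have h1 : 0 ≤ A₂ * C' * D ^ 2 := by positivity
    have h2 : 0 ≤ C' * D := by positivity
    linarith
  refine ⟨max 1 (M ^ (6 / δ)), le_max_left _ _, fun a h t hh ht ha ha' hlt => ?_⟩
  have hh1 : 1 ≤ h := (le_max_left _ _).trans hh
  have hh0 : 0 < h := by linarith
  have ht0 : 0 < t := by linarith
  obtain ⟨z, hz⟩ : ∃ z : ℝ, z = h ^ (δ / 6) := ⟨_, rfl⟩
  have hz1 : 1 ≤ z := by rw [hz]; exact Real.one_le_rpow hh1 (by positivity)
  have hzM : M ≤ z := by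
    have h1 : M ^ (6 / δ) ≤ h := (le_max_right _ _).trans hh
    have h2 : (M ^ (6 / δ)) ^ (δ / 6) ≤ h ^ (δ / 6) :=
      Real.rpow_le_rpow (by positivity) h1 (by positivity)
    rw [← Real.rpow_mul (by linarith), show 6 / δ * (δ / 6) = 1 by field_simp,
      Real.rpow_one] at h2
    rw [hz]
    exact h2
  have hexp : ∀ c : ℝ, 0 < c → t ≤ 1 / c * Real.exp (c * t) := by
    intro c hc
    have h1 : c * t ≤ Real.exp (c * t) := by
      have := Real.add_one_le_exp (c * t)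
      linarith
    rw [one_div, inv_mul_eq_div, le_div_iff₀ hc]
    linarith
  have ht1 : t ≤ C * Real.exp (ε₁ / 8 * t) := by
    have := hexp (ε₁ / 8) (by positivity)
    rwa [one_div_div, ← hC] at this
  have ht2 : t ≤ C' * Real.exp (ε₁ * δ / 8 * t) := by
    have := hexp (ε₁ * δ / 8) (by positivity)
    rwa [one_div_div, ← hC'] at this
  have ha1 : Real.exp (a * t) ≤ Real.exp (ε₁ * δ / 8 * t) :=
    Real.exp_le_exp.2 (mul_le_mul_of_nonneg_right ha' ht0.le)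
  have ha2 : Real.exp (a * t) ≤ Real.exp (ε₁ / 8 * t) := by
    refine Real.exp_le_exp.2 (mul_le_mul_of_nonneg_right (ha'.trans ?_) ht0.le)
    nlinarith
  -- the size of `exp (3 ε₁ t / 4)`
  have h34 : Real.exp (3 * ε₁ / 4 * t) < A₂ * C * h := by
    have h1 : Real.exp (ε₁ * t) < A₂ * C * h * Real.exp (ε₁ / 4 * t) := by
      refine hlt.trans_le ?_
      calc A₂ * h * Real.exp (a * t) * t ≤
            A₂ * h * Real.exp (ε₁ / 8 * t) * (C * Real.exp (ε₁ / 8 * t)) := by gcongr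
        _ = A₂ * C * h * (Real.exp (ε₁ / 8 * t) * Real.exp (ε₁ / 8 * t)) := by ring
        _ = _ := by
            rw [← Real.exp_add]
            congr 2
            ring
    have h2 : Real.exp (ε₁ * t) = Real.exp (3 * ε₁ / 4 * t) * Real.exp (ε₁ / 4 * t) := by
      rw [← Real.exp_add]
      congr 1
      ring
    rw [h2] at h1
    exact lt_of_mul_lt_mul_right h1 (Real.exp_pos _).le
  have hy : Real.exp (ε₁ * δ / 8 * t) ≤ D * z := by
    have h1 : Real.exp (ε₁ * δ / 8 * t) = (Real.exp (3 * ε₁ / 4 * t)) ^ (δ / 6) := by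
      rw [← Real.exp_mul]
      congr 1
      ring
    rw [h1, hD, hz, ← Real.mul_rpow hAC.le hh0.le]
    exact Real.rpow_le_rpow (Real.exp_pos _).le h34.le (by positivity)
  have hpow : h ^ (1 + δ) = h * z ^ 6 := by
    rw [Real.rpow_add hh0, Real.rpow_one, hz, ← Real.rpow_natCast (h ^ (δ / 6)) 6,
      ← Real.rpow_mul hh0.le]
    congr 2
    push_cast
    ring
  have hz0 : 0 < z := by linarith
  rw [hpow]
  have e1 : A₂ * h * Real.exp (a * t) * t ≤ A₂ * C' * D ^ 2 * (h * z ^ 2) := by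
    calc A₂ * h * Real.exp (a * t) * t ≤
          A₂ * h * (D * z) * (C' * (D * z)) := by
            have e2 : t ≤ C' * (D * z) := ht2.trans (mul_le_mul_of_nonneg_left hy hC'0.le)
            have e3 : Real.exp (a * t) ≤ D * z := ha1.trans hy
            gcongr
      _ = _ := by ring
  have hhz : 1 ≤ h * z := by nlinarith
  have hzz : h * z ≤ h * z ^ 2 := by nlinarith [mul_pos hh0 hz0]
  have hzh : z ≤ h * z ^ 2 := by nlinarith [mul_pos hh0 hz0]
  have e4 : t ≤ C' * D * (h * z ^ 2) := by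
    calc t ≤ C' * (D * z) := ht2.trans (mul_le_mul_of_nonneg_left hy hC'0.le)
      _ = C' * D * z := by ring
      _ ≤ C' * D * (h * z ^ 2) := by gcongr
  have e5 : (1 : ℝ) ≤ h * z ^ 2 := hhz.trans hzz
  have e6 : A₂ * h * Real.exp (a * t) * t + t + 1 ≤ M * (h * z ^ 2) := by
    rw [hM]
    linarith
  refine e6.trans ?_
  have hz4 : M ≤ z ^ 4 := by
    have e7 : z ≤ z ^ 4 := by
      calc z = z ^ 1 := (pow_one z).symm
        _ ≤ z ^ 4 := pow_le_pow_right₀ hz1 (by norm_num)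
    exact hzM.trans e7
  calc M * (h * z ^ 2) ≤ z ^ 4 * (h * z ^ 2) := by gcongr
    _ = h * z ^ 6 := by ring

end Vale.P028

end

section

/-!
# Pairs whose cofactor has a large `∑ (log p)^A / p`
-/

namespace Vale.P028

open Finset

/-- `∑_{p ∣ q} (log p)^A / p ≤ (4 A)^A ∑_{p ∣ q} p^(-3/4)` -/
theorem hg_le_sg {A : ℝ} (hA : 1 ≤ A) (q : ℕ) : hg A q ≤ (4 * A) ^ A * sg (3 / 4) q := by
  unfold hg sg
  rw [mul_sum]
  refine sum_le_sum fun p hp => ?_
  have hp1 : (1 : ℝ) ≤ p := by exact_mod_cast (Nat.prime_of_mem_primeFactors hp).one_lt.le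
  have hp0 : (0 : ℝ) < p := by linarith
  have hA0 : 0 < A := by linarith
  have h1 : Real.log p ≤ 4 * A * (p : ℝ) ^ (1 / (4 * A)) := by
    have h2 := Real.log_le_rpow_div hp0.le (by positivity : 0 < 1 / (4 * A))
    refine h2.trans (le_of_eq ?_)
    field_simp
  have h3 : (Real.log p) ^ A ≤ (4 * A) ^ A * (p : ℝ) ^ (1 / 4 : ℝ) := by
    calc (Real.log p) ^ A ≤ (4 * A * (p : ℝ) ^ (1 / (4 * A))) ^ A :=
          Real.rpow_le_rpow (Real.log_nonneg hp1) h1 hA0.le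
      _ = (4 * A) ^ A * ((p : ℝ) ^ (1 / (4 * A))) ^ A :=
          Real.mul_rpow (by positivity) (by positivity)
      _ = (4 * A) ^ A * (p : ℝ) ^ (1 / 4 : ℝ) := by
          rw [← Real.rpow_mul hp0.le]
          congr 2
          field_simp
  calc (Real.log p) ^ A / p ≤ (4 * A) ^ A * (p : ℝ) ^ (1 / 4 : ℝ) / p :=
        div_le_div_of_nonneg_right h3 hp0.le
    _ = (4 * A) ^ A * (p : ℝ) ^ (-(3 / 4) : ℝ) := by
        rw [mul_div_assoc]
        congr 1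
        rw [div_eq_iff hp0.ne']
        nth_rewrite 3 [← Real.rpow_one (p : ℝ)]
        rw [← Real.rpow_add hp0]
        norm_num

/-- from `anat_sg` with `σ = 3/4`: `(log p)^A / p ≤ C p^(-3/4)`, so `Y ≤ hg A u` implies
`Y / C ≤ sg (3/4) u`. -/
theorem anat_hg {A : ℝ} (hA : 1 ≤ A) :
    ∃ C > 0, ∀ (Y s : ℝ) (N : ℕ) (ψ f : ℕ → ℝ), 0 < Y → 0 < s → (∀ q, 0 ≤ ψ q) →
      (∀ q, 0 ≤ f q ∧ f q ≤ ψ q * (q.totient / q)) →
      psum (fun q r => Y ≤ hg A (cofac q r) ∧ (cofac r q : ℝ) * ψ q ≤ s ∧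
        (cofac q r : ℝ) * ψ r ≤ s) N f f ≤
        C / Y * (s * s) ^ (1 - 501 / 1000 : ℝ) *
          (∑ q ∈ Icc 1 N, f q) ^ (2 * (501 / 1000) : ℝ) := by
  obtain ⟨C, hC, h⟩ := anat_sg (σ := 3 / 4) le_rfl
  have hA0 : 0 < A := by linarith
  have hC0 : 0 < (4 * A) ^ A := by positivity
  refine ⟨C * (4 * A) ^ A, by positivity, ?_⟩
  intro Y s N ψ f hY hs hψ hf
  have hf0 : ∀ q, 0 ≤ f q := fun q => (hf q).1
  have h1 := h (Y / (4 * A) ^ A) s N ψ f (div_pos hY hC0) hs hψ hf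
  refine le_trans ?_ (h1.trans (le_of_eq ?_))
  · apply psum_mono _ _ _ _ _ _ _ hf0 hf0
    rintro q _ r _ ⟨a1, a2, a3⟩ _
    refine ⟨⟨?_, a2, a3⟩, le_rfl⟩
    rw [div_le_iff₀ hC0, mul_comm]
    exact a1.trans (hg_le_sg hA _)
  · rw [div_div_eq_mul_div]

/-- as `sg_cofac` -/
theorem hg_cofac {A : ℝ} {q r : ℕ} (hq : 0 < q) (hr : 0 < r) :
    hg A r ≤ hg A q + hg A (cofac r q) := by
  unfold hg
  have hg0 : 0 < Nat.gcd r q := Nat.gcd_pos_of_pos_left _ hr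
  have hc : cofac r q ≠ 0 := by
    unfold cofac
    exact (Nat.div_pos (Nat.le_of_dvd hr (Nat.gcd_dvd_left r q)) hg0).ne'
  have hsub : r.primeFactors ⊆ q.primeFactors ∪ (cofac r q).primeFactors := by
    intro p hp
    rw [Nat.mem_primeFactors] at hp
    rw [mem_union, Nat.mem_primeFactors, Nat.mem_primeFactors]
    by_cases h : p ∣ q
    · exact Or.inl ⟨hp.1, h, hq.ne'⟩
    · refine Or.inr ⟨hp.1, ?_, hc⟩
      have h1 : p ∣ cofac r q * Nat.gcd r q := by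
        unfold cofac
        rw [Nat.div_mul_cancel (Nat.gcd_dvd_left r q)]
        exact hp.2.1
      rcases hp.1.dvd_mul.1 h1 with h2 | h2
      · exact h2
      · exact absurd (h2.trans (Nat.gcd_dvd_right r q)) h
  have hnn : ∀ p : ℕ, p.Prime → 0 ≤ (Real.log p) ^ A / (p : ℝ) := fun p hp => by
    have h1 : (1 : ℝ) ≤ p := by exact_mod_cast hp.one_lt.le
    exact div_nonneg (Real.rpow_nonneg (Real.log_nonneg h1) _) (by linarith)
  have hpr : ∀ p ∈ q.primeFactors ∪ (cofac r q).primeFactors, p.Prime := by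
    intro p hp
    rcases mem_union.1 hp with h | h
    · exact Nat.prime_of_mem_primeFactors h
    · exact Nat.prime_of_mem_primeFactors h
  calc ∑ p ∈ r.primeFactors, (Real.log p) ^ A / (p : ℝ)
      ≤ ∑ p ∈ q.primeFactors ∪ (cofac r q).primeFactors, (Real.log p) ^ A / (p : ℝ) :=
        sum_le_sum_of_subset_of_nonneg hsub fun p hp _ => hnn p (hpr p hp)
    _ ≤ _ := by
        rw [← sum_union_inter]
        have : 0 ≤ ∑ p ∈ q.primeFactors ∩ (cofac r q).primeFactors,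
            (Real.log p) ^ A / (p : ℝ) :=
          sum_nonneg fun p hp => hnn p (Nat.prime_of_mem_primeFactors (mem_inter.1 hp).1)
        linarith

end Vale.P028

end

section

/-!
# Far pairs with `∑_{p ∣ q} (log p)^A / p ≤ H`: good scales, and one class with small arcs

Copy of `RTypeA.lean` (`rt_common`, `typeR_good`, `typeR_class`) with `coreS` in place of `coreT`,
`V₀ = exp (A₂ (H/s)^(1/A) log (1/s)) = exp (A₂ H^(1/A) e^(t/A) t)`, `t = log (1/s)`,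
`A = 8/(ε₁ δ) + 1`, `unum_good` in place of the hypothesis of `typeR_good`, `unum_bad` in place of
`hard_num2` (`l = H^(1/A)`, `classI_size` with `l`). For `H^(1/A) ≤ h₀` in the bad case: `unum_good`
says that `t < max t₀ ((2/ε₁) log h₀)`, so `s` is bounded below: `psum ≤ F^2`.
-/

namespace Vale.P028

open Finset

/-- near part and core, with a free lower bound `V₀` for the far cofactors -/
theorem uh_common {A C₁ ε₁ : ℝ} (hA : 1 ≤ A) (hC₁ : 0 < C₁)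
    (hnear : ∀ (γ s : ℝ), 0 < s → s ≤ 1 / 1000 →
      ∀ (N : ℕ) (ψ f : ℕ → ℝ), (∀ q, 0 ≤ f q ∧ f q ≤ ψ q) →
        psum (fun q r => Rel γ ψ s q r ∧ Far γ s (cofac q r) (cofac r q) ∧
            cofac q r ≤ ⌊Real.exp (s ^ (-ε₁))⌋₊ ∧ cofac r q ≤ ⌊Real.exp (s ^ (-ε₁))⌋₊) N f f ≤
          C₁ * s ^ (1 + 1 / 64 : ℝ) * ((∑ q ∈ Icc 1 N, f q) + (∑ q ∈ Icc 1 N, f q) ^ 2)) :
    ∃ C c A₂ : ℝ, 0 < C ∧ 0 < c ∧ 0 < A₂ ∧
      ∀ γ s H V₀ : ℝ, 0 < s → s ≤ 1 / 1000 → 1 ≤ H →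
      Real.exp (A₂ * (H / s) ^ (1 / A) * Real.log (1 / s)) ≤ V₀ →
      ∀ (N : ℕ) (ψ f : ℕ → ℝ), (∀ q, 0 ≤ ψ q) →
        (∀ q, 0 ≤ f q ∧ f q ≤ ψ q * (q.totient / q)) →
        (∀ q, f q ≠ 0 → 0 < q ∧ hg A q ≤ H) →
        (∀ q r : ℕ, f q ≠ 0 → f r ≠ 0 → TA γ ψ s q r →
          Real.exp (s ^ (-ε₁)) ≤ max (cofac q r : ℝ) (cofac r q : ℝ) →
          V₀ ≤ max (cofac q r : ℝ) (cofac r q : ℝ)) →
        psum (TA γ ψ s) N f f ≤
          C * s ^ (1 + c) * ((∑ q ∈ Icc 1 N, f q) + (∑ q ∈ Icc 1 N, f q) ^ 2) := by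
  classical
  obtain ⟨θ, c₂, A₂, C₂, hθ, hθ1, hc₂, hA₂, hC₂, hB⟩ := coreS hA
  refine ⟨C₁ + C₂, min (1 / 64) c₂, A₂, by positivity, lt_min (by norm_num) hc₂, hA₂, ?_⟩
  intro γ s H V₀ hs hs3 hH hV₀ N ψ f hψ hf hsupp hcof
  set F : ℝ := ∑ q ∈ Icc 1 N, f q with hFdef
  have hf0 : ∀ q, 0 ≤ f q := fun q => (hf q).1
  have hF0 : 0 ≤ F := sum_nonneg fun q _ => hf0 q
  have hFF : 0 ≤ F + F ^ 2 := by (clear * - hF0; positivity)
  have hfψ : ∀ q, f q ≤ ψ q := by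
    intro q
    refine (hf q).2.trans ?_
    calc ψ q * (q.totient / q) ≤ ψ q * 1 := mul_le_mul_of_nonneg_left (tot_le_one q) (hψ q)
      _ = ψ q := mul_one _
  have hs1 : s ≤ 1 := by linarith only [hs3]
  obtain ⟨c, hc⟩ : ∃ c, c = min (1 / 64) c₂ := ⟨_, rfl⟩
  rw [← hc]
  have hcc1 : c ≤ 1 / 64 := by rw [hc]; exact min_le_left _ _
  have hcc2 : c ≤ c₂ := by rw [hc]; exact min_le_right _ _
  have hp0 : 0 ≤ s ^ (1 + c) := (Real.rpow_pos_of_pos hs _).le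
  have hp1 : s ^ (1 + 1 / 64 : ℝ) ≤ s ^ (1 + c) :=
    Real.rpow_le_rpow_of_exponent_ge hs hs1 (by linarith only [hcc1])
  have hp2 : s ^ (1 + c₂) ≤ s ^ (1 + c) :=
    Real.rpow_le_rpow_of_exponent_ge hs hs1 (by linarith only [hcc2])
  obtain ⟨V, hV⟩ : ∃ V : ℕ, V = ⌊Real.exp (s ^ (-ε₁))⌋₊ := ⟨_, rfl⟩
  have hVlt : ∀ n : ℕ, ¬ n ≤ V → Real.exp (s ^ (-ε₁)) ≤ n := by
    intro n hn
    rw [not_le, hV] at hn
    exact (Nat.lt_of_floor_lt hn).le
  have hnearpart : psum (fun q r => Rel γ ψ s q r ∧ Far γ s (cofac q r) (cofac r q) ∧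
          cofac q r ≤ V ∧ cofac r q ≤ V) N f f ≤ C₁ * s ^ (1 + c) * (F + F ^ 2) := by
    rw [hV]
    refine (hnear γ s hs hs3 N ψ f (fun q => ⟨hf0 q, hfψ q⟩)).trans ?_
    exact mul_le_mul_of_nonneg_right (mul_le_mul_of_nonneg_left hp1 hC₁.le) hFF
  have hcore : psum (fun q r => Rel γ ψ s q r ∧ Far γ s (cofac q r) (cofac r q) ∧
          V₀ ≤ max (cofac q r : ℝ) (cofac r q : ℝ)) N f f ≤ C₂ * s ^ (1 + c) * (F + F ^ 2) := by
    have h4 : F ^ (2 * θ) ≤ F + F ^ 2 :=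
      rpow_le_add_sq hF0 (by linarith only [hθ]) (by linarith only [hθ1])
    have h5 : 0 ≤ F ^ (2 * θ) := Real.rpow_nonneg hF0 _
    refine (hB γ H s V₀ hH hs hs3 hV₀ N ψ f hψ hf hsupp).trans ?_
    exact mul_le_mul (mul_le_mul_of_nonneg_left hp2 hC₂.le) h4 h5 (mul_nonneg hC₂.le hp0)
  have hsplit : psum (TA γ ψ s) N f f ≤
      psum (fun q r => Rel γ ψ s q r ∧ Far γ s (cofac q r) (cofac r q) ∧
          cofac q r ≤ V ∧ cofac r q ≤ V) N f f +
      psum (fun q r => Rel γ ψ s q r ∧ Far γ s (cofac q r) (cofac r q) ∧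
          V₀ ≤ max (cofac q r : ℝ) (cofac r q : ℝ)) N f f := by
    have h1 : psum (TA γ ψ s) N f f ≤ psum (fun q r => TA γ ψ s q r ∧ f q ≠ 0 ∧ f r ≠ 0) N f f := by
      apply psum_mono _ _ _ _ _ _ _ hf0 hf0
      rintro q _ r _ hR hne
      exact ⟨⟨hR, left_ne_zero_of_mul hne, right_ne_zero_of_mul hne⟩, le_rfl⟩
    refine h1.trans ?_
    apply psum_or_le _ _ _ _ _ _ hf0 hf0
    rintro q r ⟨hR, hq, hr⟩
    by_cases h : cofac q r ≤ V ∧ cofac r q ≤ V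
    · exact Or.inl ⟨hR.1, hR.2.1, h⟩
    · refine Or.inr ⟨hR.1, hR.2.1, hcof q r hq hr hR ?_⟩
      rw [not_and_or] at h
      rcases h with h' | h'
      · exact (hVlt _ h').trans (le_max_left _ _)
      · exact (hVlt _ h').trans (le_max_right _ _)
  calc psum (TA γ ψ s) N f f
      ≤ C₁ * s ^ (1 + c) * (F + F ^ 2) + C₂ * s ^ (1 + c) * (F + F ^ 2) :=
        hsplit.trans (add_le_add hnearpart hcore)
    _ = (C₁ + C₂) * s ^ (1 + c) * (F + F ^ 2) := by ring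

/-- `(H/s)^(1/A) = H^(1/A) e^(t/A)` -/
theorem uh_pow {s H A : ℝ} (hs : 0 < s) (hH : 1 ≤ H) :
    (H / s) ^ (1 / A) = H ^ (1 / A) * Real.exp (1 / A * Real.log (1 / s)) := by
  rw [Real.div_rpow (by linarith) hs.le, div_eq_mul_inv, ← Real.rpow_neg hs.le,
    rpow_neg_eq_exp hs]

theorem typeUH {δ : ℝ} (hδ : 0 < δ) (hδ1 : δ ≤ 1) :
    ∃ A C c ε₁ t₀ : ℝ, 1 ≤ A ∧ 0 < C ∧ 0 < c ∧ 0 < ε₁ ∧ 1 ≤ t₀ ∧ 8 ≤ ε₁ * A ∧
      (∀ γ s H : ℝ, 0 < s → s ≤ 1 / 1000 → 1 ≤ H → t₀ ≤ Real.log (1 / s) →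
        H ^ (1 / A) ≤ Real.exp (ε₁ / 2 * Real.log (1 / s)) →
        ∀ (N : ℕ) (ψ f : ℕ → ℝ), (∀ q, 0 ≤ ψ q) →
          (∀ q, 0 ≤ f q ∧ f q ≤ ψ q * (q.totient / q)) →
          (∀ q, f q ≠ 0 → 0 < q ∧ hg A q ≤ H) →
          psum (TA γ ψ s) N f f ≤
            C * s ^ (1 + c) * ((∑ q ∈ Icc 1 N, f q) + (∑ q ∈ Icc 1 N, f q) ^ 2)) ∧
      (∀ γ s H : ℝ, 0 < s → s ≤ 1 / 1000 → 1 ≤ H →
        ∀ (N : ℕ) (ψ f : ℕ → ℝ), (∀ q, 0 ≤ ψ q) →
          (∀ q, 0 ≤ f q ∧ f q ≤ ψ q * (q.totient / q)) →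
          (∀ q, f q ≠ 0 → 0 < q ∧ hg A q ≤ H ∧ ψ q ≤ Real.exp (-(H ^ (1 / A)) ^ (1 + δ))) →
          psum (TA γ ψ s) N f f ≤
            C * s ^ (1 + c) * ((∑ q ∈ Icc 1 N, f q) + (∑ q ∈ Icc 1 N, f q) ^ 2)) := by
  obtain ⟨C₁, ε₁, hC₁, hε₁, hnear⟩ := near_part
  obtain ⟨A, hAdef⟩ : ∃ A : ℝ, A = 8 / (ε₁ * δ) + 1 := ⟨_, rfl⟩
  have hεδ : 0 < ε₁ * δ := mul_pos hε₁ hδ
  have hA8 : 0 < 8 / (ε₁ * δ) := by positivity
  have hA1 : 1 ≤ A := by linarith only [hAdef, hA8]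
  have hA0 : 0 < A := by linarith only [hA1]
  have hAe : 8 ≤ ε₁ * A := by
    have h1 : ε₁ * (8 / (ε₁ * δ)) = 8 / δ := by field_simp
    have h2 : 8 ≤ 8 / δ := by rw [le_div_iff₀ hδ]; linarith only [hδ1]
    rw [hAdef, mul_add, h1]
    linarith only [h2, hε₁]
  have ha0 : 0 ≤ 1 / A := by positivity
  have ha1 : 1 / A ≤ ε₁ * δ / 8 := by
    have h1 : 8 / (ε₁ * δ) ≤ A := by linarith only [hAdef]
    rw [div_le_iff₀ hεδ] at h1
    rw [div_le_iff₀ hA0]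
    linarith only [h1]
  have ha2 : 1 / A ≤ ε₁ / 8 := by
    have h1 : ε₁ * δ ≤ ε₁ * 1 := mul_le_mul_of_nonneg_left hδ1 hε₁.le
    linarith only [h1, ha1]
  obtain ⟨C, c, A₂, hC, hc, hA₂, h⟩ := uh_common (ε₁ := ε₁) hA1 hC₁ hnear
  obtain ⟨t₀, ht₀1, ht₀⟩ := unum_good hA₂ hε₁
  obtain ⟨h₀, hh₀1, hh₀⟩ := unum_bad hA₂ hε₁ hδ hδ1
  obtain ⟨t₂, ht₂⟩ : ∃ t₂ : ℝ, t₂ = max t₀ (2 / ε₁ * Real.log h₀) := ⟨_, rfl⟩
  have hE0 : 0 < Real.exp (t₂ * (1 + c)) := Real.exp_pos _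
  refine ⟨A, C + Real.exp (t₂ * (1 + c)), c, ε₁, t₀, hA1, by positivity, hc, hε₁, ht₀1, hAe,
    ?_, ?_⟩
  · intro γ s H hs hs3 hH ht hHt N ψ f hψ hf hsupp
    have hf0 : ∀ q, 0 ≤ f q := fun q => (hf q).1
    have hF0 : 0 ≤ ∑ q ∈ Icc 1 N, f q := sum_nonneg fun q _ => hf0 q
    have hp0 : 0 ≤ s ^ (1 + c) := (Real.rpow_pos_of_pos hs _).le
    have h1 := ht₀ (1 / A) (H ^ (1 / A)) (Real.log (1 / s)) ht
      (Real.rpow_nonneg (by linarith only [hH]) _) ha2 hHt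
    refine (h γ s H (Real.exp (s ^ (-ε₁))) hs hs3 hH ?_ N ψ f hψ hf hsupp
      (fun q r _ _ _ h => h)).trans ?_
    · rw [rpow_neg_eq_exp hs, uh_pow hs hH]
      apply Real.exp_le_exp.2
      rw [← mul_assoc]
      exact h1
    · apply mul_le_mul_of_nonneg_right _ (by positivity)
      apply mul_le_mul_of_nonneg_right _ hp0
      linarith only [hE0]
  · intro γ s H hs hs3 hH N ψ f hψ hf hsupp
    have hsupp' : ∀ q, f q ≠ 0 → 0 < q ∧ hg A q ≤ H := fun q hq =>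
      ⟨(hsupp q hq).1, (hsupp q hq).2.1⟩
    have hf0 : ∀ q, 0 ≤ f q := fun q => (hf q).1
    set F : ℝ := ∑ q ∈ Icc 1 N, f q with hFdef
    have hF0 : 0 ≤ F := sum_nonneg fun q _ => hf0 q
    have hp0 : 0 ≤ s ^ (1 + c) := (Real.rpow_pos_of_pos hs _).le
    have hFF : 0 ≤ F + F ^ 2 := by (clear * - hF0; positivity)
    have hup : C * s ^ (1 + c) * (F + F ^ 2) ≤
        (C + Real.exp (t₂ * (1 + c))) * s ^ (1 + c) * (F + F ^ 2) := by
      apply mul_le_mul_of_nonneg_right _ hFF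
      apply mul_le_mul_of_nonneg_right _ hp0
      linarith only [hE0]
    have hs4 : s ≤ 1 / 4 := by linarith only [hs3]
    have ht1 := log_inv_ge_one hs hs4
    have hls : Real.log s = -Real.log (1 / s) := by rw [one_div, Real.log_inv, neg_neg]
    have hh1 : 1 ≤ H ^ (1 / A) := Real.one_le_rpow hH ha0
    rcases le_or_gt (A₂ * H ^ (1 / A) * Real.exp (1 / A * Real.log (1 / s)) * Real.log (1 / s))
        (Real.exp (ε₁ * Real.log (1 / s))) with hcase | hcase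
    · refine le_trans (h γ s H (Real.exp (s ^ (-ε₁))) hs hs3 hH ?_ N ψ f hψ hf hsupp'
        (fun q r _ _ _ h => h)) hup
      rw [rpow_neg_eq_exp hs, uh_pow hs hH]
      apply Real.exp_le_exp.2
      rw [← mul_assoc]
      exact hcase
    · rcases le_or_gt h₀ (H ^ (1 / A)) with hl | hl
      · -- the hard range
        have hmain := hh₀ _ _ _ hl ht1 ha0 ha1 hcase
        have hV0 : Real.exp (A₂ * (H / s) ^ (1 / A) * Real.log (1 / s)) ≤
            s / 2 * Real.exp ((H ^ (1 / A)) ^ (1 + δ)) := by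
          have h4 : s / 2 * Real.exp ((H ^ (1 / A)) ^ (1 + δ)) =
              Real.exp (Real.log s - Real.log 2 + (H ^ (1 / A)) ^ (1 + δ)) := by
            rw [Real.exp_add, Real.exp_sub, Real.exp_log hs, Real.exp_log (by norm_num)]
          rw [h4]
          apply Real.exp_le_exp.2
          have hlog2 : Real.log 2 ≤ 1 := by
            have := Real.log_two_lt_d9
            linarith only [this]
          rw [uh_pow hs hH, ← mul_assoc]
          linarith only [hmain, hls, hlog2]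
        refine le_trans (h γ s H _ hs hs3 hH hV0 N ψ f hψ hf hsupp' ?_) hup
        intro q r hq hr hTA _
        exact classI_size hψ (hsupp q hq).2.2 (hsupp r hr).2.2 hTA.2.2
      · -- the level is bounded below
        have htt : Real.log (1 / s) ≤ t₂ := by
          by_contra hcon
          rw [not_le, ht₂, max_lt_iff] at hcon
          have h5 : H ^ (1 / A) ≤ Real.exp (ε₁ / 2 * Real.log (1 / s)) := by
            have h6 : Real.log h₀ ≤ ε₁ / 2 * Real.log (1 / s) := by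
              have h7 := hcon.2.le
              have h8 : ε₁ / 2 * (2 / ε₁ * Real.log h₀) = Real.log h₀ := by field_simp
              rw [← h8]
              exact mul_le_mul_of_nonneg_left h7 (by positivity)
            rw [Real.log_le_iff_le_exp (by linarith only [hh₀1])] at h6
            linarith only [h6, hl]
          have := ht₀ (1 / A) (H ^ (1 / A)) (Real.log (1 / s)) hcon.1.le
            (by linarith only [hh1]) ha2 h5
          linarith only [this, hcase]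
        have h1 : 1 ≤ Real.exp (t₂ * (1 + c)) * s ^ (1 + c) := by
          rw [Real.rpow_def_of_pos hs, ← Real.exp_add]
          apply Real.one_le_exp
          have h6 : 0 ≤ (t₂ - Real.log (1 / s)) * (1 + c) :=
            mul_nonneg (by linarith only [htt]) (by linarith only [hc])
          rw [hls]
          linarith only [h6]
        calc psum (TA γ ψ s) N f f ≤ F ^ 2 := rt_psum_le_sq _ N f hf0
          _ ≤ 1 * (F + F ^ 2) := by linarith only [hF0]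
          _ ≤ (Real.exp (t₂ * (1 + c)) * s ^ (1 + c)) * (F + F ^ 2) :=
              mul_le_mul_of_nonneg_right h1 hFF
          _ ≤ (C + Real.exp (t₂ * (1 + c))) * s ^ (1 + c) * (F + F ^ 2) := by
              apply mul_le_mul_of_nonneg_right _ hFF
              apply mul_le_mul_of_nonneg_right _ hp0
              linarith only [hC]

end Vale.P028

end

section

/-!
# Combination of the classes, `∑_{p ∣ q} (log p)^A / p` version

Copy of `RClass.lean`. `δ' = δ/2`, `A, C, c₁, ε₁, t₀` of `typeUH` (with δ'), `C₃` of `anat_hg`,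
`t = log (1/s)`, `x = exp (ε₁ A / 2 * t) ≥ exp (4 t)`, `2^k₀ ≤ x < 2^(k₀+1)`,
`kh A q` = the least `k` with `hg A q ≤ 2^k`. `t` bounded: `class_bounded`. For large `t`, pairs with
(a) both classes `≤ k₀`: the good part of `typeUH` with `H = 2^k₀`, `H^(1/A) ≤ exp (ε₁/2 t)`;
(b) `k = max > k₀`, `min ≥ k - 1`: class part of `typeUH` with `H = 2^k`:
`hg A q > 2^(k-2) = H/4`, `ψ q ≤ exp (-(1 + hg A q)^((1+δ)/A))` and
`(H/4)^((1+δ)/A) ≥ (H^(1/A))^(1+δ')` for `H ≥ 4^(2 (1+δ)/δ)`; sum over `k`;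
(c) `k = kh r > k₀`, `kh q ≤ k - 2`: `hg A (cofac r q) ≥ 2^(k-1) - 2^(k-2) ≥ 2^(k₀-1) ≥ x/4`:
`anat_hg` with `Y = x/4`, `C₃/Y ≤ 4 C₃ s^4`.
-/

namespace Vale.P028

open Finset

/-- small arcs: `ψ ≤ exp (-(1 + ∑_{p ∣ q} (log p)^A / p)^((1+δ)/A))` on the support -/
def PSmallU (A δ : ℝ) (_N : ℕ) (ψ f : ℕ → ℝ) : Prop :=
  ∀ q, f q ≠ 0 → 0 < q ∧ ψ q ≤ Real.exp (-(1 + hg A q) ^ ((1 + δ) / A))

theorem exists_classU (A : ℝ) (q : ℕ) : ∃ k : ℕ, hg A q ≤ 2 ^ k := by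
  obtain ⟨k, hk⟩ := pow_unbounded_of_one_lt (hg A q) (by norm_num : (1 : ℝ) < 2)
  exact ⟨k, hk.le⟩

open Classical in
/-- the class of `q` -/
noncomputable def kh (A : ℝ) (q : ℕ) : ℕ := Nat.find (exists_classU A q)

theorem kh_spec (A : ℝ) (q : ℕ) : hg A q ≤ 2 ^ kh A q := by
  classical
  exact Nat.find_spec (exists_classU A q)

theorem lt_of_lt_kh {A : ℝ} {q j : ℕ} (h : j < kh A q) : (2 : ℝ) ^ j < hg A q := by
  classical
  exact not_le.1 (Nat.find_min (exists_classU A q) h)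

theorem hg_le_of_kh_le {A : ℝ} {q k : ℕ} (h : kh A q ≤ k) : hg A q ≤ 2 ^ k :=
  (kh_spec A q).trans (pow_le_pow_right₀ (by norm_num) h)

/-- case (c) -/
theorem cross_classU {A : ℝ} {q r k₀ : ℕ} {x : ℝ} (hq : 0 < q) (hr : 0 < r)
    (hx : x < 2 ^ (k₀ + 1)) (hk : k₀ < kh A r) (hqr : kh A q + 2 ≤ kh A r) :
    x / 4 ≤ hg A (cofac r q) := by
  obtain ⟨m, hm⟩ : ∃ m, kh A r = m + 2 := ⟨kh A r - 2, by omega⟩
  have h1 : (2 : ℝ) ^ (m + 1) < hg A r := lt_of_lt_kh (by omega)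
  have h2 : hg A q ≤ 2 ^ m := hg_le_of_kh_le (by omega)
  have h3 := hg_cofac (A := A) hq hr
  have h9 : (2 : ℝ) ^ k₀ ≤ 2 ^ (m + 1) := pow_le_pow_right₀ (by norm_num) (by omega)
  rw [pow_succ] at hx h1 h9
  linarith

open Classical in
/-- the part of `f` on the classes `≤ k₀` -/
noncomputable def lowU (κ : ℕ → ℕ) (k₀ : ℕ) (f : ℕ → ℝ) (q : ℕ) : ℝ := if κ q ≤ k₀ then f q else 0

open Classical in
/-- the part of `f` on the classes `k - 1`, `k` -/
noncomputable def clU (κ : ℕ → ℕ) (f : ℕ → ℝ) (k q : ℕ) : ℝ :=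
  if κ q = k ∨ κ q + 1 = k then f q else 0

theorem lowU_le {κ : ℕ → ℕ} {k₀ : ℕ} {f : ℕ → ℝ} (hf : ∀ q, 0 ≤ f q) (q : ℕ) :
    0 ≤ lowU κ k₀ f q ∧ lowU κ k₀ f q ≤ f q := by
  unfold lowU
  split_ifs
  · exact ⟨hf q, le_rfl⟩
  · exact ⟨le_rfl, hf q⟩

theorem clU_le {κ : ℕ → ℕ} {f : ℕ → ℝ} (hf : ∀ q, 0 ≤ f q) (k q : ℕ) :
    0 ≤ clU κ f k q ∧ clU κ f k q ≤ f q := by
  unfold clU
  split_ifs
  · exact ⟨hf q, le_rfl⟩
  · exact ⟨le_rfl, hf q⟩

theorem lowU_ne {κ : ℕ → ℕ} {k₀ : ℕ} {f : ℕ → ℝ} {q : ℕ} (h : lowU κ k₀ f q ≠ 0) :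
    f q ≠ 0 ∧ κ q ≤ k₀ := by
  unfold lowU at h
  by_cases h1 : κ q ≤ k₀
  · rw [if_pos h1] at h
    exact ⟨h, h1⟩
  · rw [if_neg h1] at h
    exact absurd rfl h

theorem clU_ne {κ : ℕ → ℕ} {f : ℕ → ℝ} {k q : ℕ} (h : clU κ f k q ≠ 0) :
    f q ≠ 0 ∧ (κ q = k ∨ κ q + 1 = k) := by
  unfold clU at h
  by_cases h1 : κ q = k ∨ κ q + 1 = k
  · rw [if_pos h1] at h
    exact ⟨h, h1⟩
  · rw [if_neg h1] at h
    exact absurd rfl h

/-- exceptional pairs -/
def RcU (A Y s : ℝ) (ψ : ℕ → ℝ) (q r : ℕ) : Prop :=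
  Y ≤ hg A (cofac q r) ∧ (cofac r q : ℝ) * ψ q ≤ s ∧ (cofac q r : ℝ) * ψ r ≤ s

theorem class_splitU {A γ s x : ℝ} {ψ f : ℕ → ℝ} {N k₀ : ℕ} (hf0 : ∀ q, 0 ≤ f q)
    (hk2 : x < 2 ^ (k₀ + 1)) :
    psum (TA γ ψ s) N f f ≤ psum (TA γ ψ s) N (lowU (kh A) k₀ f) (lowU (kh A) k₀ f)
      + ∑ k ∈ Icc (k₀ + 1) ((Icc 1 N).sup (kh A)), psum (TA γ ψ s) N (clU (kh A) f k)
        (clU (kh A) f k)
      + psum (RcU A (x / 4) s ψ) N f f
      + psum (RcU A (x / 4) s ψ) N f f := by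
  have h := psum_split4 (TA γ ψ s) (RcU A (x / 4) s ψ)
    N f (lowU (kh A) k₀ f) (Icc (k₀ + 1) ((Icc 1 N).sup (kh A))) (clU (kh A) f) hf0
    (fun q => (lowU_le hf0 q).1) (fun k q => (clU_le hf0 k q).1) (by
      intro q hq r hr hTA _
      have hq0 : 0 < q := (mem_Icc.1 hq).1
      have hr0 : 0 < r := (mem_Icc.1 hr).1
      have hqK : kh A q ≤ (Icc 1 N).sup (kh A) := le_sup hq
      have hrK : kh A r ≤ (Icc 1 N).sup (kh A) := le_sup hr
      obtain ⟨⟨-, hsz1, hsz2, -⟩, -, -⟩ := hTA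
      by_cases ha : kh A q ≤ k₀ ∧ kh A r ≤ k₀
      · left
        exact ⟨if_pos ha.1, if_pos ha.2⟩
      · right
        by_cases hb : kh A q + 1 < kh A r
        · right
          right
          exact ⟨cross_classU hq0 hr0 hk2 (by omega) (by omega), hsz2, hsz1⟩
        · by_cases hb' : kh A r + 1 < kh A q
          · right
            left
            exact ⟨cross_classU hr0 hq0 hk2 (by omega) (by omega), hsz1, hsz2⟩
          · left
            refine ⟨max (kh A q) (kh A r), mem_Icc.2 ⟨?_, max_le hqK hrK⟩, ?_, ?_⟩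
            · have : k₀ < max (kh A q) (kh A r) := by
                rw [lt_max_iff]
                omega
              exact this
            · refine if_pos ?_
              rcases le_total (kh A q) (kh A r) with h | h
              · rw [max_eq_right h]; omega
              · rw [max_eq_left h]; omega
            · refine if_pos ?_
              rcases le_total (kh A q) (kh A r) with h | h
              · rw [max_eq_right h]; omega
              · rw [max_eq_left h]; omega)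
  have hswap := psum_swapR (RcU A (x / 4) s ψ) N f f
  rw [← hswap] at h
  exact h

/-- sum over the classes -/
theorem class_sumU {γ s : ℝ} {κ : ℕ → ℕ} {ψ f : ℕ → ℝ} {N : ℕ} (hf0 : ∀ q, 0 ≤ f q) (S : Finset ℕ)
    {B : ℝ} (hB : 0 ≤ B) (hB1 : ∀ k ∈ S, psum (TA γ ψ s) N (clU κ f k) (clU κ f k) ≤
      B * ((∑ q ∈ Icc 1 N, clU κ f k q) + (∑ q ∈ Icc 1 N, clU κ f k q) ^ 2)) :
    ∑ k ∈ S, psum (TA γ ψ s) N (clU κ f k) (clU κ f k) ≤
      2 * B * ((∑ q ∈ Icc 1 N, f q) + (∑ q ∈ Icc 1 N, f q) ^ 2) := by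
  classical
  set F : ℝ := ∑ q ∈ Icc 1 N, f q with hFdef
  have hF0 : 0 ≤ F := sum_nonneg fun q _ => hf0 q
  have hB2 : ∑ k ∈ S, ∑ q ∈ Icc 1 N, clU κ f k q ≤ 2 * F := by
    rw [sum_comm, hFdef, mul_sum]
    refine sum_le_sum fun q _ => ?_
    have h1 : ∀ k ∈ S, clU κ f k q ≤
        (if κ q = k then f q else 0) + (if κ q + 1 = k then f q else 0) := by
      intro k _
      unfold clU
      have := hf0 q
      by_cases h2 : κ q = k
      · rw [if_pos (Or.inl h2), if_pos h2]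
        split_ifs <;> linarith
      · by_cases h3 : κ q + 1 = k
        · rw [if_pos (Or.inr h3), if_neg h2, if_pos h3]
          linarith
        · rw [if_neg (by tauto), if_neg h2, if_neg h3]
          linarith
    refine (sum_le_sum h1).trans ?_
    rw [sum_add_distrib, sum_ite_eq, sum_ite_eq]
    have := hf0 q
    split_ifs <;> linarith
  refine (sum_le_sum hB1).trans ?_
  rw [← mul_sum, sum_add_distrib]
  have h1 : ∑ k ∈ S, (∑ q ∈ Icc 1 N, clU κ f k q) ^ 2 ≤ (2 * F) * F := by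
    refine le_trans ?_ (mul_le_mul_of_nonneg_right hB2 hF0)
    rw [sum_mul]
    refine sum_le_sum fun k _ => ?_
    rw [pow_two]
    exact mul_le_mul_of_nonneg_left (sum_le_sum fun q _ => (clU_le hf0 k q).2)
      (sum_nonneg fun q _ => (clU_le hf0 k q).1)
  calc _ ≤ B * (2 * F + (2 * F) * F) := mul_le_mul_of_nonneg_left (add_le_add hB2 h1) hB
    _ = _ := by ring

/-- the exceptional pairs -/
theorem class_excU {C₃ e t s x c F : ℝ} (hC₃ : 0 < C₃) (he : 4 ≤ e) (ht0 : 0 ≤ t) (hs : 0 < s)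
    (hs1 : s ≤ 1) (ht : t = Real.log (1 / s)) (hx : x = Real.exp (e * t)) (hc : c ≤ 1)
    (hF0 : 0 ≤ F) :
    C₃ / (x / 4) * (s * s) ^ (1 - 501 / 1000 : ℝ) * F ^ (2 * (501 / 1000) : ℝ) ≤
        C₃ * 4 * s ^ (1 + c) * (F + F ^ 2) := by
  have hFF : 0 ≤ F + F ^ 2 := add_nonneg hF0 (sq_nonneg F)
  have hlogs : Real.log (1 / s) = -Real.log s := by rw [one_div, Real.log_inv]
  have hx0 : 0 < x := by rw [hx]; exact Real.exp_pos _
  have h1 : C₃ / (x / 4) ≤ C₃ * 4 * s ^ (1 + c) := by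
    have h3 : 1 / x ≤ s ^ (1 + c) := by
      rw [hx, one_div, ← Real.exp_neg, Real.rpow_def_of_pos hs]
      apply Real.exp_le_exp.2
      have : Real.log s = -t := by rw [ht, hlogs, neg_neg]
      rw [this]
      nlinarith
    calc C₃ / (x / 4) = C₃ * 4 * (1 / x) := by
          field_simp
      _ ≤ _ := mul_le_mul_of_nonneg_left h3 (by positivity)
  have h2 : (s * s) ^ (1 - 501 / 1000 : ℝ) ≤ 1 :=
    Real.rpow_le_one (by positivity) (by nlinarith) (by norm_num)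
  have h3 : F ^ (2 * (501 / 1000) : ℝ) ≤ F + F ^ 2 :=
    rpow_le_add_sq hF0 (by norm_num) (by norm_num)
  have h5 : 0 ≤ C₃ / (x / 4) := by positivity
  calc C₃ / (x / 4) * (s * s) ^ (1 - 501 / 1000 : ℝ) * F ^ (2 * (501 / 1000) : ℝ)
      ≤ C₃ / (x / 4) * 1 * (F + F ^ 2) :=
        mul_le_mul (mul_le_mul_of_nonneg_left h2 h5) h3 (Real.rpow_nonneg hF0 _) (by positivity)
    _ = C₃ / (x / 4) * (F + F ^ 2) := by ring
    _ ≤ _ := mul_le_mul_of_nonneg_right h1 hFF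

/-- the exponents: `(H^(1/A))^(1+δ/2) ≤ (H/4)^((1+δ)/A)` for large `H` -/
theorem class_numU {A δ : ℝ} (hA : 1 ≤ A) (hδ : 0 < δ) {H : ℝ}
    (hH : (4 : ℝ) ^ (2 * (1 + δ) / δ) ≤ H) :
    (H ^ (1 / A)) ^ (1 + δ / 2) ≤ (H / 4) ^ ((1 + δ) / A) := by
  have hA0 : 0 < A := by linarith
  have h40 : (0 : ℝ) < (4 : ℝ) ^ (2 * (1 + δ) / δ) := Real.rpow_pos_of_pos (by norm_num) _
  have hH0 : 0 < H := h40.trans_le hH
  have h1 : (4 : ℝ) ^ ((1 + δ) / A) ≤ H ^ (δ / (2 * A)) := by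
    have h2 := Real.rpow_le_rpow h40.le hH (by positivity : 0 ≤ δ / (2 * A))
    rw [← Real.rpow_mul (by norm_num)] at h2
    have h3 : 2 * (1 + δ) / δ * (δ / (2 * A)) = (1 + δ) / A := by
      field_simp
    rw [h3] at h2
    exact h2
  rw [Real.div_rpow hH0.le (by norm_num), le_div_iff₀ (Real.rpow_pos_of_pos (by norm_num) _),
    ← Real.rpow_mul hH0.le]
  calc H ^ (1 / A * (1 + δ / 2)) * (4 : ℝ) ^ ((1 + δ) / A)
      ≤ H ^ (1 / A * (1 + δ / 2)) * H ^ (δ / (2 * A)) :=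
        mul_le_mul_of_nonneg_left h1 (Real.rpow_nonneg hH0.le _)
    _ = H ^ ((1 + δ) / A) := by
        rw [← Real.rpow_add hH0]
        congr 1
        field_simp
        ring

theorem typeA_U {δ : ℝ} (hδ : 0 < δ) (hδ1 : δ ≤ 1) :
    ∃ A : ℝ, 1 ≤ A ∧ TypeAP (PSmallU A δ) := by
  obtain ⟨A, C₁, c₁, ε₁, t₀, hA, hC₁, hc₁, hε₁, ht₀, hεA, hG, hCl⟩ :=
    typeUH (half_pos hδ) (by linarith : δ / 2 ≤ 1)
  obtain ⟨C₃, hC₃, hAn⟩ := anat_hg hA
  refine ⟨A, hA, ?_⟩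
  have hA0 : 0 < A := by linarith only [hA]
  obtain ⟨y₀, hy₀⟩ : ∃ y : ℝ, y = (4 : ℝ) ^ (2 * (1 + δ) / δ) := ⟨_, rfl⟩
  have hy1 : 0 < y₀ := by rw [hy₀]; exact Real.rpow_pos_of_pos (by norm_num) _
  obtain ⟨e, he⟩ : ∃ e : ℝ, e = ε₁ / 2 * A := ⟨_, rfl⟩
  have he4 : 4 ≤ e := by rw [he]; linarith only [hεA]
  have he0 : 0 < e := by linarith only [he4]
  obtain ⟨t₁, ht₁⟩ : ∃ t₁ : ℝ, t₁ = max t₀ (Real.log (4 + y₀) / e) := ⟨_, rfl⟩
  have ht₁0 : t₀ ≤ t₁ := by rw [ht₁]; exact le_max_left _ _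
  have ht₁1 : Real.log (4 + y₀) / e ≤ t₁ := by rw [ht₁]; exact le_max_right _ _
  obtain ⟨c, hc⟩ : ∃ c : ℝ, c = min c₁ 1 := ⟨_, rfl⟩
  have hc0 : 0 < c := by rw [hc]; exact lt_min hc₁ one_pos
  have hcc1 : c ≤ c₁ := by rw [hc]; exact min_le_left _ _
  have hcc3 : c ≤ 1 := by rw [hc]; exact min_le_right _ _
  refine ⟨Real.exp (t₁ * (1 + c)) + C₁ + 2 * C₁ + 2 * (C₃ * 4), c, by positivity, hc0, ?_⟩
  intro γ s hs hs3 N ψ f hψ hf hP
  have hf0 : ∀ q, 0 ≤ f q := fun q => (hf q).1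
  obtain ⟨G, hGdef⟩ : ∃ G : ℝ, G = (∑ q ∈ Icc 1 N, f q) + (∑ q ∈ Icc 1 N, f q) ^ 2 := ⟨_, rfl⟩
  have hF0 : 0 ≤ ∑ q ∈ Icc 1 N, f q := sum_nonneg fun q _ => hf0 q
  have hG0 : 0 ≤ G := by rw [hGdef]; positivity
  have hs1 : s ≤ 1 := by linarith only [hs3]
  have hp : 0 < s ^ (1 + c) := Real.rpow_pos_of_pos hs _
  have hexpand : (Real.exp (t₁ * (1 + c)) + C₁ + 2 * C₁ + 2 * (C₃ * 4)) * s ^ (1 + c) * G
      = Real.exp (t₁ * (1 + c)) * s ^ (1 + c) * G + (C₁ * s ^ (1 + c) * G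
        + 2 * (C₁ * s ^ (1 + c)) * G + C₃ * 4 * s ^ (1 + c) * G + C₃ * 4 * s ^ (1 + c) * G) := by
    ring
  have hE : 0 ≤ Real.exp (t₁ * (1 + c)) * s ^ (1 + c) * G := by positivity
  have hE1 : 0 ≤ C₁ * s ^ (1 + c) * G := by positivity
  have hE2 : 0 ≤ 2 * (C₁ * s ^ (1 + c)) * G := by positivity
  have hE3 : 0 ≤ C₃ * 4 * s ^ (1 + c) * G := by positivity
  rw [← hGdef, hexpand]
  by_cases ht : Real.log (1 / s) ≤ t₁
  · have h1 := class_bounded (γ := γ) (ψ := ψ) (N := N) hf0 hs hc0 ht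
    rw [← hGdef] at h1
    linarith only [h1, hE1, hE2, hE3]
  · rw [not_le] at ht
    obtain ⟨t, htdef⟩ : ∃ t : ℝ, t = Real.log (1 / s) := ⟨_, rfl⟩
    rw [← htdef] at ht
    have ht0 : 0 < t := by linarith only [ht, ht₁0, ht₀]
    obtain ⟨x, hx⟩ : ∃ x : ℝ, x = Real.exp (e * t) := ⟨_, rfl⟩
    have hx4 : 4 + y₀ ≤ x := by
      rw [hx]
      have h1 : Real.log (4 + y₀) ≤ e * t := by
        rw [div_le_iff₀ he0] at ht₁1
        have h2 : t₁ * e ≤ t * e := mul_le_mul_of_nonneg_right ht.le he0.le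
        linarith only [ht₁1, h2]
      calc 4 + y₀ = Real.exp (Real.log (4 + y₀)) := (Real.exp_log (by linarith only [hy1])).symm
        _ ≤ _ := Real.exp_le_exp.2 h1
    obtain ⟨k₀, hk1, hk2⟩ := exists_k0 (x := x) (by linarith only [hx4, hy1])
    have hk₀ : 2 ≤ k₀ := by
      by_contra hcon
      have : k₀ + 1 ≤ 2 := by omega
      have h3 : (2 : ℝ) ^ (k₀ + 1) ≤ 2 ^ 2 := pow_le_pow_right₀ (by norm_num) this
      norm_num at h3
      linarith only [h3, hk2, hx4, hy1]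
    have hsplit := class_splitU (A := A) (γ := γ) (s := s) (ψ := ψ) (N := N) hf0 hk2
    -- (a)
    have hA1 : psum (TA γ ψ s) N (lowU (kh A) k₀ f) (lowU (kh A) k₀ f) ≤
        C₁ * s ^ (1 + c) * G := by
      have h1 := hG γ s (2 ^ k₀) hs hs3 (one_le_pow₀ (by norm_num)) (by
        rw [← htdef]
        linarith only [ht, ht₁0]) (by
        rw [← htdef]
        calc ((2 : ℝ) ^ k₀) ^ (1 / A) ≤ x ^ (1 / A) :=
              Real.rpow_le_rpow (by positivity) hk1 (by positivity)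
          _ = Real.exp (ε₁ / 2 * t) := by
              rw [hx, he, ← Real.exp_mul]
              congr 1
              field_simp) N ψ (lowU (kh A) k₀ f) hψ
        (fun q => ⟨(lowU_le hf0 q).1, (lowU_le hf0 q).2.trans (hf q).2⟩) (by
        intro q hq
        exact ⟨(hP q (lowU_ne hq).1).1, hg_le_of_kh_le (lowU_ne hq).2⟩)
      have h2 : s ^ (1 + c₁) ≤ s ^ (1 + c) :=
        Real.rpow_le_rpow_of_exponent_ge hs hs1 (by linarith only [hcc1])
      have h3 : ∑ q ∈ Icc 1 N, lowU (kh A) k₀ f q ≤ ∑ q ∈ Icc 1 N, f q :=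
        sum_le_sum fun q _ => (lowU_le hf0 q).2
      have h4 : 0 ≤ ∑ q ∈ Icc 1 N, lowU (kh A) k₀ f q := sum_nonneg fun q _ => (lowU_le hf0 q).1
      refine h1.trans (mul_le_mul (mul_le_mul_of_nonneg_left h2 hC₁.le) ?_ (by positivity)
        (by positivity))
      rw [hGdef]
      exact add_le_add h3 (pow_le_pow_left₀ h4 h3 2)
    -- (b)
    have hB1 : ∀ k ∈ Icc (k₀ + 1) ((Icc 1 N).sup (kh A)),
        psum (TA γ ψ s) N (clU (kh A) f k) (clU (kh A) f k) ≤ (C₁ * s ^ (1 + c)) *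
          ((∑ q ∈ Icc 1 N, clU (kh A) f k q) + (∑ q ∈ Icc 1 N, clU (kh A) f k q) ^ 2) := by
      intro k hk
      have hk' : k₀ + 1 ≤ k := (mem_Icc.1 hk).1
      obtain ⟨m, hm⟩ : ∃ m, k = m + 2 := ⟨k - 2, by omega⟩
      have h4m : (2 : ℝ) ^ k = 4 * 2 ^ m := by
        rw [hm, pow_add]
        ring
      have hyk : y₀ ≤ 2 ^ k := by
        have h5 : (2 : ℝ) ^ (k₀ + 1) ≤ 2 ^ k := pow_le_pow_right₀ (by norm_num) hk'
        linarith only [h5, hk2, hx4]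
      rw [hy₀] at hyk
      have hnum := class_numU hA hδ hyk
      have h1 := hCl γ s (2 ^ k) hs hs3 (one_le_pow₀ (by norm_num)) N ψ
        (clU (kh A) f k) hψ (fun q => ⟨(clU_le hf0 k q).1, (clU_le hf0 k q).2.trans (hf q).2⟩) (by
        intro q hq
        obtain ⟨hq1, hq2⟩ := clU_ne hq
        have h6 := hP q hq1
        refine ⟨h6.1, hg_le_of_kh_le (by omega), h6.2.trans (Real.exp_le_exp.2 ?_)⟩
        rw [neg_le_neg_iff]
        have h7 : (2 : ℝ) ^ m < hg A q := lt_of_lt_kh (by omega)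
        refine hnum.trans (Real.rpow_le_rpow (by positivity) ?_ (by positivity))
        rw [h4m]
        linarith only [h7])
      have h2 : s ^ (1 + c₁) ≤ s ^ (1 + c) :=
        Real.rpow_le_rpow_of_exponent_ge hs hs1 (by linarith only [hcc1])
      refine h1.trans (mul_le_mul_of_nonneg_right (mul_le_mul_of_nonneg_left h2 hC₁.le) ?_)
      exact add_nonneg (sum_nonneg fun q _ => (clU_le hf0 k q).1) (sq_nonneg _)
    have hB3 := class_sumU hf0 _ (by positivity) hB1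
    rw [← hGdef] at hB3
    -- (c)
    have hD0 : psum (RcU A (x / 4) s ψ) N f f ≤ _ :=
      hAn (x / 4) s N ψ f (by linarith only [hx4, hy1]) hs hψ hf
    have hD1 := class_excU hC₃ he4 ht0.le hs hs1 htdef hx hcc3 hF0
    rw [← hGdef] at hD1
    have hfin := hD0.trans hD1
    linarith only [hsplit, hA1, hB3, hfin, hE]

end Vale.P028

end

section

/-!
# Theorem U
-/

namespace Vale.P028

open Finset MeasureTheory Filter

/-- no loss for small arcs -/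
theorem theoremU_small {δ : ℝ} (hδ : 0 < δ) (hδ1 : δ ≤ 1) :
    ∃ A : ℝ, 1 ≤ A ∧ ∀ (γ : ℝ) (ψ : ℕ → ℝ), (∀ q, 0 ≤ ψ q) → ∀ B : Set ℕ,
      (∀ q ∈ B, ψ q ≤ Real.exp (-(1 + hg A q) ^ ((1 + δ) / A))) →
      ¬ Summable (B.indicator (fun q : ℕ => ((q.totient : ℝ) / q) * ψ q)) →
      volume (W γ ψ)ᶜ = 0 := by
  classical
  obtain ⟨A, hA1, hTA⟩ := typeA_U hδ hδ1
  refine ⟨A, hA1, ?_⟩
  intro γ ψ hψ B hB hdiv
  refine full_P hTA γ ψ hψ ?_
  intro N
  have hg0 : ∀ q : ℕ, 0 ≤ ((q.totient : ℝ) / q) * ψ q := fun q =>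
    mul_nonneg (by (clear * -; positivity)) (hψ q)
  obtain ⟨S, hS, hF1⟩ := exists_finset_sum_ge
    (g := B.indicator (fun q : ℕ => ((q.totient : ℝ) / q) * ψ q))
    (fun q => Set.indicator_nonneg (fun q _ => hg0 q) q) hdiv (N + 1)
  have hSA : ∀ q ∈ S, q ∈ B := fun q hq => Set.mem_of_indicator_ne_zero (hS q hq).2
  have hsum : ∑ q ∈ S, B.indicator (fun q : ℕ => ((q.totient : ℝ) / q) * ψ q) q =
      ∑ q ∈ S, ((q.totient : ℝ) / q) * ψ q :=
    sum_congr rfl fun q hq => Set.indicator_of_mem (hSA q hq) _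
  rw [hsum] at hF1
  have hpos : ∀ q ∈ S, 0 < ψ q := by
    intro q hq
    refine lt_of_le_of_ne (hψ q) ?_
    intro h0
    have h1 := (hS q hq).2
    rw [Set.indicator_of_mem (hSA q hq), ← h0, mul_zero] at h1
    exact h1 rfl
  refine ⟨S, fun q hq => ⟨by have := (hS q hq).1; omega, hpos q hq⟩, hF1, ?_⟩
  intro q hq
  by_cases h : q ∈ S
  · beta_reduce
    rw [if_pos h]
    exact ⟨by have := (hS q h).1; omega, hB q (hSA q h)⟩
  · simp only [if_neg h, ne_eq, not_true_eq_false] at hq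

open Classical in
/-- **Theorem U** -/
theorem theoremU {δ : ℝ} (hδ : 0 < δ) :
    ∃ A : ℝ, 1 ≤ A ∧ ∀ (γ : ℝ) (ψ : ℕ → ℝ), (∀ q, 0 ≤ ψ q) →
      ((∃ C : ℝ, ¬ Summable (fun q : ℕ => if ∑ p ∈ q.primeFactors, (Real.log p) ^ A / p ≤ C then
          ((q.totient : ℝ) / q) * ψ q else 0)) ∨
        ¬ Summable (fun q : ℕ => ((q.totient : ℝ) / q) * ψ q /
          (if ψ q ≤ Real.exp (-(1 + ∑ p ∈ q.primeFactors, (Real.log p) ^ A / p) ^ ((1 + δ) / A))
            then 1 else (Real.log (2 + 1 / ψ q)) ^ δ))) →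
      volume (W γ ψ)ᶜ = 0 := by
  obtain ⟨A, hA1, hsmall⟩ := theoremU_small (δ := min δ 1) (lt_min hδ one_pos) (min_le_right _ _)
  have hA0 : 0 < A := by linarith
  refine ⟨A, hA1, ?_⟩
  intro γ ψ hψ
  have hg0 : ∀ q : ℕ, 0 ≤ ((q.totient : ℝ) / q) * ψ q := fun q =>
    mul_nonneg (by (clear * -; positivity)) (hψ q)
  -- the weighted divergence
  have hmain : ¬ Summable (fun q : ℕ => ((q.totient : ℝ) / q) * ψ q /
          (if ψ q ≤ Real.exp (-(1 + ∑ p ∈ q.primeFactors, (Real.log p) ^ A / p) ^ ((1 + δ) / A))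
            then 1 else (Real.log (2 + 1 / ψ q)) ^ δ)) → volume (W γ ψ)ᶜ = 0 := by
    intro hdiv
    set B : Set ℕ := {q | ψ q ≤ Real.exp
      (-(1 + ∑ p ∈ q.primeFactors, (Real.log p) ^ A / p) ^ ((1 + δ) / A))} with hBdef
    by_cases h1 : Summable (B.indicator (fun q : ℕ => ((q.totient : ℝ) / q) * ψ q))
    · by_cases h2 : Summable (fun q : ℕ => ((q.totient : ℝ) / q) * ψ q /
        (Real.log (2 + 1 / ψ q)) ^ δ)
      · exfalso
        apply hdiv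
        refine Summable.of_nonneg_of_le ?_ ?_ (h1.add h2)
        · intro q
          apply div_nonneg (hg0 q)
          split_ifs
          · exact zero_le_one
          · apply Real.rpow_nonneg
            apply Real.log_nonneg
            have := one_div_nonneg.mpr (hψ q)
            linarith
        · intro q
          have hl : 0 ≤ (Real.log (2 + 1 / ψ q)) ^ δ := by
            apply Real.rpow_nonneg
            apply Real.log_nonneg
            have := one_div_nonneg.mpr (hψ q)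
            linarith
          split_ifs with h
          · rw [div_one, Set.indicator_of_mem (show q ∈ B from h)]
            have := div_nonneg (hg0 q) hl
            linarith
          · rw [Set.indicator_of_notMem (show q ∉ B from h), zero_add]
      · exact theoremS γ ψ hψ hδ h2
    · refine hsmall γ ψ hψ B ?_ h1
      intro q hq
      have hq' : ψ q ≤ Real.exp
        (-(1 + ∑ p ∈ q.primeFactors, (Real.log p) ^ A / p) ^ ((1 + δ) / A)) := hq
      refine hq'.trans (Real.exp_le_exp.mpr (neg_le_neg ?_))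
      have h4 := hg_nonneg A q
      have h5 : (1 + hg A q) ^ ((1 + min δ 1) / A) ≤ (1 + hg A q) ^ ((1 + δ) / A) := by
        apply Real.rpow_le_rpow_of_exponent_le (by linarith)
        apply div_le_div_of_nonneg_right _ hA0.le
        have := min_le_left δ 1
        linarith
      exact h5
  rintro (⟨C, hC⟩ | hdiv)
  · apply hmain
    intro hs
    apply hC
    obtain ⟨E, hE⟩ : ∃ E : ℝ, E = Real.log (2 + Real.exp ((1 + max C 0) ^ ((1 + δ) / A))) :=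
      ⟨_, rfl⟩
    have hE0 : 0 ≤ E := by
      rw [hE]
      apply Real.log_nonneg
      have := Real.exp_pos ((1 + max C 0) ^ ((1 + δ) / A))
      linarith
    have hEδ : 0 ≤ E ^ δ := Real.rpow_nonneg hE0 _
    refine Summable.of_nonneg_of_le ?_ ?_ (hs.mul_left (E ^ δ + 1))
    · intro q
      split_ifs
      · exact hg0 q
      · exact le_rfl
    · intro q
      have hsg := hg_nonneg A q
      unfold hg at hsg
      have hl0 : 0 < Real.log (2 + 1 / ψ q) := Real.log_pos (by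
        have := one_div_nonneg.mpr (hψ q)
        linarith)
      have hw0 : 0 ≤ ((q.totient : ℝ) / q) * ψ q /
        (if ψ q ≤ Real.exp (-(1 + ∑ p ∈ q.primeFactors, (Real.log p) ^ A / p) ^ ((1 + δ) / A))
          then 1 else (Real.log (2 + 1 / ψ q)) ^ δ) := by
        apply div_nonneg (hg0 q)
        split_ifs
        · exact zero_le_one
        · exact Real.rpow_nonneg hl0.le _
      by_cases hCq : ∑ p ∈ q.primeFactors, (Real.log p) ^ A / p ≤ C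
      · rw [if_pos hCq]
        by_cases hψ' : ψ q ≤ Real.exp
            (-(1 + ∑ p ∈ q.primeFactors, (Real.log p) ^ A / p) ^ ((1 + δ) / A))
        · rw [if_pos hψ', div_one]
          have := hg0 q
          nlinarith
        · have hlδ : 0 < (Real.log (2 + 1 / ψ q)) ^ δ := Real.rpow_pos_of_pos hl0 _
          rw [if_neg hψ', ← mul_div_assoc, le_div_iff₀ hlδ]
          rw [mul_comm (E ^ δ + 1)]
          apply mul_le_mul_of_nonneg_left _ (hg0 q)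
          push Not at hψ'
          have h1 : 1 / ψ q ≤ Real.exp ((1 + max C 0) ^ ((1 + δ) / A)) := by
            have h2 : Real.exp (-(1 + max C 0) ^ ((1 + δ) / A)) ≤ ψ q := by
              refine le_trans (Real.exp_le_exp.mpr (neg_le_neg ?_)) hψ'.le
              apply Real.rpow_le_rpow (by linarith) _ (div_nonneg (by linarith) hA0.le)
              have := le_max_left C 0
              linarith
            rw [one_div]
            rw [Real.exp_neg] at h2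
            exact inv_le_of_inv_le₀ (Real.exp_pos _) h2
          have h3 : Real.log (2 + 1 / ψ q) ≤ E := by
            rw [hE]
            apply Real.log_le_log _ (by linarith)
            have := one_div_nonneg.mpr (hψ q)
            linarith
          have h4 : (Real.log (2 + 1 / ψ q)) ^ δ ≤ E ^ δ := Real.rpow_le_rpow hl0.le h3 hδ.le
          linarith
      · rw [if_neg hCq]
        exact mul_nonneg (by linarith) hw0
  · exact hmain hdiv

end Vale.P028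

end

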